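import Vale.Agent.P043.Three.Pins
import Vale.Agent.P043.Combine
import Vale.Agent.P043.Lift
import Vale.Agent.P043.Euclid

/-!
P043, three dimensions: ANY nonempty finite system of tiling equations with a common translation
set becomes one tile with an extra cyclic factor (no fibre subgroup, no cardinality hypothesis).
Equation `i` gets the two layers `2^(2i)`, `2^(2i+1)` of `ZMod N`, all other layers get one fixed
equation `F i₀`.
-/

namespace Vale.Agent.P043.Three

open Finset

/-- A finite system of equations becomes one tile with an extra cyclic factor of arbitrarily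
large prime order. -/
theorem exists_combine {G ι : Type*} [AddCommGroup G] [Fintype ι]
    (W : Finset G) (hW : ∀ H : AddSubgroup G, (∀ w ∈ W, w ∈ H) → H = ⊤)
    (F : ι → Finset G) (i₀ : ι)
    (hex : ∃ A, SystemTiles F A) (hno : ∀ A, SystemTiles F A → ¬ IsPeriodic A) (n₀ : ℕ) :
    ∃ (N : ℕ) (T : Finset (G × ZMod N)), N.Prime ∧ n₀ < N ∧ IsAperiodicTile T := by
  classical
  set U : Finset G := F i₀ with hU
  obtain ⟨k₀, hk₀⟩ : U.Nonempty := by
    obtain ⟨A, hA⟩ := hex
    obtain ⟨f, ⟨hf, -⟩, -⟩ := hA i₀ 0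
    exact ⟨f, hf⟩
  -- the equations and their layers
  set Eq : ι ⊕ W → Finset G := Sum.elim F (fun w => U.image fun k => (w : G) + k) with hEq
  obtain ⟨M, ⟨num⟩⟩ : ∃ M, Nonempty (ι ⊕ W ≃ Fin M) := ⟨_, ⟨Fintype.equivFin _⟩⟩
  set size : ℕ := ∑ i, (Eq i).card with hsize
  obtain ⟨N, hN, hNp⟩ :=
    Nat.exists_infinite_primes (2 ^ (2 * M + 2) + 2 * M * size + n₀ + 1)
  have : NeZero N := ⟨hNp.ne_zero⟩
  have hpw : ∀ p q, p < 2 * M → q < 2 * M → (2 : ZMod N) ^ p = 2 ^ q → p = q := by
    intro p q hp hq h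
    have h' : ((2 ^ p : ℕ) : ZMod N) = ((2 ^ q : ℕ) : ZMod N) := by push_cast; exact h
    rw [ZMod.natCast_eq_natCast_iff'] at h'
    have b : ∀ s, s < 2 * M → 2 ^ s < N := fun s hs => by
      have := Nat.pow_le_pow_right (show 0 < 2 by norm_num) (show s ≤ 2 * M + 2 by omega)
      omega
    rw [Nat.mod_eq_of_lt (b p hp), Nat.mod_eq_of_lt (b q hq)] at h'
    exact Nat.pow_right_injective le_rfl h'
  set lay : (ι ⊕ W) × Fin 2 → ZMod N :=
    fun u => 2 ^ (2 * (num u.1 : ℕ) + (u.2 : ℕ)) with hlay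
  have hinj : Function.Injective lay := by
    rintro ⟨i, b⟩ ⟨i', b'⟩ h
    have h1 := (num i).2
    have h2 := (num i').2
    have h3 := b.2
    have h4 := b'.2
    have := hpw (2 * (num i : ℕ) + (b : ℕ)) (2 * (num i' : ℕ) + (b' : ℕ)) (by omega) (by omega) h
    have e1 : num i = num i' := Fin.ext (by omega)
    have e2 : b = b' := Fin.ext (by omega)
    exact Prod.ext (num.injective e1) e2
  set E : Finset (ZMod N) := univ.image lay with hE
  have hEle : E.card ≤ 2 * M := by
    refine card_image_le.trans ?_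
    simp [Fintype.card_congr num, mul_comm]
  have hEcard : 2 * E.card < N := by
    have : 2 ^ (2 * M + 2) = 2 * 2 ^ (2 * M + 1) := by rw [pow_succ']
    have := Nat.lt_two_pow_self (n := 2 * M + 1)
    omega
  set tile : ZMod N → Finset G :=
    fun z => if h : z ∈ E then Eq (mem_image.1 h).choose.1 else U with htile
  have tile_lay : ∀ i b, tile (lay (i, b)) = Eq i := by
    intro i b
    have h : lay (i, b) ∈ E := mem_image_of_mem _ (mem_univ _)
    simp only [htile, dif_pos h]
    rw [hinj (mem_image.1 h).choose_spec.2]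
  have tile_out : ∀ z, z ∉ E → tile z = U := fun z h => by simp only [htile, dif_neg h]
  have tile_card : ∀ z ∈ E, (tile z).card ≤ size := by
    intro z h
    obtain ⟨⟨i, b⟩, -, rfl⟩ := mem_image.1 h
    rw [tile_lay]
    exact single_le_sum (f := fun j => (Eq j).card) (fun j _ => Nat.zero_le _) (mem_univ i)
  set T : Finset (G × ZMod N) := univ.biUnion fun z => tile z ×ˢ {z} with hT
  have memT : ∀ f z, (f, z) ∈ T ↔ f ∈ tile z := by intro f z; simp [hT]
  have := Nat.two_pow_pos (2 * M + 2)
  refine ⟨N, T, hNp, by omega, ?_, ?_⟩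
  · -- existence
    obtain ⟨A, hA⟩ := hex
    have hK : IsTiling U A := hA i₀
    have htl : ∀ z, IsTiling (tile z) A := by
      intro z
      by_cases h : z ∈ E
      · obtain ⟨⟨i, b⟩, -, rfl⟩ := mem_image.1 h
        rw [tile_lay]
        rcases i with i | w
        · exact hA i
        · intro g
          obtain ⟨k, ⟨hk, hkA⟩, hu⟩ := hK (g - w)
          refine ⟨w + k, ⟨mem_image_of_mem _ hk, by rwa [← sub_sub]⟩, ?_⟩
          rintro f ⟨hf, hfA⟩
          obtain ⟨k', hk', rfl⟩ := mem_image.1 hf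
          rw [hu k' ⟨hk', by rwa [sub_sub]⟩]
      · rw [tile_out z h]; exact hK
    refine ⟨{p | p.2 = 0 ∧ p.1 ∈ A}, fun p => ?_⟩
    obtain ⟨g, y⟩ := p
    obtain ⟨f, ⟨hf, hfA⟩, hu⟩ := htl y g
    refine ⟨(f, y), ⟨(memT f y).2 hf, sub_self y, hfA⟩, ?_⟩
    rintro ⟨f', z⟩ ⟨hf', hz : y - z = 0, hfA'⟩
    obtain rfl := sub_eq_zero.1 hz
    rw [hu f' ⟨(memT f' y).1 hf', hfA'⟩]
  · intro A hA hper
    -- translates of the base equation by two points of the tiling are disjoint
    have huniq : ∀ a ∈ A, ∀ b ∈ A, ∀ g, g - a.1 ∈ U → g - b.1 ∈ U → a = b := by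
      intro a ha b hb g hga hgb
      obtain ⟨y, hy1, hy2⟩ : ∃ y, y - a.2 ∉ E ∧ y - b.2 ∉ E := by
        by_contra hcon
        push Not at hcon
        have hsub : (univ : Finset (ZMod N)) ⊆ E.image (· + a.2) ∪ E.image (· + b.2) := by
          intro y _
          by_cases h : y - a.2 ∈ E
          · exact mem_union_left _ (mem_image.2 ⟨_, h, sub_add_cancel _ _⟩)
          · exact mem_union_right _ (mem_image.2 ⟨_, hcon y h, sub_add_cancel _ _⟩)
        have := (card_le_card hsub).trans
          ((card_union_le _ _).trans (add_le_add card_image_le card_image_le))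
        rw [card_univ, ZMod.card] at this
        omega
      have h1 : (g - a.1, y - a.2) ∈ T := by rw [memT, tile_out _ hy1]; exact hga
      have h2 : (g - b.1, y - b.2) ∈ T := by rw [memT, tile_out _ hy2]; exact hgb
      have := (hA (g, y)).unique ⟨h1, by simpa using ha⟩ ⟨h2, by simpa using hb⟩
      rw [Prod.mk.injEq, sub_right_inj, sub_right_inj] at this
      exact Prod.ext this.1 this.2
    -- and they cover
    have hex' : ∀ g, ∃ a ∈ A, g - a.1 ∈ U := by
      intro g
      by_contra hcon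
      push Not at hcon
      choose cov hcov _ using hA
      have hzE : ∀ y, (cov (g, y)).2 ∈ E := by
        intro y
        by_contra hz
        have hm := (hcov (g, y)).1
        rw [← Prod.mk.eta (p := cov (g, y)), memT, tile_out _ hz] at hm
        exact hcon _ (hcov (g, y)).2 (by simpa using hm)
      have hle : (univ : Finset (ZMod N)).card ≤ (E.biUnion fun z => tile z ×ˢ {z}).card := by
        refine card_le_card_of_injOn (fun y => cov (g, y)) ?_ ?_
        · intro y _
          refine mem_biUnion.2 ⟨_, hzE y, ?_⟩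
          have hm := (hcov (g, y)).1
          rw [← Prod.mk.eta (p := cov (g, y)), memT] at hm
          exact mem_product.2 ⟨hm, mem_singleton_self _⟩
        · intro u _ v _ huv
          simp only at huv
          have h1 := (hcov (g, u)).2
          have h2 := (hcov (g, v)).2
          rw [huv] at h1
          have := huniq _ h1 _ h2 (g - (cov (g, v)).1 + k₀) (by simpa using hk₀)
            (by simpa using hk₀)
          simpa using this
      have h2 := hle.trans card_biUnion_le
      simp only [card_product, card_singleton, mul_one, card_univ, ZMod.card] at h2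
      have h3 := h2.trans (sum_le_card_nsmul _ _ _ tile_card)
      rw [smul_eq_mul] at h3
      have := Nat.mul_le_mul_right size hEle
      omega
    choose pt hpt hptU using hex'
    have hpt_eq : ∀ a ∈ A, ∀ g, g - a.1 ∈ U → pt g = a :=
      fun a ha g h => huniq _ (hpt g) _ ha g (hptU g) h
    -- equations do not change the layer
    have hstep : ∀ a ∈ A, ∀ i, ∀ f ∈ Eq i, (pt (a.1 + f)).2 = a.2 := by
      intro a ha i f hf
      set b := pt (a.1 + f) with hb
      have hclaim : ∀ s, lay (i, s) + (a.2 - b.2) ∈ E := by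
        intro s
        by_contra hz
        have h1 : (f, lay (i, s)) ∈ T := by rw [memT, tile_lay]; exact hf
        have h2 : (a.1 + f - b.1, lay (i, s) + (a.2 - b.2)) ∈ T := by
          rw [memT, tile_out _ hz]
          exact hptU _
        have := (hA (a.1 + f, a.2 + lay (i, s))).unique ⟨h1, by simpa using ha⟩
          ⟨h2, by
            convert hpt (a.1 + f) using 1
            refine Prod.ext (by simp [hb]) ?_
            simp [hb]; ring⟩
        rw [Prod.mk.injEq] at this
        exact hz (this.2 ▸ mem_image_of_mem _ (mem_univ _))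
      obtain ⟨u, -, hu⟩ := mem_image.1 (hclaim 0)
      obtain ⟨v, -, hv⟩ := mem_image.1 (hclaim 1)
      simp only [hlay, Fin.val_zero, Fin.val_one, add_zero, pow_succ] at hu hv
      set r := 2 * (num i : ℕ) with hr
      set p := 2 * (num u.1 : ℕ) + (u.2 : ℕ) with hp
      set q := 2 * (num v.1 : ℕ) + (v.2 : ℕ) with hq
      have heq : ((2 ^ p + 2 ^ r : ℕ) : ZMod N) = ((2 ^ q : ℕ) : ZMod N) := by
        push_cast
        rw [hu, hv]
        ring
      have hlt : ∀ w : ι ⊕ W, ∀ s : Fin 2, 2 ^ (2 * (num w : ℕ) + (s : ℕ)) ≤ 2 ^ (2 * M) :=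
        fun w s => Nat.pow_le_pow_right (show 0 < 2 by norm_num)
          (by have := (num w).2; have := s.2; omega)
      rw [ZMod.natCast_eq_natCast_iff', Nat.mod_eq_of_lt, Nat.mod_eq_of_lt] at heq
      · rw [two_pow_add_two_pow heq] at hu
        have : a.2 - b.2 = 0 := by linear_combination -hu
        exact (sub_eq_zero.1 this).symm
      · have := hlt v.1 v.2
        rw [← hq] at this
        have := Nat.pow_le_pow_right (show 0 < 2 by norm_num) (show 2 * M ≤ 2 * M + 2 by omega)
        omega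
      · have h1 := hlt u.1 u.2
        have h2 := hlt i 0
        simp only [Fin.val_zero, add_zero] at h2
        rw [← hr] at h2
        rw [← hp] at h1
        have h3 : 2 ^ (2 * M + 2) = 4 * 2 ^ (2 * M) := by rw [pow_add]; ring
        omega
    -- so the layer is constant
    have hconst : ∀ g, (pt g).2 = (pt 0).2 := by
      let H : AddSubgroup G :=
        { carrier := {w | ∀ g, (pt (g + w)).2 = (pt g).2}
          zero_mem' := fun g => by rw [add_zero]
          add_mem' := fun {x y} hx hy g => by rw [← add_assoc, hy, hx]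
          neg_mem' := fun {x} hx g => by
            have := hx (g + -x)
            rw [neg_add_cancel_right] at this
            exact this.symm }
      have hH : H = ⊤ := hW H fun w hw g => by
        have h1 := hstep _ (hpt g) (Sum.inr ⟨w, hw⟩) (w + (g - (pt g).1))
          (mem_image.2 ⟨_, hptU g, rfl⟩)
        rwa [show (pt g).1 + (w + (g - (pt g).1)) = g + w by abel] at h1
      intro g
      have hg : g ∈ H := hH ▸ AddSubgroup.mem_top g
      simpa using hg 0
    have hlayer : ∀ a ∈ A, a.2 = (pt 0).2 := by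
      intro a ha
      rw [← hconst (a.1 + k₀), hpt_eq a ha _ (by simpa using hk₀)]
    -- the projected set solves the system
    refine hno {x | (x, (pt 0).2) ∈ A} ?_ ?_
    · intro i g
      set z := lay (Sum.inl i, 0)
      obtain ⟨⟨f, z'⟩, ⟨hf, hfA⟩, hu⟩ := hA (g, (pt 0).2 + z)
      have hz : z' = z := by
        have := hlayer _ hfA
        simp only [Prod.mk_sub_mk] at this
        linear_combination -this
      subst hz
      rw [memT, tile_lay] at hf
      refine ⟨f, ⟨hf, ?_⟩, ?_⟩
      · simpa using hfA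
      · rintro f' ⟨hf', hfA'⟩
        have := hu (f', z) ⟨by rw [memT, tile_lay]; exact hf', by simpa using hfA'⟩
        exact (Prod.mk.injEq _ _ _ _ ▸ this).1
    · obtain ⟨P, hP, hinv⟩ := hper
      refine ⟨P.map (AddMonoidHom.fst G (ZMod N)), ?_, ?_⟩
      · rw [AddSubgroup.finiteIndex_iff] at hP ⊢
        exact ne_zero_of_dvd_ne_zero hP (AddSubgroup.index_map_dvd _ fun x => ⟨(x, 0), rfl⟩)
      · rintro _ ⟨⟨h, t⟩, hp, rfl⟩ x
        change (x + h, (pt 0).2) ∈ A ↔ (x, (pt 0).2) ∈ A
        constructor <;> intro hx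
        · have h1 := (hinv _ (P.neg_mem hp) (x + h, (pt 0).2)).2 hx
          have h2 := hlayer _ h1
          simp only [Prod.neg_mk, Prod.mk_add_mk] at h1 h2
          rw [h2, add_neg_cancel_right] at h1
          exact h1
        · have h1 := (hinv _ hp (x, (pt 0).2)).2 hx
          have h2 := hlayer _ h1
          simp only [Prod.mk_add_mk] at h1 h2
          rwa [h2] at h1

/-- Generators of the plane times a finite group. -/
theorem plane_gen {Γ : Type} [AddCommGroup Γ] [Fintype Γ] : ∃ W : Finset ((ℤ × ℤ) × Γ),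
    ∀ H : AddSubgroup ((ℤ × ℤ) × Γ), (∀ w ∈ W, w ∈ H) → H = ⊤ := by
  classical
  refine ⟨{((1, 0), 0), ((0, 1), 0)} ∪ univ.image fun γ : Γ => ((0 : ℤ × ℤ), γ), fun H hH => ?_⟩
  rw [AddSubgroup.eq_top_iff']
  rintro ⟨⟨n, m⟩, γ⟩
  have e : ((n, m), γ) = n • (((1 : ℤ), (0 : ℤ)), (0 : Γ)) + m • (((0 : ℤ), (1 : ℤ)), (0 : Γ))
      + ((0 : ℤ × ℤ), γ) := by simp
  rw [e]
  exact H.add_mem (H.add_mem (H.zsmul_mem (hH _ (by simp)) n)
    (H.zsmul_mem (hH _ (by simp)) m)) (hH _ (by simp))

/-- A system on the plane times a finite cyclic group becomes one tile on such a group. -/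
theorem combineThree {Γ : Type} [AddCommGroup Γ] [Fintype Γ] (π : ℤ →+ Γ)
    (hπ : Function.Surjective π) {ι : Type} [Fintype ι] [Nonempty ι]
    (F : ι → Finset ((ℤ × ℤ) × Γ))
    (hex : ∃ A, SystemTiles F A) (hno : ∀ A, SystemTiles F A → ¬ IsPeriodic A) :
    ∃ (Γ' : Type) (_ : AddCommGroup Γ') (T : Finset ((ℤ × ℤ) × Γ')),
      (∃ ρ : ℤ →+ Γ', Function.Surjective ρ) ∧ IsAperiodicTile T := by
  classical
  obtain ⟨W, hW⟩ := plane_gen (Γ := Γ)
  obtain ⟨N, T, hNp, hNcard, hT⟩ :=
    exists_combine W hW F (Classical.arbitrary ι) hex hno (Fintype.card Γ)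
  have : Fact N.Prime := ⟨hNp⟩
  refine ⟨Γ × ZMod N, inferInstance,
    T.map (AddEquiv.prodAssoc (M := ℤ × ℤ) (N := Γ) (P := ZMod N)).toEquiv.toEmbedding,
    ⟨π.prod (Int.castAddHom (ZMod N)), ?_⟩, hT.map _⟩
  rintro ⟨γ, t⟩
  obtain ⟨v, rfl⟩ := hπ γ
  have hne : ((Fintype.card Γ : ℕ) : ZMod N) ≠ 0 := by
    rw [Ne, ZMod.natCast_eq_zero_iff]
    exact fun h => absurd (Nat.le_of_dvd Fintype.card_pos h) (by omega)
  obtain ⟨k, hk⟩ := ZMod.intCast_surjective ((t - (v : ZMod N)) / (Fintype.card Γ : ZMod N))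
  refine ⟨v + Fintype.card Γ • k, Prod.ext ?_ ?_⟩
  · change π (v + _) = π v
    rw [map_add, map_nsmul, card_nsmul_eq_zero, add_zero]
  · simp [hk]
    field_simp
    ring

/-- Two plane directions and one finite generator fit in three dimensions. -/
theorem exists_surjective_lattice_three {Γ : Type} [AddCommGroup Γ] {d : ℕ} (hd : 3 ≤ d)
    (π : ℤ →+ Γ) (hπ : Function.Surjective π) :
    ∃ ρ : (Fin d → ℤ) →+ (ℤ × ℤ) × Γ, Function.Surjective ρ := by
  let sel : (Fin d → ℤ) →+ (ℤ × ℤ) × ℤ :=
    { toFun := fun v => ((v ⟨0, by omega⟩, v ⟨1, by omega⟩), v ⟨2, by omega⟩)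
      map_zero' := rfl
      map_add' := fun _ _ => rfl }
  refine ⟨((AddMonoidHom.id (ℤ × ℤ)).prodMap π).comp sel, ?_⟩
  rintro ⟨⟨a, b⟩, γ⟩
  obtain ⟨w, rfl⟩ := hπ γ
  exact ⟨fun j => if j.1 = 0 then a else if j.1 = 1 then b else w, by simp [sel]⟩

/-- Such a system refutes the periodic tiling conjecture in `ℤ^d` and `ℝ^d` for all `d ≥ 3`. -/
theorem fails_from_three_of_system {Γ : Type} [AddCommGroup Γ] [Fintype Γ] (π : ℤ →+ Γ)
    (hπ : Function.Surjective π) {ι : Type} [Fintype ι] [Nonempty ι]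
    (F : ι → Finset ((ℤ × ℤ) × Γ))
    (hex : ∃ A, SystemTiles F A) (hno : ∀ A, SystemTiles F A → ¬ IsPeriodic A) (d : ℕ)
    (hd : 3 ≤ d) :
    (∃ T : Finset (Fin d → ℤ), T.Nonempty ∧ IsAperiodicTile T) ∧ Euclid.HasAperiodicTile d := by
  obtain ⟨Γ', i1, T, ⟨ρ, hρ⟩, hT⟩ := combineThree π hπ F hex hno
  obtain ⟨σ, hσ⟩ := exists_surjective_lattice_three hd ρ hρ
  obtain ⟨T', hne, hT'⟩ := liftPin d (by omega) _ inferInstance σ hσ T hT
  exact ⟨⟨T', hne, hT'⟩, Euclid.hasAperiodicTile_of hne hT'⟩

/-- A system with cyclic finite factor gives tiles in all dimensions at least three. -/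
theorem combineThreePin : CombineThreePin := by
  rintro ⟨Γ, iG, iF, U, ι, iι, F, -, -, ⟨i₀, -⟩, ⟨π, hπ⟩, hex, hno⟩ d hd
  have : Nonempty ι := ⟨i₀⟩
  exact (fails_from_three_of_system π hπ F hex hno d hd).1

/-- The Euclidean half: bounded measurable tiles of `ℝ^d` without periodic tilings, `d ≥ 3`. -/
theorem euclidean_fails_from_three (h : FailsFromThree) :
    ∀ d : ℕ, 3 ≤ d → Euclid.HasAperiodicTile d := fun d hd =>
  let ⟨_, hne, hF⟩ := h d hd
  Euclid.hasAperiodicTile_of hne hF

end Vale.Agent.P043.Three
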