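import Vale.Agent.P043.Three.Layer.Local
import Vale.Agent.P043.Three.Layer.Clause

/-!
P043, dimension three: blocks, local equations and clauses of positive literals give a system of
tiling equations with a cyclic finite factor (`LayerPin`).
-/

namespace Vale.Agent.P043.Three

open Finset Layer

/-- The literals of a clause, enumerated. -/
theorem exists_enum {β : Type} [Fintype β] {Γ : β → Type} (C : ∀ b, Option (Γ b))
    (h : ∃ b t, C b = some t) :
    ∃ (k : ℕ) (e : Fin (k + 1) → β) (t : ∀ i, Γ (e i)), Function.Injective e ∧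
      (∀ i, C (e i) = some (t i)) ∧ ∀ b s, C b = some s → ∃ i, e i = b := by
  classical
  obtain ⟨b₀, t₀, h₀⟩ := h
  set s : Finset β := univ.filter fun b => (C b).isSome with hs
  have hb₀ : b₀ ∈ s := by simp [hs, h₀]
  have hcard : s.card = s.card - 1 + 1 := by
    have := card_pos.2 ⟨b₀, hb₀⟩
    omega
  let f : Fin (s.card - 1 + 1) ≃ s := (Fintype.equivFinOfCardEq (by simpa using hcard)).symm
  have hsome : ∀ i, (C (f i).1).isSome := fun i => (mem_filter.1 (f i).2).2
  refine ⟨s.card - 1, fun i => (f i).1, fun i => (C (f i).1).get (hsome i),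
    Subtype.val_injective.comp f.injective, fun i => (Option.some_get _).symm, fun b t hb => ?_⟩
  exact ⟨f.symm ⟨b, by simp [hs, hb]⟩, by simp⟩

/-- The layer pin. -/
theorem layerPin : LayerPin := by
  classical
  intro β _ Γ _ _ U h0 hcyc ι₁ _ b₁ L₁ hL₁ ι₂ _ b₂ c₂ L₂ hne hL₂ ι₃ _ C hC hCt Good hex hno
  obtain ⟨π, hπ⟩ := hcyc
  -- the generators of the complementary blocks
  let gen : β → ∀ b, Γ b := fun b => Function.update (π 1) b 0
  have hg : ∀ b, gen b b = 0 := fun b => Function.update_self ..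
  have hgen : ∀ b, ∀ y : ∀ b, Γ b, y b = 0 → ∃ k : ℤ, k • gen b = y := by
    intro b y hy
    obtain ⟨n, rfl⟩ := hπ y
    refine ⟨n, funext fun b' => ?_⟩
    rcases eq_or_ne b' b with rfl | hne
    · simp [gen, hy]
    · have hn : π n = n • π 1 := by rw [← map_zsmul, smul_eq_mul, mul_one]
      simp [gen, hne, hn]
  -- the clauses as enumerated literals
  choose k e t he hCe hCb using fun i => exists_enum (C i) (hC i)
  have ht : ∀ i j, ∀ u ∈ U (e i j), ∀ u' ∈ U (e i j), u - u' ≠ t i j := fun i j =>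
    hCt i _ _ (hCe i j)
  have hclause : ∀ (a : ∀ b, ℤ × ℤ → Set (Γ b)) (i : ι₃) (X : ℤ × ℤ),
      (∃ b s, C i b = some s ∧ Inv (a b X) s) ↔ ∃ j, Inv (a (e i j) X) (t i j) := by
    intro a i X
    constructor
    · rintro ⟨b, s, hb, hinv⟩
      obtain ⟨j, rfl⟩ := hCb i b s hb
      rw [hCe i j, Option.some.injEq] at hb
      exact ⟨j, hb ▸ hinv⟩
    · rintro ⟨j, hj⟩
      exact ⟨_, _, hCe i j, hj⟩
  -- the system
  let F : Option β ⊕ (ι₁ ⊕ (ι₂ ⊕ ι₃)) → Finset ((ℤ × ℤ) × ∀ b, Γ b) := fun j =>
    match j with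
    | .inl none => vert (prodU U)
    | .inl (some b) => forceTile U b (gen b)
    | .inr (.inl i) => localTile₁ U (b₁ i) (L₁ i)
    | .inr (.inr (.inl i)) => localTile₂ U (b₂ i) (c₂ i) (L₂ i)
    | .inr (.inr (.inr i)) => clauseTile U (e i) (t i)
  refine ⟨∀ b, Γ b, inferInstance, inferInstance, prodU U, Option β ⊕ (ι₁ ⊕ (ι₂ ⊕ ι₃)),
    inferInstance, F, mem_prodU.2 h0, fun j => ?_, ⟨.inl none, rfl⟩, ⟨π, hπ⟩, ?_,
    fun A hA hper => ?_⟩
  · rcases j with (_ | b) | i | i | i <;> simp only [F]
    · exact card_vert (prodU U)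
    · exact card_forceTile U (hg b)
    · exact card_localTile₁ (hL₁ i)
    · exact card_localTile₂ (hne i) (hL₂ i)
    · exact card_clauseTile (he i) (ht i)
  · obtain ⟨a, ha, h1, h2, h3⟩ := hex
    refine ⟨prodSet a, fun j => ?_⟩
    rcases j with (_ | b) | i | i | i <;> simp only [F]
    · exact (isTiling_vert_iff _ _).2 fun X => isTiling_prodU fun b => ha b X
    · exact isTiling_forceTile (hg b) ha
    · exact (isTiling_localTile₁ _ _ ha).2 (h1 i)
    · exact (isTiling_localTile₂ (hne i) _ ha).2 (h2 i)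
    · exact (isTiling_clauseTile (he i) h0 (ht i) ha).2 fun X => (hclause a i X).1 (h3 i X)
  · -- every tiling has product columns
    let a : ∀ b, ℤ × ℤ → Set (Γ b) := fun b X => blockCol A b X
    have hvert : IsTiling (vert (prodU U)) A := hA (.inl none)
    have hA' : A = prodSet a := by
      ext ⟨X, z⟩
      exact ⟨fun h b => ⟨z, h, rfl⟩, fun h =>
        column_product h0 hg hgen hvert (fun b => hA (.inl (some b))) X z h⟩
    have hcols : ∀ b, Cols (U b) (a b) := fun b X =>
      isTiling_factor (s := fun b => a b X)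
        (fun z => ⟨fun h b => ⟨z, h, rfl⟩, fun h =>
          column_product h0 hg hgen hvert (fun b => hA (.inl (some b))) X z h⟩)
        ((isTiling_vert_iff _ _).1 hvert X) b
    refine hno a ⟨hcols, fun i => ?_, fun i => ?_, fun i X => ?_⟩ ?_
    · exact (isTiling_localTile₁ _ _ hcols).1 (hA' ▸ hA (.inr (.inl i)))
    · exact (isTiling_localTile₂ (hne i) _ hcols).1 (hA' ▸ hA (.inr (.inr (.inl i))))
    · exact (hclause a i X).2
        ((isTiling_clauseTile (he i) h0 (ht i) hcols).1 (hA' ▸ hA (.inr (.inr (.inr i)))) X)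
    · obtain ⟨H, hfin, hH⟩ := hper
      refine ⟨H.index, Nat.pos_of_ne_zero hfin.index_ne_zero, fun b X => ?_⟩
      have key : ∀ v : ℤ × ℤ, a b (X + H.index • v) = a b X := by
        intro v
        have hmem : H.index • ((v, 0) : (ℤ × ℤ) × ∀ b, Γ b) ∈ H := H.nsmul_index_mem _
        have hshift : ∀ z, (X + H.index • v, z) ∈ A ↔ (X, z) ∈ A := by
          intro z
          simpa [Prod.smul_mk] using hH _ hmem (X, z)
        ext y
        simp only [a, blockCol, Set.mem_ofPred_eq, hshift]
      constructor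
      · simpa using key (1, 0)
      · simpa using key (0, 1)

end Vale.Agent.P043.Three
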