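import Vale.Agent.P043.Three.Main
import Vale.Agent.P043.Three.Combine
import Vale.Agent.P043.Three.Layer

/-!
P043, dimension three: assembly from the three gadget pins.
-/

namespace Vale.Agent.P043.Three

/-- The gadgets give failure of the periodic tiling conjecture in all dimensions at least three,
discretely and in Euclidean space. -/
theorem fails_of_gadgets (hB : BoxPin) (hE : EvenPin) (hP : ParityPin) (hG : GuardPin) :
    ∀ d : ℕ, 3 ≤ d →
      (∃ F : Finset (Fin d → ℤ), F.Nonempty ∧ IsAperiodicTile F) ∧ Euclid.HasAperiodicTile d := by
  have h : FailsFromThree := combineThreePin (mainPin hB hE hP hG layerPin)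
  exact fun d hd => ⟨h d hd, euclidean_fails_from_three h d hd⟩

end Vale.Agent.P043.Three
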