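import Vale.Agent.P043.Three.Pins

/-!
P043, dimension three: digits of a block, the two standard shapes of columns, and the
exchange lemmas used by the gadgets.
-/

namespace Vale.Agent.P043.Three

open Finset

section Digits

variable {p : ℕ} [NeZero p]

/-- The low digit of an element of `ZMod (p * p)`. -/
def lo (x : ZMod (p * p)) : ZMod p := ZMod.castHom (dvd_mul_right p p) (ZMod p) x

/-- The high digit of an element of `ZMod (p * p)`. -/
def hi (x : ZMod (p * p)) : ZMod p := ((x.val / p : ℕ) : ZMod p)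

theorem lo_eq (x : ZMod (p * p)) : lo x = (x.val : ZMod p) := by
  simp [lo, ZMod.castHom_apply]

theorem lo_intCast (k : ℤ) : lo ((k : ZMod (p * p))) = (k : ZMod p) := by simp [lo]

theorem lo_natCast (k : ℕ) : lo ((k : ZMod (p * p))) = (k : ZMod p) := by simp [lo]

theorem lo_sub (x y : ZMod (p * p)) : lo (x - y) = lo x - lo y := by simp [lo]

theorem lo_add (x y : ZMod (p * p)) : lo (x + y) = lo x + lo y := by simp [lo]

theorem lo_mul (i : ℤ) : lo ((((p : ℤ) * i : ℤ) : ZMod (p * p))) = 0 := by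
  rw [lo_intCast]; simp

theorem eq_digits (x : ZMod (p * p)) :
    x = (((x.val % p : ℕ) : ℤ) + (p : ℤ) * ((x.val / p : ℕ) : ℤ) : ℤ) := by
  rw [← Nat.cast_mul, ← Nat.cast_add, Nat.mod_add_div, Int.cast_natCast,
    ZMod.natCast_rightInverse x]

theorem hi_digits {r : ℕ} (hr : r < p) (k : ℤ) :
    hi ((((r : ℤ) + (p : ℤ) * k : ℤ) : ZMod (p * p))) = (k : ZMod p) := by
  have hp : (p : ℤ) ≠ 0 := by exact_mod_cast NeZero.ne p
  have hk := Int.emod_nonneg k hp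
  have hk' : k % (p : ℤ) < p := Int.emod_lt_of_pos _ (by omega)
  obtain ⟨m, hm⟩ := Int.eq_ofNat_of_zero_le hk
  have hmp : m < p := by omega
  have hv : ((((r : ℤ) + (p : ℤ) * k : ℤ) : ZMod (p * p))) = ((r + p * m : ℕ) : ZMod (p * p)) := by
    have e : (r : ℤ) + (p : ℤ) * k
        = ((r + p * m : ℕ) : ℤ) + ((p * p : ℕ) : ℤ) * (k / (p : ℤ)) := by
      have hd := Int.emod_add_mul_ediv k (p : ℤ)
      rw [hm] at hd
      push_cast at hd ⊢
      linear_combination (-(p : ℤ)) * hd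
    rw [e, Int.cast_add, Int.cast_mul, Int.cast_natCast, Int.cast_natCast, ZMod.natCast_self]
    simp
  have hlt : r + p * m < p * p := by
    calc r + p * m < p + p * m := by omega
      _ = p * (m + 1) := by ring
      _ ≤ p * p := Nat.mul_le_mul_left _ hmp
  rw [hv, hi, ZMod.val_natCast_of_lt hlt]
  have : (r + p * m) / p = m := by
    rw [Nat.add_mul_div_left _ _ (Nat.pos_of_ne_zero (NeZero.ne p)), Nat.div_eq_of_lt hr, zero_add]
  rw [this, ← ZMod.intCast_mod k p, hm]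
  simp

theorem hi_add_mul (x : ZMod (p * p)) (i : ℤ) :
    hi (x + (((p : ℤ) * i : ℤ) : ZMod (p * p))) = hi x + (i : ZMod p) := by
  have hr : x.val % p < p := Nat.mod_lt _ (Nat.pos_of_ne_zero (NeZero.ne p))
  have e := eq_digits x
  have h1 : x + (((p : ℤ) * i : ℤ) : ZMod (p * p))
      = ((((x.val % p : ℕ) : ℤ) + (p : ℤ) * (((x.val / p : ℕ) : ℤ) + i) : ℤ) : ZMod (p * p)) := by
    conv_lhs => rw [e]
    push_cast
    ring
  rw [h1, hi_digits hr, hi, Int.cast_add, Int.cast_natCast]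

theorem hi_sub_mul (x : ZMod (p * p)) (i : ℤ) :
    hi (x - (((p : ℤ) * i : ℤ) : ZMod (p * p))) = hi x - (i : ZMod p) := by
  have h := hi_add_mul x (-i)
  simpa [sub_eq_add_neg] using h

theorem existsUnique_digit (x : ZMod (p * p)) (t : ZMod p) :
    ∃! u : ℕ, u < p ∧ lo (x - (u : ZMod (p * p))) = t := by
  refine ⟨(lo x - t).val, ⟨ZMod.val_lt _, ?_⟩, ?_⟩
  · rw [lo_sub, lo_natCast, ZMod.natCast_rightInverse (lo x - t), sub_sub_cancel]
  rintro u ⟨hu, he⟩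
  rw [lo_sub, lo_natCast] at he
  rw [← he, sub_sub_cancel, ZMod.val_natCast_of_lt hu]

end Digits

variable {p Q : ℕ}

/-- The translation by `i` first and `j` second periods. -/
def pt (p Q : ℕ) (i j : ℤ) : Blk p Q :=
  ((((p : ℤ) * i : ℤ) : ZMod (p * p)), (((Q : ℤ) * j : ℤ) : ZMod (Q * Q)))

theorem hgen_eq_pt : hgen p Q = pt p Q 1 0 := by simp [hgen, pt]

theorem egen_eq_pt : egen p Q = pt p Q 0 1 := by simp [egen, pt]

theorem pt_add (i j i' j' : ℤ) : pt p Q i j + pt p Q i' j' = pt p Q (i + i') (j + j') := by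
  simp [pt, mul_add]

theorem pt_sub (i j i' j' : ℤ) : pt p Q i j - pt p Q i' j' = pt p Q (i - i') (j - j') := by
  simp [pt, mul_sub]

/-- A column with the first period: one low digit `β` of the second coordinate, and the low digit
of the first coordinate is a function of the high digit of the second. -/
def hCol (a : ZMod Q → ZMod p) (β : ZMod Q) [NeZero p] [NeZero Q] : Set (Blk p Q) :=
  {z | lo z.2 = β ∧ lo z.1 = a (hi z.2)}

/-- A column with the second period. -/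
def eCol (α : ZMod p) (b : ZMod p → ZMod Q) [NeZero p] [NeZero Q] : Set (Blk p Q) :=
  {z | lo z.1 = α ∧ lo z.2 = b (hi z.1)}

variable [NeZero p] [NeZero Q]

theorem mem_box {u : Blk p Q} : u ∈ box p Q ↔
    ∃ i j : ℕ, i < p ∧ j < Q ∧ ((i : ZMod (p * p)), (j : ZMod (Q * Q))) = u := by
  simp [box, and_assoc]

theorem isTiling_hCol (a : ZMod Q → ZMod p) (β : ZMod Q) :
    IsTiling (box p Q) (hCol a β) := by
  intro z
  obtain ⟨j, ⟨hj, hjβ⟩, hju⟩ := existsUnique_digit z.2 β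
  obtain ⟨i, ⟨hi', hia⟩, hiu⟩ := existsUnique_digit z.1 (a (hi (z.2 - (j : ZMod (Q * Q)))))
  refine ⟨((i : ZMod (p * p)), (j : ZMod (Q * Q))),
    ⟨mem_box.2 ⟨i, j, hi', hj, rfl⟩, hjβ, hia⟩, ?_⟩
  rintro u ⟨hu, h1, h2⟩
  obtain ⟨i', j', hi'', hj'', rfl⟩ := mem_box.1 hu
  obtain rfl := hju j' ⟨hj'', h1⟩
  obtain rfl := hiu i' ⟨hi'', h2⟩
  rfl

theorem isTiling_eCol (α : ZMod p) (b : ZMod p → ZMod Q) :
    IsTiling (box p Q) (eCol α b) := by
  intro z
  obtain ⟨i, ⟨hi', hiα⟩, hiu⟩ := existsUnique_digit z.1 α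
  obtain ⟨j, ⟨hj, hjb⟩, hju⟩ := existsUnique_digit z.2 (b (hi (z.1 - (i : ZMod (p * p)))))
  refine ⟨((i : ZMod (p * p)), (j : ZMod (Q * Q))),
    ⟨mem_box.2 ⟨i, j, hi', hj, rfl⟩, hiα, hjb⟩, ?_⟩
  rintro u ⟨hu, h1, h2⟩
  obtain ⟨i', j', hi'', hj'', rfl⟩ := mem_box.1 hu
  obtain rfl := hiu i' ⟨hi'', h1⟩
  obtain rfl := hju j' ⟨hj'', h2⟩
  rfl

theorem sub_pt_mem_hCol {a : ZMod Q → ZMod p} {β : ZMod Q} {z : Blk p Q} {i j : ℤ} :
    z - pt p Q i j ∈ hCol a β ↔ lo z.2 = β ∧ lo z.1 = a (hi z.2 - (j : ZMod Q)) := by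
  simp only [hCol, pt, Set.mem_ofPred_eq, Prod.fst_sub, Prod.snd_sub]
  rw [lo_sub, lo_mul, sub_zero, lo_sub, lo_mul, sub_zero, hi_sub_mul]

theorem sub_pt_mem_eCol {α : ZMod p} {b : ZMod p → ZMod Q} {z : Blk p Q} {i j : ℤ} :
    z - pt p Q i j ∈ eCol α b ↔ lo z.1 = α ∧ lo z.2 = b (hi z.1 - (i : ZMod p)) := by
  simp only [eCol, pt, Set.mem_ofPred_eq, Prod.fst_sub, Prod.snd_sub]
  rw [lo_sub, lo_mul, sub_zero, lo_sub, lo_mul, sub_zero, hi_sub_mul]

theorem inv_hCol {a : ZMod Q → ZMod p} {β : ZMod Q} {i j : ℤ}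
    (h : ∀ J, a (J + (j : ZMod Q)) = a J) : Inv (hCol a β) (pt p Q i j) := by
  intro z
  have := @sub_pt_mem_hCol p Q _ _ a β (z + pt p Q i j) i j
  rw [add_sub_cancel_right] at this
  rw [this]
  simp only [hCol, Set.mem_ofPred_eq]
  rw [← h (hi (z + pt p Q i j).2 - (j : ZMod Q)), sub_add_cancel]

theorem inv_eCol {α : ZMod p} {b : ZMod p → ZMod Q} {i j : ℤ}
    (h : ∀ I, b (I + (i : ZMod p)) = b I) : Inv (eCol α b) (pt p Q i j) := by
  intro z
  have := @sub_pt_mem_eCol p Q _ _ α b (z + pt p Q i j) i j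
  rw [add_sub_cancel_right] at this
  rw [this]
  simp only [eCol, Set.mem_ofPred_eq]
  rw [← h (hi (z + pt p Q i j).1 - (i : ZMod p)), sub_add_cancel]

theorem inv_hgen_hCol (a : ZMod Q → ZMod p) (β : ZMod Q) : Inv (hCol a β) (hgen p Q) := by
  rw [hgen_eq_pt]; exact inv_hCol fun J => by simp

theorem inv_egen_eCol (α : ZMod p) (b : ZMod p → ZMod Q) : Inv (eCol α b) (egen p Q) := by
  rw [egen_eq_pt]; exact inv_eCol fun I => by simp

theorem not_inv_hCol {a : ZMod Q → ZMod p} {β : ZMod Q} {i j : ℤ} {J : ZMod Q}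
    (h : a (J + (j : ZMod Q)) ≠ a J) : ¬ Inv (hCol a β) (pt p Q i j) := by
  intro hI
  set z : Blk p Q := ((((a J).val : ℕ) : ZMod (p * p)),
    ((((β.val : ℕ) : ℤ) + (Q : ℤ) * (J.val : ℤ) : ℤ) : ZMod (Q * Q))) with hz
  have hzm : z ∈ hCol a β := by
    refine ⟨?_, ?_⟩
    · simp only [hz, lo_intCast]
      simp
    · simp only [hz, lo_natCast, hi_digits (ZMod.val_lt β)]
      simp
  have h1 := sub_pt_mem_hCol (i := i) (j := j) (z := z + pt p Q i j) (a := a) (β := β)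
  rw [add_sub_cancel_right] at h1
  obtain ⟨-, h3⟩ := h1.1 hzm
  obtain ⟨-, h4⟩ := (hI z).2 hzm
  obtain ⟨-, h5⟩ := hzm
  rw [h4] at h3
  have h6 : hi (z + pt p Q i j).2 = hi z.2 + (j : ZMod Q) := by
    simp only [pt, Prod.snd_add]; rw [hi_add_mul]
  have h7 : hi z.2 = J := by
    simp only [hz, hi_digits (ZMod.val_lt β)]; simp
  rw [h6, h7, add_sub_cancel_right] at h3
  exact h h3

theorem not_inv_eCol {α : ZMod p} {b : ZMod p → ZMod Q} {i j : ℤ} {I : ZMod p}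
    (h : b (I + (i : ZMod p)) ≠ b I) : ¬ Inv (eCol α b) (pt p Q i j) := by
  intro hI
  set z : Blk p Q := (((((α.val : ℕ) : ℤ) + (p : ℤ) * (I.val : ℤ) : ℤ) : ZMod (p * p)),
    (((b I).val : ℕ) : ZMod (Q * Q))) with hz
  have hzm : z ∈ eCol α b := by
    refine ⟨?_, ?_⟩
    · simp only [hz, lo_intCast]
      simp
    · simp only [hz, lo_natCast, hi_digits (ZMod.val_lt α)]
      simp
  have h1 := sub_pt_mem_eCol (i := i) (j := j) (z := z + pt p Q i j) (α := α) (b := b)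
  rw [add_sub_cancel_right] at h1
  obtain ⟨-, h3⟩ := h1.1 hzm
  obtain ⟨-, h4⟩ := (hI z).2 hzm
  rw [h4] at h3
  have h6 : hi (z + pt p Q i j).1 = hi z.1 + (i : ZMod p) := by
    simp only [pt, Prod.fst_add]; rw [hi_add_mul]
  have h7 : hi z.1 = I := by
    simp only [hz, hi_digits (ZMod.val_lt α)]; simp
  rw [h6, h7, add_sub_cancel_right] at h3
  exact h h3

section General

variable {Γ : Type*} [AddCommGroup Γ]

theorem Inv.add {A : Set Γ} {s t : Γ} (hs : Inv A s) (ht : Inv A t) : Inv A (s + t) := by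
  intro z; rw [← add_assoc, ht, hs]

theorem Inv.neg {A : Set Γ} {t : Γ} (ht : Inv A t) : Inv A (-t) := by
  intro z; simpa using (ht (z + -t)).symm

theorem Inv.zero {A : Set Γ} : Inv A 0 := fun z => by simp

theorem Inv.zsmul {A : Set Γ} {t : Γ} (ht : Inv A t) (k : ℤ) : Inv A (k • t) := by
  induction k using Int.induction_on with
  | zero => simpa using Inv.zero
  | succ i ih => rw [add_smul, one_smul]; exact ih.add ht
  | pred i ih => rw [sub_smul, one_smul, sub_eq_add_neg]; exact ih.add ht.neg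

theorem nonempty_of_isTiling {U : Finset Γ} {A : Set Γ} (h : IsTiling U A) : A.Nonempty := by
  obtain ⟨f, ⟨-, hf⟩, -⟩ := h 0
  exact ⟨_, hf⟩

theorem not_inv_of_disjoint {A : Set Γ} {t : Γ} (hne : A.Nonempty)
    (h : ∀ z, z ∈ A → z + t ∉ A) : ¬ Inv A t := fun hI =>
  let ⟨z, hz⟩ := hne
  h z hz ((hI z).2 hz)

/-- Two equations whose labelled tiles differ in two places: those two places cover the same. -/
theorem exchange {M α : Type*} [Fintype M] [DecidableEq α] (φ φ' : M → α)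
    (hφ : Function.Injective φ) (hφ' : Function.Injective φ') {m₁ m₂ : M} (hne : m₁ ≠ m₂)
    (hag : ∀ m, m ≠ m₁ → m ≠ m₂ → φ' m = φ m) (P : α → Prop)
    (h : ∃! f, f ∈ univ.image φ ∧ P f) (h' : ∃! f, f ∈ univ.image φ' ∧ P f) :
    ((P (φ m₁) ∨ P (φ m₂)) ↔ (P (φ' m₁) ∨ P (φ' m₂))) ∧ ¬ (P (φ m₁) ∧ P (φ m₂)) ∧
      ¬ (P (φ' m₁) ∧ P (φ' m₂)) := by
  obtain ⟨f, ⟨hf, hP⟩, hu⟩ := h
  obtain ⟨f', ⟨hf', hP'⟩, hu'⟩ := h'
  obtain ⟨m, -, rfl⟩ := mem_image.1 hf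
  obtain ⟨m', -, rfl⟩ := mem_image.1 hf'
  have u : ∀ k, P (φ k) → k = m := fun k hk =>
    hφ (hu _ ⟨mem_image_of_mem _ (mem_univ _), hk⟩)
  have u' : ∀ k, P (φ' k) → k = m' := fun k hk =>
    hφ' (hu' _ ⟨mem_image_of_mem _ (mem_univ _), hk⟩)
  refine ⟨⟨fun hor => ?_, fun hor => ?_⟩, fun hb => hne ((u _ hb.1).trans (u _ hb.2).symm),
    fun hb => hne ((u' _ hb.1).trans (u' _ hb.2).symm)⟩
  · have hm : m = m₁ ∨ m = m₂ := hor.imp (fun h => (u _ h).symm) fun h => (u _ h).symm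
    by_cases h1 : m' = m₁
    · exact Or.inl (h1 ▸ hP')
    by_cases h2 : m' = m₂
    · exact Or.inr (h2 ▸ hP')
    have hmm := u m' (hag m' h1 h2 ▸ hP')
    subst hmm
    exact absurd hm (by tauto)
  · have hm : m' = m₁ ∨ m' = m₂ := hor.imp (fun h => (u' _ h).symm) fun h => (u' _ h).symm
    by_cases h1 : m = m₁
    · exact Or.inl (h1 ▸ hP)
    by_cases h2 : m = m₂
    · exact Or.inr (h2 ▸ hP)
    have hmm := u' m ((hag m h1 h2).symm ▸ hP)
    subst hmm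
    exact absurd hm (by tauto)

/-- Exchanged labels: if the first column does not feel the exchange, nor does the second.
Here `s₁`, `s₂` say that the two members meet the point in the clock block. -/
theorem inv_of_exchange {A₁ A₂ : Set Γ} {t₁ t₂ t₁' t₂' : Γ} {s₁ s₂ : Prop} (hs : s₂)
    (h : ∀ z, ((s₁ ∧ z - t₁ ∈ A₁) ∨ (s₂ ∧ z - t₂ ∈ A₂)) ↔
      ((s₁ ∧ z - t₁' ∈ A₁) ∨ (s₂ ∧ z - t₂' ∈ A₂)))
    (hd : ∀ z, ¬ ((s₁ ∧ z - t₁ ∈ A₁) ∧ (s₂ ∧ z - t₂ ∈ A₂)))
    (hd' : ∀ z, ¬ ((s₁ ∧ z - t₁' ∈ A₁) ∧ (s₂ ∧ z - t₂' ∈ A₂)))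
    (h₁ : Inv A₁ (t₁' - t₁)) : Inv A₂ (t₂' - t₂) := by
  have key : ∀ z, z - t₂ ∈ A₂ ↔ z - t₂' ∈ A₂ := by
    intro z
    have e1 : z - t₁ ∈ A₁ ↔ z - t₁' ∈ A₁ := by
      have := h₁ (z - t₁')
      rwa [sub_add_sub_cancel] at this
    have := h z; have := hd z; have := hd' z
    tauto
  intro z
  have := key (z + t₂')
  rwa [add_sub_cancel_right, add_sub_assoc] at this

/-- Adjacent exchanged labels force equal columns. -/
theorem eq_of_exchange {A₁ A₂ : Set Γ} {δ : Γ} (h₁ : ∀ z, z ∈ A₁ → z + δ ∉ A₁)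
    (h₂ : ∀ z, z ∈ A₂ → z + δ ∉ A₂)
    (h : ∀ z, (z ∈ A₁ ∨ z - δ ∈ A₂) ↔ (z - δ ∈ A₁ ∨ z ∈ A₂)) : A₁ = A₂ := by
  ext z
  constructor
  · intro hz
    rcases (h z).1 (Or.inl hz) with h' | h'
    · exact absurd (by simpa using hz) (h₁ _ h')
    · exact h'
  · intro hz
    rcases (h z).2 (Or.inr hz) with h' | h'
    · exact h'
    · exact absurd (by simpa using hz) (h₂ _ h')

end General

end Vale.Agent.P043.Three
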