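import Vale.Agent.P043.Three.Clock
import Vale.Agent.P043.Three.Columns

/-!
P043, dimension three: the groups of the blocks, the literals, and the gadgets of all blocks.

Variables are read as `x_v xor px`, where `x` is the type of a block and `px` the negated type of
the even block; guards make them invariant by odd multiples `N` of their period vectors, and on
the sublattice `N ℤ²` they form a two-adic family.
-/

namespace Vale.Agent.P043.Three

open Finset


theorem card_box {p Q : ℕ} : (box p Q).card = p * Q := by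
  unfold box
  rw [card_image_of_injOn, card_product, card_range, card_range]
  rintro ⟨i, j⟩ hij ⟨i', j'⟩ hij' h
  simp only [coe_product, coe_range, Set.mem_prod, Set.mem_Iio] at hij hij'
  have e := Prod.mk.inj h
  have hp : ∀ k l : ℕ, k < l → k < l * l := fun k l h => h.trans_le (Nat.le_mul_self l)
  have h1 := congrArg ZMod.val e.1
  have h2 := congrArg ZMod.val e.2
  rw [ZMod.val_natCast_of_lt (hp _ _ hij.1), ZMod.val_natCast_of_lt (hp _ _ hij'.1)] at h1
  rw [ZMod.val_natCast_of_lt (hp _ _ hij.2), ZMod.val_natCast_of_lt (hp _ _ hij'.2)] at h2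
  simp [h1, h2]

theorem zero_mem_box {p Q : ℕ} (hp : 0 < p) (hQ : 0 < Q) : (0 : Blk p Q) ∈ box p Q :=
  Finset.mem_image.2 ⟨(0, 0), by simp [hp, hQ], by simp⟩

/-- Periods are no differences of digits. -/
theorem box_sub_ne {p Q : ℕ} (hp : 0 < p) (hQ : 0 < Q) {t : Blk p Q}
    (h₁ : lo t.1 = 0) (h₂ : lo t.2 = 0) (ht : t ≠ 0) :
    ∀ u ∈ box p Q, ∀ u' ∈ box p Q, u - u' ≠ t := by
  haveI : NeZero p := ⟨hp.ne'⟩
  haveI : NeZero Q := ⟨hQ.ne'⟩
  intro u hu u' hu' h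
  obtain ⟨i, j, hi', hj, rfl⟩ := mem_box.1 hu
  obtain ⟨i', j', hi'', hj', rfl⟩ := mem_box.1 hu'
  subst h
  simp only [Prod.fst_sub, Prod.snd_sub, lo_sub, lo_natCast, sub_eq_zero] at h₁ h₂
  have e1 := congrArg ZMod.val h₁
  have e2 := congrArg ZMod.val h₂
  rw [ZMod.val_natCast_of_lt hi', ZMod.val_natCast_of_lt hi''] at e1
  rw [ZMod.val_natCast_of_lt hj, ZMod.val_natCast_of_lt hj'] at e2
  subst e1 e2
  simp at ht

theorem natCast_sq_ne_zero {p k : ℕ} (hk : 0 < k) (h : k < p * p) : (k : ZMod (p * p)) ≠ 0 := by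
  intro h0
  rw [ZMod.natCast_eq_zero_iff] at h0
  exact absurd (Nat.le_of_dvd hk h0) (by omega)

variable (T : Params)

/-- The finite group of a block. -/
abbrev Grp (b : Idx) : Type := Blk (T.dims b).1 (T.dims b).2

/-- The block whose type is read by a raw bit. -/
def rawIdx : Option Var → Idx
  | none => .even
  | some v => .par v

/-- The literal `not x`: the other period. -/
def opp (b : Idx) (x : Bool) : Grp T b :=
  if x then egen (T.dims b).1 (T.dims b).2 else hgen (T.dims b).1 (T.dims b).2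

/-- The literal of a guard. -/
def valElt (o : Option Var) (x : Bool) : Grp T (.guard o) :=
  if x then oneElt (T.gπ o) (T.gρ o) (T.gq o ^ T.gB o)
  else zeroElt (T.gπ o) (T.gρ o) (T.gq o ^ T.gB o)

/-- The value guarded by the guard `o`, read from raw bits. -/
def guarded : Option Var → Bool → Bool → Bool
  | none, x₀, _ => x₀
  | some _, x₀, x => xor x (!x₀)

/-- The clause forbidding raw bits. -/
def relClause (σ : Option Var → Bool) : ∀ b, Option (Grp T b)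
  | .even => some (opp T .even (σ none))
  | .par v => some (opp T (.par v) (σ (some v)))
  | .guard _ => none

/-- The clause tying a guard to its value. -/
def guardClause (o : Option Var) (x₀ x : Bool) : ∀ b, Option (Grp T b)
  | .even => some (opp T .even x₀)
  | .par v => if o = some v then some (opp T (.par v) x) else none
  | .guard o' => if o' = o then some (valElt T o' (guarded o' x₀ x)) else none

/-- The stride of a guard. -/
def gstride : Option Var → ℤ × ℤ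
  | none => (2 * (T.N : ℤ), 0)
  | some v => (T.N : ℤ) • per v

open Classical in
/-- The raw bit of a block. -/
noncomputable def xraw (a : ∀ b, ℤ × ℤ → Set (Grp T b)) (o : Option Var) (X : ℤ × ℤ) : Bool :=
  decide (Inv (a (rawIdx o) X) (hgen _ _))

theorem xraw_eq_true (a : ∀ b, ℤ × ℤ → Set (Grp T b)) (o : Option Var) (X : ℤ × ℤ) :
    xraw T a o X = true ↔ Inv (a (rawIdx o) X) (hgen _ _) := by
  simp [xraw]

theorem inv_opp_iff {a : ∀ b, ℤ × ℤ → Set (Grp T b)} {o : Option Var} {X : ℤ × ℤ} {x : Bool}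
    (h : Inv (a (rawIdx o) X) (egen _ _) ↔ ¬ Inv (a (rawIdx o) X) (hgen _ _)) :
    Inv (a (rawIdx o) X) (opp T (rawIdx o) x) ↔ xraw T a o X ≠ x := by
  cases x
  · simp [opp, xraw]
  · simp [opp, xraw, h]

theorem opp_sub_ne (o : Option Var) (x : Bool) :
    ∀ u ∈ box (T.dims (rawIdx o)).1 (T.dims (rawIdx o)).2,
      ∀ u' ∈ box (T.dims (rawIdx o)).1 (T.dims (rawIdx o)).2, u - u' ≠ opp T (rawIdx o) x := by
  obtain ⟨hp, hQ⟩ := T.dims_pos (rawIdx o)
  haveI : NeZero (T.dims (rawIdx o)).1 := ⟨hp.ne'⟩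
  haveI : NeZero (T.dims (rawIdx o)).2 := ⟨hQ.ne'⟩
  have h2 : 2 ≤ (T.dims (rawIdx o)).1 ∧ 2 ≤ (T.dims (rawIdx o)).2 := by
    rcases o with _ | v
    · simp [rawIdx, Params.dims]
    · have h1 := T.two_lt (.inl v) 1
      have h2 := T.two_lt (.inl v) 0
      refine ⟨?_, (h2.le).trans (Nat.le_self_pow (Nat.succ_ne_zero _) _)⟩
      show 2 ≤ T.π v * T.π v
      simp only [Params.π]
      nlinarith
  cases x <;> refine box_sub_ne hp hQ ?_ ?_ ?_ <;>
    simp only [opp, Bool.false_eq_true, if_false, if_true, hgen, egen]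
  · simp [lo_natCast]
  · simp [lo]
  · exact fun h => natCast_sq_ne_zero hp (by nlinarith) (congrArg Prod.fst h)
  · simp [lo]
  · simp [lo_natCast]
  · exact fun h => natCast_sq_ne_zero hQ (by nlinarith) (congrArg Prod.snd h)

theorem valElt_sub_ne (o : Option Var) (x : Bool) :
    ∀ u ∈ box (T.dims (.guard o)).1 (T.dims (.guard o)).2,
      ∀ u' ∈ box (T.dims (.guard o)).1 (T.dims (.guard o)).2, u - u' ≠ valElt T o x := by
  obtain ⟨hp, hQ⟩ := T.dims_pos (.guard o)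
  haveI : NeZero (T.dims (.guard o)).1 := ⟨hp.ne'⟩
  haveI : NeZero (T.dims (.guard o)).2 := ⟨hQ.ne'⟩
  have key : ∀ k : ℕ, 0 < k → k < T.gπ o * T.gρ o →
      ∀ u ∈ box (T.dims (.guard o)).1 (T.dims (.guard o)).2,
        ∀ u' ∈ box (T.dims (.guard o)).1 (T.dims (.guard o)).2,
          u - u' ≠ (((k * (T.gπ o * T.gρ o) : ℕ) : ZMod ((T.dims (.guard o)).1 *
            (T.dims (.guard o)).1)), 0) := by
    intro k hk hkp
    refine box_sub_ne hp hQ ?_ (by simp [lo]) ?_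
    · rw [lo_natCast, Nat.cast_mul,
        show ((T.gπ o * T.gρ o : ℕ) : ZMod (T.dims (.guard o)).1) = 0 from
          ZMod.natCast_self _, mul_zero]
    · exact fun h => natCast_sq_ne_zero (p := (T.dims (.guard o)).1)
        (Nat.mul_pos hk hp) (Nat.mul_lt_mul_of_pos_right hkp hp) (congrArg Prod.fst h)
  have hπ := T.two_lt (.inr o) 1
  have hρ := T.two_lt (.inr o) 2
  cases x
  · exact key (T.gπ o) (T.pr_pos _ _) (lt_mul_of_one_lt_right (T.pr_pos _ _) (by
      simp only [Params.gρ]; omega))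
  · exact key (T.gρ o) (T.pr_pos _ _) (lt_mul_of_one_lt_left (T.pr_pos _ _) (by
      simp only [Params.gπ]; omega))

/-- The gadgets of all blocks, stated in the groups of the blocks. -/
structure Gadgets where
  ιE : Type
  fE : Fintype ιE
  LE : ιE → Finset ((ℤ × ℤ) × Grp T .even)
  ιP : Var → Type
  fP : ∀ v, Fintype (ιP v)
  LP : ∀ v, ιP v → Finset ((ℤ × ℤ) × (Grp T .even × Grp T (.par v)))
  ιG : Option Var → Type
  fG : ∀ o, Fintype (ιG o)
  LG : ∀ o, ιG o → Finset ((ℤ × ℤ) × Grp T (.guard o))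
  gP : Option Var → ℕ
  cardE : ∀ i, (LE i).card = 80
  cardP : ∀ v i, (LP v i).card = 80 * ((T.dims (.par v)).1 * (T.dims (.par v)).2)
  cardG : ∀ o i, (LG o i).card = (T.dims (.guard o)).1 * (T.dims (.guard o)).2
  oddG : ∀ o, Odd (gP o)
  soundE : ∀ a : ℤ × ℤ → Set (Grp T .even), Cols (box _ _) a → (∀ i, Tiles₁ (LE i) a) →
    (∀ X, Inv (a X) (egen _ _) ↔ ¬ Inv (a X) (hgen _ _)) ∧
    (∀ X, Inv (a (X + (4 * (T.N : ℤ), 0))) (hgen _ _) ↔ Inv (a X) (hgen _ _)) ∧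
    (∀ X, Inv (a (X + (0, 1))) (hgen _ _) ↔ Inv (a X) (hgen _ _)) ∧
    ((∀ X, Inv (a (X + (2 * (T.N : ℤ), 0))) (hgen _ _) ↔ Inv (a X) (hgen _ _)) →
      ∀ X, Inv (a (X + ((T.N : ℤ), 0))) (hgen _ _) ↔ ¬ Inv (a X) (hgen _ _))
  soundP : ∀ v (a₀ : ℤ × ℤ → Set (Grp T .even)) (a : ℤ × ℤ → Set (Grp T (.par v))),
    Cols (box _ _) a₀ → Cols (box _ _) a → (∀ i, Tiles₂ (LP v i) a₀ a) →
    (∀ X, Inv (a X) (egen _ _) ↔ ¬ Inv (a X) (hgen _ _)) ∧
    ∀ X, Inv (a (X + (2 * ((T.D v * (T.π v * T.q v ^ T.B v) : ℕ) : ℤ)) • per v)) (hgen _ _)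
      ↔ Inv (a X) (hgen _ _)
  soundG : ∀ o (a : ℤ × ℤ → Set (Grp T (.guard o))), Cols (box _ _) a →
    (∀ i, Tiles₁ (LG o i) a) →
    (∀ X, a (X + (gP o : ℤ) • gstride T o) = a X) ∧
    ∀ X, ∃ k : ℤ, ¬ (Inv (a (X + k • gstride T o)) (valElt T o true) ∧
      Inv (a (X + k • gstride T o)) (valElt T o false))
  existsE : ∃ a : ℤ × ℤ → Set (Grp T .even), Cols (box _ _) a ∧ (∀ i, Tiles₁ (LE i) a) ∧
    (∀ X, Inv (a X) (hgen _ _) ↔ 2 ∣ X.1) ∧
    ∀ (v : Var) (c : ℤ × ℤ → Bool), (∀ X, c (X + per v) = c X) →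
      ∃ aP : ℤ × ℤ → Set (Grp T (.par v)), Cols (box _ _) aP ∧ (∀ i, Tiles₂ (LP v i) a aP) ∧
        ∀ X, Inv (aP X) (hgen _ _) ↔ xor (c X) (decide (X.1 % 2 = 1)) = true
  existsG : ∀ o (c : ℤ × ℤ → Bool), (∀ X, c (X + gstride T o) = c X) →
    ∃ a : ℤ × ℤ → Set (Grp T (.guard o)), Cols (box _ _) a ∧ (∀ i, Tiles₁ (LG o i) a) ∧
      ∀ X, Inv (a X) (valElt T o (c X))

theorem gstride_pos (o : Option Var) : 0 < (gstride T o).1 := by
  have hN : (0 : ℤ) < (T.N : ℤ) := Int.natCast_pos.2 T.odd_N.pos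
  rcases o with _ | v
  · show 0 < 2 * (T.N : ℤ)
    omega
  · show 0 < (T.N : ℤ) * 1
    omega

/-- The pins give all gadgets. -/
theorem exists_gadgets (hE : EvenPin) (hP : ParityPin) (hG : GuardPin) : Nonempty (Gadgets T) := by
  obtain ⟨ιE, iE, LE, hEc, hEs, hEx⟩ := hE T.N T.odd_N
  have hP' := fun v : Var =>
    let h := T.par_hyp v
    hP (T.π v) (T.q v) (T.B v) (T.D v) (slope v) h.1 h.2.1 h.2.2.1 h.2.2.2.1 h.2.2.2.2.1
      h.2.2.2.2.2.1 h.2.2.2.2.2.2.1 h.2.2.2.2.2.2.2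
  choose ιP iP LP hPc hPs hPx using hP'
  have hG' := fun o : Option Var =>
    let h := T.guard_hyp o
    hG (T.gq o) (T.gπ o) (T.gρ o) (T.gB o) (gstride T o) h.1 h.2.1 h.2.2.1 h.2.2.2.1 h.2.2.2.2.1
      h.2.2.2.2.2.1 h.2.2.2.2.2.2.1 h.2.2.2.2.2.2.2.1 h.2.2.2.2.2.2.2.2 (gstride_pos T o)
  choose ιG iG LG gP hGodd hGc hGs hGx using hG'
  obtain ⟨a₀, ha₀c, ha₀t, ha₀h, ha₀x⟩ := hEx (clock T) (clock_add T)
  exact ⟨⟨ιE, iE, LE, ιP, iP, LP, ιG, iG, LG, gP, hEc, hPc, hGc, hGodd, hEs, hPs, hGs,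
    ⟨a₀, ha₀c, ha₀t, ha₀x, fun v c hc => hPx v (rest T v) a₀ c (rest_add T v) ha₀c
      (by rw [xor_rest]; exact ha₀h) hc⟩,
    fun o c hc => by
      obtain ⟨a, h1, h2, h3⟩ := hGx o c hc
      refine ⟨a, h1, h2, fun X => ?_⟩
      cases h : c X
      · exact (h3 X).2 h
      · exact (h3 X).1 h⟩⟩

end Vale.Agent.P043.Three
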