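import Vale.Agent.P043.Three.Columns

/-!
P043, dimension three: complements of a digit box. A box which is not continued along the first
axis is continued along the second; so all boxes are continued along one common axis.
-/

namespace Vale.Agent.P043.Three

namespace Box

variable {G : Type*} [AddCommGroup G]

/-- The translates `a + [p] u + [Q] v`, `a ∈ A`, partition the group. -/
structure Tile (A : Set G) (u v : G) (p Q : ℕ) : Prop where
  ex : ∀ z, ∃ a ∈ A, ∃ i < p, ∃ j < Q, a + i • u + j • v = z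
  uniq : ∀ a ∈ A, ∀ b ∈ A, ∀ i j i' j' : ℕ, i < p → j < Q → i' < p → j' < Q →
    a + i • u + j • v = b + i' • u + j' • v → a = b ∧ i = i' ∧ j = j'

variable {A : Set G} {u v : G} {p Q : ℕ}

theorem Tile.swap (T : Tile A u v p Q) : Tile A v u Q p := by
  refine ⟨fun z => ?_, fun a ha b hb i j i' j' hi hj hi' hj' h => ?_⟩
  · obtain ⟨a, ha, i, hi, j, hj, h⟩ := T.ex z
    exact ⟨a, ha, j, hj, i, hi, by rw [add_right_comm]; exact h⟩
  · rw [add_right_comm a, add_right_comm b] at h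
    obtain ⟨h1, h2, h3⟩ := T.uniq a ha b hb j i j' i' hj hi hj' hi' h
    exact ⟨h1, h3, h2⟩

theorem Tile.right (T : Tile A u v p Q) {a : G} (ha : a ∈ A) :
    ∃ b ∈ A, ∃ j < Q, b + j • v = a + p • u := by
  obtain ⟨b, hb, i, hi, j, hj, h⟩ := T.ex (a + p • u)
  rcases Nat.eq_zero_or_pos i with rfl | h0
  · exact ⟨b, hb, j, hj, by simpa using h⟩
  have hp : p • u = (p - i) • u + i • u := by rw [← add_nsmul, Nat.sub_add_cancel hi.le]
  have e : a + (p - i) • u + 0 • v = b + 0 • u + j • v := by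
    apply add_right_cancel (b := i • u)
    rw [zero_nsmul, zero_nsmul, add_zero, add_zero, add_assoc a, ← hp, ← h]
    abel
  obtain ⟨-, h1, -⟩ := T.uniq a ha b hb _ _ _ _ (by omega) (by omega) (by omega) hj e
  omega

theorem Tile.no_gap (T : Tile A u v p Q) {a b : G} (ha : a ∈ A) (hb : b ∈ A) {i j : ℕ}
    (hi : i < p) (hj : j < Q) (h0 : 0 < j) (h : b + i • u = a + (Q + j) • v) : False := by
  obtain ⟨c, hc, k, hk, l, hl, hz⟩ := T.ex (a + (Q + j - 1) • v)
  rcases Nat.lt_or_ge (l + 1) Q with hl1 | hl1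
  · have e : c + k • u + (l + 1) • v = b + i • u + 0 • v := by
      rw [zero_nsmul, add_zero, h, succ_nsmul, ← add_assoc, hz, add_assoc a, ← succ_nsmul]
      congr 2
      omega
    obtain ⟨-, -, h1⟩ := T.uniq c hc b hb _ _ _ _ hk hl1 hi (by omega) e
    omega
  · have e : c + k • u + 0 • v = a + 0 • u + j • v := by
      apply add_right_cancel (b := l • v)
      rw [zero_nsmul, zero_nsmul, add_zero, add_zero, hz, add_assoc a, ← add_nsmul]
      congr 2
      omega
    obtain ⟨-, -, h1⟩ := T.uniq c hc a ha _ _ _ _ hk (by omega) (by omega) hj e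
    omega

theorem Tile.or (T : Tile A u v p Q) {a : G} (ha : a ∈ A) : a + p • u ∈ A ∨ a + Q • v ∈ A := by
  by_contra hcon
  rw [not_or] at hcon
  obtain ⟨h1, h2⟩ := hcon
  obtain ⟨a', ha', j, hj, hj'⟩ := T.right ha
  have h0 : 0 < j := by
    rcases Nat.eq_zero_or_pos j with rfl | h
    · exact absurd (by rw [← hj', zero_nsmul, add_zero]; exact ha') h1
    · exact h
  obtain ⟨b, hb, i, hi, l, hl, hz⟩ := T.ex (a + (p - 1) • u + Q • v)
  rcases Nat.eq_zero_or_pos l with rfl | hl0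
  · rw [zero_nsmul, add_zero] at hz
    rcases Nat.lt_or_ge (i + 1) p with hi1 | hi1
    · refine T.no_gap ha' hb hi1 hj h0 ?_
      rw [succ_nsmul, ← add_assoc, hz, add_nsmul, add_comm (Q • v) (j • v), ← add_assoc, hj']
      have : p • u = (p - 1) • u + u := by rw [← succ_nsmul, Nat.sub_add_cancel (by omega)]
      rw [this]; abel
    · have : i = p - 1 := by omega
      subst this
      apply h2
      have : b = a + Q • v := add_right_cancel (b := (p - 1) • u) (by rw [hz]; abel)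
      exact this ▸ hb
  · have e : b + i • u + (l - 1) • v = a + (p - 1) • u + (Q - 1) • v := by
      apply add_right_cancel (b := v)
      rw [add_assoc, ← succ_nsmul, Nat.sub_add_cancel hl0, hz, add_assoc _ ((Q - 1) • v),
        ← succ_nsmul, Nat.sub_add_cancel (by omega)]
    obtain ⟨-, -, h3⟩ := T.uniq b hb a ha _ _ _ _ hi (by omega) (by omega) (by omega) e
    omega

/-- A box not continued along the first axis. -/
def Bad (A : Set G) (u : G) (p : ℕ) (a : G) : Prop := a ∈ A ∧ a + p • u ∉ A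

theorem Tile.bad_step (T : Tile A u v p Q) {a : G} (h : Bad A u p a) :
    Bad A u p (a + Q • v) := by
  refine ⟨(T.or h.1).resolve_left h.2, fun hb => ?_⟩
  obtain ⟨a', ha', j, hj, hj'⟩ := T.right h.1
  have hp : 0 < p := by
    obtain ⟨-, -, i, hi, -⟩ := T.ex a
    omega
  rcases Nat.eq_zero_or_pos j with rfl | h0
  · exact h.2 (by rw [← hj', zero_nsmul, add_zero]; exact ha')
  refine T.no_gap ha' hb hp hj h0 ?_
  rw [zero_nsmul, add_zero, add_nsmul, add_comm (Q • v) (j • v), ← add_assoc, hj']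
  abel

theorem Tile.bad_iter (T : Tile A u v p Q) {a : G} (h : Bad A u p a) (k : ℕ) :
    Bad A u p (a + (Q * k) • v) := by
  induction k with
  | zero => simpa using h
  | succ k ih => rw [Nat.mul_succ, add_nsmul, ← add_assoc]; exact T.bad_step ih

/-- One axis serves all boxes. -/
theorem Tile.dichotomy (T : Tile A u v p Q)
    (conn : ∀ a b : G, ∃ n m : ℕ, a + m • v = b + n • u) :
    (∀ a ∈ A, a + p • u ∈ A) ∨ ∀ a ∈ A, a + Q • v ∈ A := by
  by_contra h
  simp only [not_or, not_forall] at h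
  obtain ⟨⟨a, ha, ha'⟩, b, hb, hb'⟩ := h
  obtain ⟨n, m, he⟩ := conn a b
  obtain ⟨-, -, i, hi, j, hj, -⟩ := T.ex a
  have h1 := T.bad_iter ⟨ha, ha'⟩ (m / Q)
  have h2 := T.swap.bad_iter ⟨hb, hb'⟩ (n / p)
  have e : a + (Q * (m / Q)) • v + 0 • u + (m % Q) • v
      = b + (p * (n / p)) • u + (n % p) • u + 0 • v := by
    rw [zero_nsmul, zero_nsmul, add_zero, add_zero, add_assoc, ← add_nsmul, Nat.div_add_mod,
      add_assoc, ← add_nsmul, Nat.div_add_mod, he]
  obtain ⟨h3, -, -⟩ := T.uniq _ h1.1 _ h2.1 _ _ _ _ (by omega) (Nat.mod_lt _ (by omega))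
    (Nat.mod_lt _ (by omega)) (by omega) e
  rcases T.or h1.1 with h4 | h4
  · exact h1.2 h4
  · exact h2.2 (h3 ▸ h4)

/-- When all are continued along the first axis, the rows are spaced by `Q`. -/
theorem Tile.rows (T : Tile A u v p Q) (hR : ∀ a ∈ A, a + p • u ∈ A) {a b : G} (ha : a ∈ A)
    (hb : b ∈ A) {n m : ℕ} (h : b = a + n • u + m • v) : Q ∣ m := by
  obtain ⟨-, -, i₀, hi₀, j₀, hj₀, -⟩ := T.ex a
  have hit : ∀ c ∈ A, ∀ l : ℕ, c + (p * l) • u ∈ A := by
    intro c hc l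
    induction l with
    | zero => simpa using hc
    | succ l ih => rw [Nat.mul_succ, add_nsmul, ← add_assoc]; exact hR _ ih
  have step : ∀ k : ℕ, ∃ c ∈ A, ∃ t : ℕ, c + t • u = a + (Q * k) • v := by
    intro k
    induction k with
    | zero => exact ⟨a, ha, 0, by simp⟩
    | succ k ih =>
      obtain ⟨c, hc, t, ht⟩ := ih
      obtain ⟨c', hc', i, -, hi'⟩ := T.swap.right hc
      refine ⟨c', hc', i + t, ?_⟩
      rw [add_nsmul, ← add_assoc, hi', Nat.mul_succ, add_nsmul, ← add_assoc, ← ht]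
      abel
  obtain ⟨c, hc, t, ht⟩ := step (m / Q)
  have e : c + (p * ((t + n) / p)) • u + ((t + n) % p) • u + (m % Q) • v = b + 0 • u + 0 • v := by
    rw [zero_nsmul, zero_nsmul, add_zero, add_zero, add_assoc c, ← add_nsmul, Nat.div_add_mod,
      add_nsmul, ← add_assoc, ht, h]
    have : m • v = (Q * (m / Q)) • v + (m % Q) • v := by rw [← add_nsmul, Nat.div_add_mod]
    rw [this]; abel
  obtain ⟨-, -, h1⟩ := T.uniq _ (hit c hc _) b hb _ _ _ _ (Nat.mod_lt _ (by omega))
    (Nat.mod_lt _ (by omega)) (by omega) (by omega) e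
  exact Nat.dvd_of_mod_eq_zero h1

theorem inv_of_forall {H : Type*} [AddCommGroup H] [Fintype H] {A : Set H} {t : H}
    (h : ∀ a ∈ A, a + t ∈ A) : Inv A t := by
  intro z
  refine ⟨fun hz => ?_, h z⟩
  have hit : ∀ k : ℕ, z + t + k • t ∈ A := by
    intro k
    induction k with
    | zero => simpa using hz
    | succ k ih => rw [succ_nsmul, ← add_assoc]; exact h _ ih
  have hN : (Fintype.card H) • t = 0 := card_nsmul_eq_zero
  have := hit (Fintype.card H - 1)
  rwa [add_assoc, ← succ_nsmul', Nat.sub_add_cancel Fintype.card_pos, hN, add_zero] at this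

theorem forall_of_inv {H : Type*} [AddCommGroup H] {A : Set H} {t : H} (h : Inv A t) :
    ∀ a ∈ A, a + t ∈ A := fun a ha => (h a).2 ha

end Box

theorem boxPin : BoxPin := by
  intro p Q hp hQ A hA
  have : NeZero p := ⟨hp.ne'⟩
  have : NeZero Q := ⟨hQ.ne'⟩
  classical
  set u : Blk p Q := (1, 0) with hu
  set v : Blk p Q := (0, 1) with hv
  have hmul : ∀ (a : Blk p Q) (i j : ℕ),
      a + i • u + j • v = (a.1 + (i : ZMod (p * p)), a.2 + (j : ZMod (Q * Q))) := fun a i j => by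
    simp [hu, hv, Prod.ext_iff]
  have hpt : ∀ i j : ℕ, ((i : ZMod (p * p)), (j : ZMod (Q * Q))) = i • u + j • v := fun i j => by
    have := hmul 0 i j
    simpa using this.symm
  have hinj : ∀ {i j i' j' : ℕ}, i < p → j < Q → i' < p → j' < Q →
      ((i : ZMod (p * p)), (j : ZMod (Q * Q))) = ((i' : ZMod (p * p)), (j' : ZMod (Q * Q))) →
      i = i' ∧ j = j' := by
    intro i j i' j' hi hj hi' hj' h
    simp only [Prod.mk.injEq] at h
    have h1 := congrArg ZMod.val h.1
    have h2 := congrArg ZMod.val h.2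
    have := Nat.le_mul_self p
    have := Nat.le_mul_self Q
    rw [ZMod.val_natCast_of_lt (by omega), ZMod.val_natCast_of_lt (by omega)] at h1 h2
    exact ⟨h1, h2⟩
  have T : Box.Tile A u v p Q := by
    refine ⟨fun z => ?_, fun a ha b hb i j i' j' hi hj hi' hj' h => ?_⟩
    · obtain ⟨f, ⟨hf, hz⟩, -⟩ := hA z
      obtain ⟨i, j, hi, hj, rfl⟩ := mem_box.1 hf
      exact ⟨_, hz, i, hi, j, hj, by rw [add_assoc, ← hpt]; abel⟩
    · obtain ⟨f, -, hf⟩ := hA (a + i • u + j • v)
      have h1 := hf _ ⟨mem_box.2 ⟨i, j, hi, hj, rfl⟩, by rw [hpt, add_assoc, add_sub_cancel_right]; exact ha⟩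
      have h2 := hf _ ⟨mem_box.2 ⟨i', j', hi', hj', rfl⟩,
        by rw [h, hpt, add_assoc, add_sub_cancel_right]; exact hb⟩
      obtain ⟨rfl, rfl⟩ := hinj hi hj hi' hj' (h1.trans h2.symm)
      exact ⟨add_right_cancel (add_right_cancel h), rfl, rfl⟩
  have conn : ∀ a b : Blk p Q, ∃ n m : ℕ, a + m • v = b + n • u := fun a b =>
    ⟨(a.1 - b.1).val, (b.2 - a.2).val, by simp [hu, hv, Prod.ext_iff]⟩
  have hh : hgen p Q = p • u := by simp [hgen, hu]
  have he : egen p Q = Q • v := by simp [egen, hv]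
  refine ⟨?_, ?_, fun hI => ?_, fun hI => ?_⟩
  · have e : A × (Fin p × Fin Q) ≃ Blk p Q := by
      refine Equiv.ofBijective (fun t => (t.1 : Blk p Q) + (t.2.1 : ℕ) • u + (t.2.2 : ℕ) • v)
        ⟨fun s t h => ?_, fun z => ?_⟩
      · obtain ⟨h1, h2, h3⟩ := T.uniq _ s.1.2 _ t.1.2 _ _ _ _ s.2.1.2 s.2.2.2 t.2.1.2 t.2.2.2 h
        exact Prod.ext (Subtype.ext h1) (Prod.ext (Fin.ext h2) (Fin.ext h3))
      · obtain ⟨a, ha, i, hi, j, hj, h⟩ := T.ex z
        exact ⟨(⟨a, ha⟩, ⟨i, hi⟩, ⟨j, hj⟩), h⟩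
    have h := Nat.card_congr e
    simp only [Nat.card_prod, Nat.card_eq_fintype_card (α := Fin p),
      Nat.card_eq_fintype_card (α := Fin Q), Fintype.card_fin, Nat.card_eq_fintype_card (α := ZMod _),
      ZMod.card] at h
    apply Nat.eq_of_mul_eq_mul_right (Nat.mul_pos hp hQ)
    rw [h]; ring
  · rw [hh, he]
    exact (T.dichotomy conn).imp Box.inv_of_forall Box.inv_of_forall
  · obtain ⟨a, ha⟩ := nonempty_of_isTiling hA
    refine ⟨a.2.val % Q, fun z hz => ?_⟩
    have hR := Box.forall_of_inv hI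
    rw [hh] at hR
    obtain ⟨k, hk⟩ := T.rows hR ha hz (n := (z.1 - a.1).val) (m := (z.2 - a.2).val)
      (by simp [hu, hv, Prod.ext_iff])
    have e : z.2 = a.2 + ((z.2 - a.2).val : ZMod (Q * Q)) := by simp
    conv_lhs => rw [e]
    rw [ZMod.val_add, ZMod.val_natCast, hk, Nat.mod_mod_of_dvd _ (dvd_mul_right Q Q), Nat.add_mod,
      Nat.mod_mod_of_dvd _ (dvd_mul_right Q Q), Nat.mul_mod_right, add_zero, Nat.mod_mod]
  · obtain ⟨a, ha⟩ := nonempty_of_isTiling hA
    refine ⟨a.1.val % p, fun z hz => ?_⟩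
    have hR := Box.forall_of_inv hI
    rw [he] at hR
    obtain ⟨k, hk⟩ := T.swap.rows hR ha hz (n := (z.2 - a.2).val) (m := (z.1 - a.1).val)
      (by simp [hu, hv, Prod.ext_iff])
    have e : z.1 = a.1 + ((z.1 - a.1).val : ZMod (p * p)) := by simp
    conv_lhs => rw [e]
    rw [ZMod.val_add, ZMod.val_natCast, hk, Nat.mod_mod_of_dvd _ (dvd_mul_right p p), Nat.add_mod,
      Nat.mod_mod_of_dvd _ (dvd_mul_right p p), Nat.mul_mod_right, add_zero, Nat.mod_mod]

end Vale.Agent.P043.Three
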