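import Vale.Agent.P043.Three.Params

/-!
P043, dimension three: the clock of the even block, the sum of the slice patterns of all parity
blocks.
-/

namespace Vale.Agent.P043.Three

open Finset

variable (T : Params)

/-- The parity of the number of variables of `s` whose slice pattern is on at `n`. -/
def parOn (s : Finset Var) (n : ℤ) : Bool :=
  decide ((s.filter fun v => slicePat (T.π v) (T.q v) n = true).card % 2 = 1)

/-- The clock. -/
def clock (n : ℤ) : Bool := parOn T univ n

/-- The clock without the pattern of `v`. -/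
def rest (v : Var) (n : ℤ) : Bool := xor (clock T n) (slicePat (T.π v) (T.q v) n)

theorem slicePat_add {π q : ℕ} {d : ℤ} (h : (π : ℤ) ∣ d) (n : ℤ) :
    slicePat π q (n + d) = slicePat π q n := by
  obtain ⟨k, rfl⟩ := h
  simp [slicePat, Int.add_mul_emod_self_left]

theorem parOn_add (s : Finset Var) {d : ℤ} (h : ∀ v ∈ s, (T.π v : ℤ) ∣ d) (n : ℤ) :
    parOn T s (n + d) = parOn T s n := by
  unfold parOn
  rw [filter_congr fun v hv => by rw [slicePat_add (h v hv) n]]

theorem clock_eq (v : Var) (n : ℤ) :
    clock T n = xor (parOn T (univ.erase v) n) (slicePat (T.π v) (T.q v) n) := by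
  unfold clock parOn
  conv_lhs => rw [← insert_erase (mem_univ v), filter_insert]
  cases h : slicePat (T.π v) (T.q v) n
  · simp
  · simp only [if_true]
    rw [card_insert_of_notMem (by simp)]
    rcases Nat.mod_two_eq_zero_or_one
      ((univ.erase v).filter fun w => slicePat (T.π w) (T.q w) n = true).card with h' | h' <;>
      simp [h', Nat.add_mod]

theorem rest_eq (v : Var) (n : ℤ) : rest T v n = parOn T (univ.erase v) n := by
  rw [rest, clock_eq T v, Bool.xor_assoc, Bool.xor_self, Bool.xor_false]

theorem rest_add (v : Var) (n : ℤ) : rest T v (n + (T.D v : ℤ)) = rest T v n := by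
  rw [rest_eq, rest_eq, parOn_add]
  intro w hw
  exact Int.natCast_dvd_natCast.2 (T.π_dvd_D (mem_erase.1 hw).1)

theorem clock_add (n : ℤ) : clock T (n + (T.N : ℤ)) = clock T n :=
  parOn_add T _ (fun v _ => Int.natCast_dvd_natCast.2 (T.π_dvd_N v)) n

theorem xor_rest (v : Var) : (fun n => xor (rest T v n) (slicePat (T.π v) (T.q v) n)) = clock T := by
  funext n
  rw [rest, Bool.xor_assoc, Bool.xor_self, Bool.xor_false]

end Vale.Agent.P043.Three
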