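import Vale.Agent.P043.Three.Pins

/-!
P043, dimension three: a product of blocks of pairwise coprime orders is cyclic.
-/

namespace Vale.Agent.P043.Three

/-- A product of blocks with pairwise coprime orders is a quotient of `ℤ`. -/
theorem exists_surjective_blocks {β : Type} [Fintype β] (o : β → ℕ × ℕ)
    (_hpos : ∀ b, 0 < (o b).1 ∧ 0 < (o b).2) (hin : ∀ b, Nat.Coprime (o b).1 (o b).2)
    (hout : Pairwise fun b c => Nat.Coprime ((o b).1 * (o b).2) ((o c).1 * (o c).2)) :
    ∃ π : ℤ →+ (∀ b, Blk (o b).1 (o b).2), Function.Surjective π := by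
  classical
  let n : β → ℕ := fun b => ((o b).1 * (o b).1) * ((o b).2 * (o b).2)
  have hn : Pairwise (Function.onFun Nat.Coprime n) := fun b c hbc => by
    have h1 : Nat.Coprime (((o b).1 * (o b).2) ^ 2) (((o c).1 * (o c).2) ^ 2) :=
      Nat.Coprime.pow 2 2 (hout hbc)
    have e : ∀ d, ((o d).1 * (o d).2) ^ 2 = n d := fun d => by simp only [n]; ring
    rw [e, e] at h1
    exact h1
  have hcop : ∀ b, ((o b).1 * (o b).1).Coprime ((o b).2 * (o b).2) := fun b =>
    (((hin b).mul_left (hin b)).mul_right ((hin b).mul_left (hin b)))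
  let f : ℤ →+* (∀ b, Blk (o b).1 (o b).2) := Int.castRingHom _
  refine ⟨f.toAddMonoidHom, fun x => ?_⟩
  let y : ∀ b, ZMod (n b) := fun b => (ZMod.chineseRemainder (hcop b)).symm (x b)
  obtain ⟨z, hz⟩ := ZMod.intCast_surjective ((ZMod.prodEquivPi n hn).symm y)
  refine ⟨z, funext fun b => ?_⟩
  have h2 : (ZMod.prodEquivPi n hn) (z : ZMod (∏ i, n i)) = y := by
    rw [hz, RingEquiv.apply_symm_apply]
  rw [map_intCast] at h2
  have h3 : (z : ZMod (n b)) = y b := by rw [← h2]; rfl
  have h4 : (ZMod.chineseRemainder (hcop b)) (z : ZMod (n b)) = x b := by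
    rw [h3]; exact RingEquiv.apply_symm_apply _ _
  rw [map_intCast] at h4
  rw [← h4]
  rfl

end Vale.Agent.P043.Three
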