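import Vale.Agent.P043.Three.EvenSound

/-!
P043, dimension three, even block: the intended columns, and the block.
-/

namespace Vale.Agent.P043.Three

namespace Even

variable {N : ℕ}

/-- The half digit of a slot. -/
def dig (χ : Bool) (x : Fin 8) : ZMod 16 := ((χ.toNat + 2 * (x : ℕ) : ℕ) : ZMod 16)

/-- The slot of an integer along the stride. -/
def kk (N : ℕ) (n : ℤ) : ℤ := n / (2 * (N : ℤ))

/-- The intended column at a first coordinate. -/
def col (N : ℕ) (ψ : ℤ → Bool) (n : ℤ) : Set (Blk 16 5) :=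
  if 2 ∣ n then
    hCol (fun J => dig (ψ n) (rowX (kk N n : ZMod 4) J)) (rowY (kk N n : ZMod 4))
  else
    eCol (dig (ψ n) (domX (kk N n : ZMod 10)))
      (fun I => domY (kk N n : ZMod 10) (ZMod.castHom (by norm_num : 2 ∣ 16) (ZMod 2) I))

theorem isTiling_col (ψ : ℤ → Bool) (n : ℤ) : IsTiling (box 16 5) (col N ψ n) := by
  unfold col
  split_ifs
  · exact isTiling_hCol _ _
  · exact isTiling_eCol _ _

/-- The cell of a point. -/
def cell (z : Blk 16 5) : Fin 8 × ZMod 5 := (⟨z.1.val % 16 / 2, by omega⟩, lo z.2)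

theorem lo_eq_dig (x : ZMod (16 * 16)) (χ : Bool) (y : Fin 8) :
    lo x = dig χ y ↔ decide (x.val % 2 = 1) = χ ∧ x.val % 16 / 2 = (y : ℕ) := by
  rw [lo_eq, dig, ZMod.natCast_eq_natCast_iff']
  have := y.2
  cases χ <;> simp <;> omega

theorem mem_col_h {ψ : ℤ → Bool} {n : ℤ} (hn : 2 ∣ n) (z : Blk 16 5) (i j : ℕ) :
    z - pt 16 5 i j ∈ col N ψ n ↔ decide (z.1.val % 2 = 1) = ψ n ∧
      cell z = cellOf (Sum.inl ((kk N n : ZMod 4), hi z.2 - (j : ZMod 5))) := by
  rw [col, if_pos hn, sub_pt_mem_hCol, lo_eq_dig, Int.cast_natCast, cell, cellOf, Prod.ext_iff,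
    Fin.ext_iff]
  exact and_comm.trans and_assoc

theorem mem_col_e {ψ : ℤ → Bool} {n : ℤ} (hn : ¬ 2 ∣ n) (z : Blk 16 5) (i j : ℕ) :
    z - pt 16 5 i j ∈ col N ψ n ↔ decide (z.1.val % 2 = 1) = ψ n ∧
      cell z = cellOf (Sum.inr ((kk N n : ZMod 10),
        ZMod.castHom (by norm_num : 2 ∣ 16) (ZMod 2) (hi z.1) - (i : ZMod 2))) := by
  rw [col, if_neg hn, sub_pt_mem_eCol, lo_eq_dig, map_sub, map_intCast, Int.cast_natCast, cell,
    cellOf, Prod.ext_iff, Fin.ext_iff]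
  exact and_assoc

theorem val_add_mod_two (w : ZMod (16 * 16)) (i : ℕ) :
    (w + (i : ZMod (16 * 16))).val % 2 = (w.val + i) % 2 := by
  rw [ZMod.val_add, ZMod.val_natCast]
  omega

theorem par_of_mem {ψ : ℤ → Bool} {n : ℤ} {z : Blk 16 5} (h : z ∈ col N ψ n) :
    z.1.val % 2 = 1 ↔ ψ n = true := by
  have h0 : z - pt 16 5 ((0 : ℕ) : ℤ) ((0 : ℕ) : ℤ) ∈ col N ψ n := by
    rw [Nat.cast_zero, pt_zero, sub_zero]; exact h
  have key : decide (z.1.val % 2 = 1) = ψ n := by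
    by_cases hn : 2 ∣ n
    · exact ((mem_col_h hn z 0 0).1 h0).1
    · exact ((mem_col_e hn z 0 0).1 h0).1
  rw [← key, decide_eq_true_iff]

/-- The slot of a place. -/
theorem kk_place (hN : 0 < N) (g : ℤ) (σ : Bool) (u : ℕ) :
    kk N (g - (((2 * u + σ.toNat) * N : ℕ) : ℤ)) = kk N (g - (σ.toNat * N : ℕ)) - u := by
  unfold kk
  rw [← Int.sub_mul_ediv_right (g - ((σ.toNat * N : ℕ) : ℤ)) _
    (by omega : (2 * (N : ℤ)) ≠ 0)]
  congr 1
  push_cast
  ring

/-- The parity of a place. -/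
theorem two_dvd_place (hN : Odd N) (g : ℤ) (u : ℕ) (σ : Bool) :
    2 ∣ g - (((2 * u + σ.toNat) * N : ℕ) : ℤ) ↔ σ = decide (g % 2 = 1) := by
  obtain ⟨t, rfl⟩ := hN
  have e : (((2 * u + σ.toNat) * (2 * t + 1) : ℕ) : ℤ) =
      2 * (((2 * u + σ.toNat) * t + u : ℕ) : ℤ) + (σ.toNat : ℕ) := by
    push_cast; ring
  rw [e]
  generalize (((2 * u + σ.toNat) * t + u : ℕ) : ℤ) = m
  by_cases hg : g % 2 = 1 <;> cases σ <;> simp [hg] <;> omega

theorem psi_place {ψ : ℤ → Bool} (hψ : ∀ n, ψ (n + N) = ψ n) (g : ℤ) (c : ℕ) :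
    ψ (g - ((c * N : ℕ) : ℤ)) = ψ g := by
  rw [Nat.cast_mul]
  exact (show Function.Periodic ψ (N : ℤ) from hψ).sub_nat_mul_eq _

/-- One point of a slot with a label. -/
theorem point_unique {M J : ℕ} (f : Fin 20 → ℕ)
    (hb : Function.Bijective fun μ : Fin 20 =>
      (((uMap μ : ℕ) : ZMod M), ((f μ : ℕ) : ZMod J)))
    (K s : ZMod M) (C J₀ : ZMod J) :
    ∃! μ : Fin 20, K - (uMap μ : ZMod M) = s ∧ C - (f μ : ZMod J) = J₀ := by
  obtain ⟨μ, hμ, hu⟩ := hb.existsUnique (K - s, C - J₀)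
  simp only [Prod.mk.injEq] at hμ hu
  refine ⟨μ, ⟨by rw [hμ.1, sub_sub_cancel], by rw [hμ.2, sub_sub_cancel]⟩,
    fun ν hν => ?_⟩
  exact hu ν ⟨by rw [← hν.1, sub_sub_cancel], by rw [← hν.2, sub_sub_cancel]⟩

/-- The intended columns solve the equations with points. -/
theorem tiles_col (hN : Odd N) {ψ : ℤ → Bool} (hψ : ∀ n, ψ (n + N) = ψ n) (k : Fin 3) :
    Tiles₁ (ptTile N k) (fun X => col N ψ X.1) := by
  rw [tiles_iff hN.pos k]
  intro g z
  obtain ⟨u, ⟨hub, hum⟩, huu⟩ := isTiling_col (N := N) ψ g.1 z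
  obtain ⟨i, j, hi', hj', rfl⟩ := mem_box.1 hub
  have hu : decide (z.1.val % 2 = 1) = ψ g.1 ↔ i % 2 = 0 := by
    have h1 := par_of_mem hum
    have h2 := val_add_mod_two (z.1 - (i : ZMod (16 * 16))) i
    simp only [Prod.fst_sub] at h1
    rw [sub_add_cancel] at h2
    cases hψg : ψ g.1 <;> simp [hψg] at h1 ⊢ <;> omega
  have keyd : ∀ d, z - digit d ∈ col N ψ g.1 ↔
      2 * (d.1 : ℕ) + 1 = i ∧ (d.2 : ℕ) = j := by
    intro d
    constructor
    · intro h
      have h1 := huu _ ⟨digit_mem d, h⟩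
      simp only [digit, Prod.mk.injEq] at h1
      have := d.1.2
      have := d.2.2
      have e1 := congrArg ZMod.val h1.1
      have e2 := congrArg ZMod.val h1.2
      rw [ZMod.val_natCast_of_lt (by omega), ZMod.val_natCast_of_lt (by omega)] at e1 e2
      exact ⟨e1, e2⟩
    · rintro ⟨e1, e2⟩
      rw [digit, e1, e2]
      exact hum
  have keyh : ∀ x : Bool × Fin 20, x.1 = decide (g.1 % 2 = 1) →
      (z - (member N k (Sum.inr x)).2 ∈ col N ψ (g - (member N k (Sum.inr x)).1).1 ↔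
        decide (z.1.val % 2 = 1) = ψ g.1 ∧ cell z = cellOf (Sum.inl
          ((kk N (g.1 - (x.1.toNat * N : ℕ)) : ZMod 4) - (uMap x.2 : ZMod 4),
            hi z.2 - (jLab k x : ZMod 5)))) := by
    intro x hx
    simp only [member, place, Prod.fst_sub]
    rw [mem_col_h ((two_dvd_place hN g.1 _ _).2 hx), psi_place hψ, kk_place hN.pos, Int.cast_sub,
      Int.cast_natCast]
  have keye : ∀ x : Bool × Fin 20, x.1 = (!decide (g.1 % 2 = 1)) →
      (z - (member N k (Sum.inr x)).2 ∈ col N ψ (g - (member N k (Sum.inr x)).1).1 ↔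
        decide (z.1.val % 2 = 1) = ψ g.1 ∧ cell z = cellOf (Sum.inr
          ((kk N (g.1 - (x.1.toNat * N : ℕ)) : ZMod 10) - (uMap x.2 : ZMod 10),
            ZMod.castHom (by norm_num : 2 ∣ 16) (ZMod 2) (hi z.1) - (iLab k x : ZMod 2)))) := by
    intro x hx
    simp only [member, place, Prod.fst_sub]
    have hodd : ¬ 2 ∣ g.1 - (((2 * uMap x.2 + x.1.toNat) * N : ℕ) : ℤ) := by
      rw [two_dvd_place hN g.1, hx]
      cases decide (g.1 % 2 = 1) <;> decide
    rw [mem_col_e hodd, psi_place hψ, kk_place hN.pos, Int.cast_sub, Int.cast_natCast]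
  have split : ∀ x : Bool × Fin 20,
      x.1 = decide (g.1 % 2 = 1) ∨ x.1 = !decide (g.1 % 2 = 1) := by
    intro x
    cases x.1 <;> cases decide (g.1 % 2 = 1) <;> simp
  by_cases hpar : decide (z.1.val % 2 = 1) = ψ g.1
  · have hi0 := hu.1 hpar
    have nodigit : ∀ d, ¬ z - (member N k (Sum.inl d)).2 ∈
        col N ψ (g - (member N k (Sum.inl d)).1).1 := by
      intro d hd
      have := (keyd d).1 (by simpa [member] using hd)
      omega
    obtain ⟨v, hv⟩ := cellOf_bij.2 (cell z)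
    rcases v with ⟨s, J₀⟩ | ⟨s, I₀⟩
    · obtain ⟨μ, hμ, huniq⟩ := point_unique (fun μ => jLab k (decide (g.1 % 2 = 1), μ))
        (h_bij k (decide (g.1 % 2 = 1)))
        (kk N (g.1 - ((decide (g.1 % 2 = 1)).toNat * N : ℕ)) : ZMod 4) s (hi z.2) J₀
      refine ⟨Sum.inr (decide (g.1 % 2 = 1), μ), (keyh _ rfl).2 ⟨hpar, ?_⟩, ?_⟩
      · rw [← hv, hμ.1, hμ.2]
      rintro (d | ⟨σ, ν⟩) hx
      · exact absurd hx (nodigit d)
      rcases split (σ, ν) with hσ | hσ
      · have h := ((keyh _ hσ).1 hx).2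
        rw [← hv] at h
        have h' := Sum.inl.inj (cellOf_bij.1 h)
        simp only at hσ
        subst hσ
        simp only [Prod.mk.injEq] at h'
        rw [huniq ν ⟨h'.1.symm, h'.2.symm⟩]
      · have h := ((keye _ hσ).1 hx).2
        rw [← hv] at h
        exact absurd (cellOf_bij.1 h) (by simp)
    · obtain ⟨μ, hμ, huniq⟩ := point_unique (fun μ => iLab k (!decide (g.1 % 2 = 1), μ))
        (e_bij k (!decide (g.1 % 2 = 1)))
        (kk N (g.1 - ((!decide (g.1 % 2 = 1)).toNat * N : ℕ)) : ZMod 10) s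
        (ZMod.castHom (by norm_num : 2 ∣ 16) (ZMod 2) (hi z.1)) I₀
      refine ⟨Sum.inr (!decide (g.1 % 2 = 1), μ), (keye _ rfl).2 ⟨hpar, ?_⟩, ?_⟩
      · rw [← hv, hμ.1, hμ.2]
      rintro (d | ⟨σ, ν⟩) hx
      · exact absurd hx (nodigit d)
      rcases split (σ, ν) with hσ | hσ
      · have h := ((keyh _ hσ).1 hx).2
        rw [← hv] at h
        exact absurd (cellOf_bij.1 h) (by simp)
      · have h := ((keye _ hσ).1 hx).2
        rw [← hv] at h
        have h' := Sum.inr.inj (cellOf_bij.1 h)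
        simp only at hσ
        subst hσ
        simp only [Prod.mk.injEq] at h'
        rw [huniq ν ⟨h'.1.symm, h'.2.symm⟩]
  · have hi1 : i % 2 = 1 := by
      have := hu.not.1 hpar
      omega
    refine ⟨Sum.inl (⟨i / 2, by omega⟩, ⟨j, hj'⟩), ?_, ?_⟩
    · simpa [member] using (keyd _).2 ⟨by simp only; omega, rfl⟩
    rintro (d | x) hx
    · have h := (keyd d).1 (by simpa [member] using hx)
      exact congrArg Sum.inl (Prod.ext (Fin.ext (by simp only; omega)) (Fin.ext h.2))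
    · rcases split x with hσ | hσ
      · exact absurd ((keyh x hσ).1 hx).1 hpar
      · exact absurd ((keye x hσ).1 hx).1 hpar

theorem tiles_null (ψ : ℤ → Bool) : Tiles₁ nullTile (fun X => col N ψ X.1) := by
  intro g z
  obtain ⟨u, ⟨hu, hm⟩, huu⟩ := isTiling_col (N := N) ψ g.1 z
  have e : ∀ w : Blk 16 5,
      (g - if w = 0 then (0 : ℤ × ℤ) else ((0 : ℤ), (1 : ℤ))).1 = g.1 := by
    intro w; split_ifs <;> simp
  refine ⟨_, ⟨Finset.mem_image_of_mem _ hu, ?_⟩, ?_⟩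
  · show z - u ∈ col N ψ (g - if u = 0 then (0 : ℤ × ℤ) else ((0 : ℤ), (1 : ℤ))).1
    rw [e]; exact hm
  · rintro f ⟨hf, hz⟩
    obtain ⟨w, hw, rfl⟩ := Finset.mem_image.1 hf
    simp only [e] at hz
    rw [huu w ⟨hw, hz⟩]

end Even

open Even

/-- The even block. -/
theorem evenPin : EvenPin := by
  intro N hN
  refine ⟨Option (Fin 3), inferInstance, tile N, card_tile hN.pos, fun a ha hT => ?_,
    fun ψ hψ => ?_⟩
  · have hP : ∀ k, Tiles₁ (ptTile N k) a := fun k => hT (some k)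
    refine ⟨inv_iff hN.pos ha (hP 0), period hN.pos ha hP, fun X => ?_,
      fun h2 X => flip hN.pos ha hP h2 X⟩
    rw [null_step ha (hT none) X]
  · have hc : Cols (box 16 5) fun X : ℤ × ℤ => col N ψ X.1 := fun X => isTiling_col ψ X.1
    have hT : ∀ i, Tiles₁ (tile N i) fun X : ℤ × ℤ => col N ψ X.1
      | none => tiles_null ψ
      | some k => tiles_col hN hψ k
    refine ⟨_, hc, hT, fun X z hz => par_of_mem hz, fun X => ⟨fun h => ?_, fun h => ?_⟩⟩
    · by_contra hn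
      refine not_both hN.pos hc (hT (some 0)) X ⟨h, ?_⟩
      simp only [col, if_neg hn]
      exact inv_egen_eCol _ _
    · simp only [col, if_pos h]
      exact inv_hgen_hCol _ _

end Vale.Agent.P043.Three
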