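import Vale.Agent.P043.Three.Columns

/-!
P043, dimension three, even block: cells, labels and the four equations.
-/

namespace Vale.Agent.P043.Three.Even

/-- Four rows of five cells; every column of the rest has even size. -/
def rowX : ZMod 4 → ZMod 5 → Fin 8 :=
  ![![0, 2, 3, 4, 5], ![1, 2, 3, 6, 7], ![2, 4, 5, 6, 7], ![3, 4, 5, 6, 7]]

/-- The columns of the ten dominoes. -/
def domX : ZMod 10 → Fin 8 := ![0, 0, 1, 1, 2, 3, 4, 5, 6, 7]

/-- The rows of the ten dominoes. -/
def domY : ZMod 10 → ZMod 2 → ZMod 5 :=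
  ![![1, 2], ![3, 4], ![0, 2], ![3, 4], ![3, 4], ![2, 4], ![1, 4], ![1, 4], ![0, 4], ![0, 4]]

/-- The row of a row group. -/
def rowY : ZMod 4 → ZMod 5 := ![0, 1, 2, 3]

/-- The cells of the slots. -/
def cellOf : (ZMod 4 × ZMod 5) ⊕ (ZMod 10 × ZMod 2) → Fin 8 × ZMod 5
  | Sum.inl (s, j) => (rowX s j, rowY s)
  | Sum.inr (s, i) => (domX s, domY s i)

theorem cellOf_bij : Function.Bijective cellOf := by
  rw [Fintype.bijective_iff_injective_and_card]
  exact ⟨by decide, rfl⟩

/-- The place of a point along the stride, in double steps. -/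
def uMap (μ : Fin 20) : ℕ := if μ = 10 then 0 else if μ = 4 then 14 else μ

/-- The first label in equation `k`. -/
def iLab (k : Fin 3) (x : Bool × Fin 20) : ℕ :=
  (if k = 1 ∧ x.1 = false then Equiv.swap (1 : Fin 20) 11 x.2 else x.2 : Fin 20).val / 10

/-- The second label in equation `k`. -/
def jLab (k : Fin 3) (x : Bool × Fin 20) : ℕ :=
  (Equiv.swap (10 : Fin 20) 4
    (if k = 2 ∧ x.1 = false then Equiv.swap (1 : Fin 20) 5 x.2 else x.2)).val / 4

theorem h_bij : ∀ (k : Fin 3) (σ : Bool), Function.Bijective fun μ : Fin 20 =>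
    (((uMap μ : ℕ) : ZMod 4), ((jLab k (σ, μ) : ℕ) : ZMod 5)) := by
  intro k σ
  rw [Fintype.bijective_iff_injective_and_card]
  refine ⟨?_, rfl⟩
  revert k σ
  decide

theorem e_bij : ∀ (k : Fin 3) (σ : Bool), Function.Bijective fun μ : Fin 20 =>
    (((uMap μ : ℕ) : ZMod 10), ((iLab k (σ, μ) : ℕ) : ZMod 2)) := by
  intro k σ
  rw [Fintype.bijective_iff_injective_and_card]
  refine ⟨?_, rfl⟩
  revert k σ
  decide

theorem lab_inj : ∀ k : Fin 3, Function.Injective fun x : Bool × Fin 20 =>
    (2 * uMap x.2 + x.1.toNat, iLab k x, jLab k x) := by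
  decide

theorem lab_lt : ∀ (k : Fin 3) (x : Bool × Fin 20), iLab k x < 2 ∧ jLab k x < 5 := by decide

/-- The index of one equation: forty digits of the odd half and forty points. -/
abbrev Idx := (Fin 8 × Fin 5) ⊕ (Bool × Fin 20)

/-- An odd digit of the box. -/
def digit (d : Fin 8 × Fin 5) : Blk 16 5 :=
  (((2 * (d.1 : ℕ) + 1 : ℕ) : ZMod (16 * 16)), ((d.2 : ℕ) : ZMod (5 * 5)))

/-- The place of a point. -/
def place (N : ℕ) (x : Bool × Fin 20) : ℤ × ℤ := (((2 * uMap x.2 + x.1.toNat) * N : ℕ), 0)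

/-- One member of an equation. -/
def member (N : ℕ) (k : Fin 3) : Idx → (ℤ × ℤ) × Blk 16 5
  | Sum.inl d => (0, digit d)
  | Sum.inr x => (place N x, pt 16 5 (iLab k x) (jLab k x))

theorem digit_mem (d : Fin 8 × Fin 5) : digit d ∈ box 16 5 :=
  mem_box.2 ⟨2 * d.1 + 1, d.2, by omega, d.2.2, rfl⟩

theorem digit_inj : Function.Injective digit := by
  intro d e h
  simp only [digit, Prod.mk.injEq] at h
  have h1 := congrArg ZMod.val h.1
  have h2 := congrArg ZMod.val h.2
  have := d.1.2
  have := e.1.2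
  have := d.2.2
  have := e.2.2
  rw [ZMod.val_natCast_of_lt (by omega), ZMod.val_natCast_of_lt (by omega)] at h1 h2
  exact Prod.ext (Fin.ext (by omega)) (Fin.ext h2)

theorem member_inj {N : ℕ} (hN : 0 < N) (k : Fin 3) : Function.Injective (member N k) := by
  have par : ∀ (d : Fin 8 × Fin 5) (x : Bool × Fin 20),
      digit d ≠ pt 16 5 (iLab k x) (jLab k x) := by
    intro d x h
    have h1 := congrArg (fun z : Blk 16 5 => lo z.1) h
    simp only [digit, pt, lo_natCast, lo_mul] at h1
    have h2 := congrArg ZMod.val h1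
    have := d.1.2
    rw [ZMod.val_natCast_of_lt (by omega), ZMod.val_zero] at h2
    omega
  rintro (d | x) (e | y) h
  · exact congrArg Sum.inl (digit_inj (Prod.mk.inj h).2)
  · exact absurd (Prod.mk.inj h).2 (par d y)
  · exact absurd (Prod.mk.inj h).2.symm (par e x)
  · simp only [member, place, Prod.mk.injEq, Int.natCast_inj, and_true] at h
    obtain ⟨h1, h2⟩ := h
    refine congrArg Sum.inr (lab_inj k ?_)
    simp only [pt, Prod.mk.injEq] at h2
    obtain ⟨hi, hj⟩ := h2
    have li := lab_lt k x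
    have li' := lab_lt k y
    rw [← Nat.cast_mul, ← Nat.cast_mul, Int.cast_natCast, Int.cast_natCast] at hi hj
    have e1 := congrArg ZMod.val hi
    have e2 := congrArg ZMod.val hj
    rw [ZMod.val_natCast_of_lt (by omega), ZMod.val_natCast_of_lt (by omega)] at e1 e2
    refine Prod.ext (Nat.eq_of_mul_eq_mul_right hN h1) (Prod.ext ?_ ?_)
    · show iLab k x = iLab k y
      omega
    · show jLab k x = jLab k y
      omega

/-- One of the three equations with points. -/
def ptTile (N : ℕ) (k : Fin 3) : Finset ((ℤ × ℤ) × Blk 16 5) :=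
  Finset.univ.image (member N k)

/-- The equation which makes the columns constant along the second axis. -/
def nullTile : Finset ((ℤ × ℤ) × Blk 16 5) :=
  (box 16 5).image fun u => ((if u = 0 then 0 else ((0 : ℤ), (1 : ℤ))), u)

/-- The four equations. -/
def tile (N : ℕ) : Option (Fin 3) → Finset ((ℤ × ℤ) × Blk 16 5)
  | none => nullTile
  | some k => ptTile N k

theorem card_box : (box 16 5).card = 80 := by
  rw [box, Finset.card_image_of_injOn]
  · rfl
  intro u hu v hv h
  simp only [Finset.coe_product, Set.mem_prod, Finset.coe_range, Set.mem_Iio] at hu hv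
  simp only [Prod.mk.injEq] at h
  have h1 := congrArg ZMod.val h.1
  have h2 := congrArg ZMod.val h.2
  rw [ZMod.val_natCast_of_lt (by omega), ZMod.val_natCast_of_lt (by omega)] at h1 h2
  exact Prod.ext h1 h2

theorem card_tile {N : ℕ} (hN : 0 < N) : ∀ i, (tile N i).card = 80
  | none => by
    rw [tile, nullTile, Finset.card_image_of_injective _ fun u v h => (Prod.mk.inj h).2, card_box]
  | some k => by
    rw [tile, ptTile, Finset.card_image_of_injective _ (member_inj hN k)]
    rfl

/-- An equation, read on its members. -/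
theorem tiles_iff {N : ℕ} (hN : 0 < N) (k : Fin 3) {a : ℤ × ℤ → Set (Blk 16 5)} :
    Tiles₁ (ptTile N k) a ↔
      ∀ g z, ∃! m : Idx, z - (member N k m).2 ∈ a (g - (member N k m).1) := by
  constructor
  · intro h g z
    obtain ⟨f, ⟨hf, hz⟩, hu⟩ := h g z
    obtain ⟨m, -, rfl⟩ := Finset.mem_image.1 hf
    exact ⟨m, hz, fun m' hm' => member_inj hN k
      (hu _ ⟨Finset.mem_image_of_mem _ (Finset.mem_univ m'), hm'⟩)⟩
  · intro h g z
    obtain ⟨m, hm, hu⟩ := h g z
    refine ⟨_, ⟨Finset.mem_image_of_mem _ (Finset.mem_univ m), hm⟩, ?_⟩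
    rintro f ⟨hf, hz⟩
    obtain ⟨m', -, rfl⟩ := Finset.mem_image.1 hf
    rw [hu m' hz]

end Vale.Agent.P043.Three.Even
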