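import Vale.Agent.P043.Three.Box

/-!
P043, dimension three, even block: fibres of a column with one period, and counting by fibres.
-/

namespace Vale.Agent.P043.Three.Even

variable {p Q : ℕ} [NeZero p] [NeZero Q]

theorem zsmul_hgen (k : ℤ) : k • hgen p Q = pt p Q k 0 := by
  simp [hgen, pt, Prod.smul_mk, mul_comm]

/-- Membership in an `h` column only feels the low digit of the first coordinate. -/
theorem mem_same_lo {A : Set (Blk p Q)} (hI : Inv A (hgen p Q)) {x y : ZMod (p * p)}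
    {v : ZMod (Q * Q)} (hxy : lo y = lo x) (hx : (x, v) ∈ A) : (y, v) ∈ A := by
  have h0 : lo (y - x) = 0 := by rw [lo_sub, hxy, sub_self]
  rw [lo_eq, ZMod.natCast_eq_zero_iff] at h0
  have e : y - x = (((p : ℤ) * ((y - x).val / p : ℕ) : ℤ) : ZMod (p * p)) := by
    rw [← Nat.cast_mul, Int.cast_natCast, Nat.mul_div_cancel' h0, ZMod.natCast_zmod_val]
  have h := (hI.zsmul ((y - x).val / p : ℕ)) (x, v)
  rw [zsmul_hgen] at h
  have e' : ((x, v) : Blk p Q) + pt p Q ((y - x).val / p : ℕ) 0 = (y, v) := by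
    simp only [pt, Prod.mk_add_mk, ← e, add_sub_cancel, mul_zero, Int.cast_zero, add_zero]
  rw [e'] at h
  exact h.2 hx

theorem lo_snd_eq {A : Set (Blk p Q)} (hA : IsTiling (box p Q) A) (hI : Inv A (hgen p Q))
    {z z' : Blk p Q} (hz : z ∈ A) (hz' : z' ∈ A) : lo z.2 = lo z'.2 := by
  obtain ⟨-, -, h, -⟩ := boxPin p Q (Nat.pos_of_ne_zero (NeZero.ne p))
    (Nat.pos_of_ne_zero (NeZero.ne Q)) A hA
  obtain ⟨β, hβ⟩ := h hI
  rw [lo_eq, lo_eq, ← ZMod.natCast_mod z.2.val, ← ZMod.natCast_mod z'.2.val, hβ z hz,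
    hβ z' hz']

/-- On a line of an `h` column exactly one low digit occurs. -/
theorem fibre_h {A : Set (Blk p Q)} (hA : IsTiling (box p Q) A) (hI : Inv A (hgen p Q))
    (x : ZMod (p * p)) (v : ZMod (Q * Q)) (h : ∃ z ∈ A, lo z.2 = lo v) :
    ∃! r : ZMod p, (((r.val : ℕ) : ZMod (p * p)) - x, v) ∈ A := by
  obtain ⟨z, hz, hzv⟩ := h
  obtain ⟨u, ⟨hu, hm⟩, -⟩ := hA (0, v)
  obtain ⟨i, j, hi, hj, rfl⟩ := mem_box.1 hu
  have hj0 : j = 0 := by
    have e := lo_snd_eq hA hI hm hz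
    simp only [Prod.snd_sub, hzv, lo_sub, lo_natCast, sub_eq_self] at e
    rw [ZMod.natCast_eq_zero_iff] at e
    exact Nat.eq_zero_of_dvd_of_lt e hj
  subst hj0
  simp only [Prod.mk_sub_mk, Nat.cast_zero, sub_zero] at hm
  refine ⟨lo (0 - (i : ZMod (p * p)) + x), mem_same_lo hI ?_ hm, fun r hr => ?_⟩
  · rw [lo_sub, lo_natCast, ZMod.natCast_zmod_val, lo_add, add_sub_cancel_right]
  · set y := ((r.val : ℕ) : ZMod (p * p)) - x with hy
    set t := (lo y - lo (0 - (i : ZMod (p * p)))).val with ht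
    have htp : t < p := ZMod.val_lt _
    have h1 : (y - (t : ZMod (p * p)), v) ∈ A := mem_same_lo hI
      (by rw [lo_sub, lo_natCast, ht, ZMod.natCast_zmod_val, sub_sub_cancel]) hm
    obtain ⟨f, -, hf⟩ := hA (y, v)
    have ha := hf ((t : ZMod (p * p)), (0 : ZMod (Q * Q)))
      ⟨mem_box.2 ⟨t, 0, htp, Nat.pos_of_ne_zero (NeZero.ne Q), by simp⟩, by simpa using h1⟩
    have hb := hf 0 ⟨mem_box.2 ⟨0, 0, Nat.pos_of_ne_zero (NeZero.ne p),
      Nat.pos_of_ne_zero (NeZero.ne Q), by ext <;> simp⟩, by rw [sub_zero]; exact hr⟩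
    have e := congrArg Prod.fst (ha.trans hb.symm)
    simp only [Prod.fst_zero] at e
    have e' := congrArg lo e
    rw [lo_natCast, ht, ZMod.natCast_zmod_val,
      show lo (0 : ZMod (p * p)) = 0 by simp [lo], sub_eq_zero, hy, lo_sub, lo_natCast,
      ZMod.natCast_zmod_val, sub_eq_iff_eq_add] at e'
    rw [e', lo_add]

theorem swap_box {u : Blk p Q} : u ∈ box p Q ↔ u.swap ∈ box Q p := by
  simp only [mem_box]
  constructor
  · rintro ⟨i, j, hi, hj, rfl⟩; exact ⟨j, i, hj, hi, rfl⟩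
  · rintro ⟨i, j, hi, hj, h⟩
    exact ⟨j, i, hj, hi, by rw [← Prod.swap_swap u, ← h]; rfl⟩

theorem isTiling_swap {A : Set (Blk p Q)} (hA : IsTiling (box p Q) A) :
    IsTiling (box Q p) ((Prod.swap : Blk Q p → Blk p Q) ⁻¹' A) := by
  intro z
  obtain ⟨u, ⟨hu, hm⟩, hq⟩ := hA z.swap
  refine ⟨u.swap, ⟨swap_box.1 hu, ?_⟩, fun f hf => ?_⟩
  · show (z - u.swap).swap ∈ A
    simpa using hm
  · have h2 : f.swap ∈ box p Q := swap_box.2 (by rw [Prod.swap_swap]; exact hf.1)
    have h3 := hq f.swap ⟨h2, by simpa using hf.2⟩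
    rw [← h3, Prod.swap_swap]

theorem inv_swap {A : Set (Blk p Q)} (hI : Inv A (egen p Q)) :
    Inv ((Prod.swap : Blk Q p → Blk p Q) ⁻¹' A) (hgen Q p) := fun z => hI z.swap

theorem lo_fst_eq {A : Set (Blk p Q)} (hA : IsTiling (box p Q) A) (hI : Inv A (egen p Q))
    {z z' : Blk p Q} (hz : z ∈ A) (hz' : z' ∈ A) : lo z.1 = lo z'.1 :=
  lo_snd_eq (isTiling_swap hA) (inv_swap hI) (z := z.swap) (z' := z'.swap)
    (by simpa using hz) (by simpa using hz')

/-- On a line of an `e` column exactly one low digit occurs. -/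
theorem fibre_e {A : Set (Blk p Q)} (hA : IsTiling (box p Q) A) (hI : Inv A (egen p Q))
    (x : ZMod (p * p)) (v : ZMod (Q * Q)) (h : ∃ z ∈ A, lo z.1 = lo x) :
    ∃! r : ZMod Q, (x, ((r.val : ℕ) : ZMod (Q * Q)) - v) ∈ A := by
  obtain ⟨z, hz, hzx⟩ := h
  exact fibre_h (isTiling_swap hA) (inv_swap hI) v x ⟨z.swap, by simpa using hz, hzx⟩

omit [NeZero p] [NeZero Q] in
/-- Each place is covered once, so the fibres count the places. -/
theorem card_fibres {R M : Type*} [Fintype R] [Fintype M] (P : R → M → Prop) (W : M → Prop)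
    [DecidablePred W] (hP : ∀ r, ∃! m, P r m) (hW : ∀ m, W m → ∃! r, P r m)
    (hPW : ∀ r m, P r m → W m) : Fintype.card R = (Finset.univ.filter W).card := by
  rw [← Finset.card_univ]
  refine Finset.card_bij (fun r _ => Classical.choose (hP r).exists)
    (fun r _ => by simp [hPW r _ (Classical.choose_spec (hP r).exists)]) (fun r _ r' _ e => ?_)
    (fun m hm => ?_)
  · have h1 := Classical.choose_spec (hP r).exists
    have h2 := Classical.choose_spec (hP r').exists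
    rw [← e] at h2
    exact (hW _ (hPW r _ h1)).unique h1 h2
  · obtain ⟨r, hr, -⟩ := hW m (Finset.mem_filter.1 hm).2
    exact ⟨r, Finset.mem_univ _, (hP r).unique (Classical.choose_spec (hP r).exists) hr⟩

end Vale.Agent.P043.Three.Even
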