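import Vale.Agent.P043.Three.EvenData
import Vale.Agent.P043.Three.EvenFibre

/-!
P043, dimension three, even block: soundness.
-/

namespace Vale.Agent.P043.Three.Even

variable {N : ℕ} {a : ℤ × ℤ → Set (Blk 16 5)}

/-- The first axis. -/
def e₁ (k : ℤ) : ℤ × ℤ := (k, 0)

theorem e₁_add (k l : ℤ) : e₁ k + e₁ l = e₁ (k + l) := by simp [e₁]

/-- The column only depends on the first coordinate. -/
theorem null_step (ha : Cols (box 16 5) a) (h : Tiles₁ nullTile a) (X : ℤ × ℤ) :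
    a (X + (0, 1)) = a X := by
  have h0 : (0 : Blk 16 5) ∈ box 16 5 :=
    mem_box.2 ⟨0, 0, by norm_num, by norm_num, by ext <;> simp⟩
  ext z
  obtain ⟨f, ⟨hf, hz⟩, hu⟩ := h (X + (0, 1)) z
  obtain ⟨u, hub, rfl⟩ := Finset.mem_image.1 hf
  obtain ⟨w, -, hw⟩ := ha X z
  constructor
  · intro h1
    obtain ⟨u', ⟨hu', hm⟩, -⟩ := ha X z
    by_cases h' : u' = 0
    · simpa [h'] using hm
    have e1 := hu ((0 : ℤ × ℤ), 0) ⟨Finset.mem_image.2
      ⟨0, h0, by rw [if_pos rfl]⟩, by simpa using h1⟩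
    have e2 := hu (((0 : ℤ), (1 : ℤ)), u')
      ⟨Finset.mem_image.2 ⟨u', hu', by rw [if_neg h']⟩, by simpa using hm⟩
    exact absurd (congrArg Prod.snd (e1.trans e2.symm)).symm h'
  · intro h1
    by_cases h' : u = 0
    · subst h'
      simpa using hz
    · rw [if_neg h'] at hz
      have e1 := hw u ⟨hub, by simpa using hz⟩
      have e2 := hw 0 ⟨h0, by simpa using h1⟩
      exact absurd (e1.trans e2.symm) h'

theorem point_zero (k : Fin 3) : member N k (Sum.inr (false, 0)) = (0, pt 16 5 0 0) := by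
  fin_cases k <;> simp [member, place, uMap, iLab, jLab] <;> decide

theorem point_ten (k : Fin 3) : member N k (Sum.inr (false, 10)) = (0, pt 16 5 1 1) := by
  fin_cases k <;> simp [member, place, uMap, iLab, jLab] <;> decide

theorem pt_zero : pt 16 5 0 0 = 0 := by simp [pt, Prod.ext_iff]

/-- Never both periods. -/
theorem not_both (hN : 0 < N) (ha : Cols (box 16 5) a) (hT : Tiles₁ (ptTile N 0) a)
    (X : ℤ × ℤ) :
    ¬ (Inv (a X) (hgen 16 5) ∧ Inv (a X) (egen 16 5)) := by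
  rintro ⟨hh, he⟩
  rw [hgen_eq_pt] at hh
  rw [egen_eq_pt] at he
  have hd : Inv (a X) (pt 16 5 1 1) := by simpa [pt_add] using hh.add he
  obtain ⟨z, hz⟩ := nonempty_of_isTiling (ha X)
  obtain ⟨m, -, hu⟩ := (tiles_iff hN 0).1 hT X z
  have e1 := hu (Sum.inr (false, 0)) (by simp only [point_zero, pt_zero, sub_zero]; exact hz)
  have e2 := hu (Sum.inr (false, 10)) (by
    simp only [point_ten]
    have := hd (z - pt 16 5 1 1)
    rw [sub_add_cancel] at this
    simpa using this.1 hz)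
  exact absurd (e1.trans e2.symm) (by decide)

theorem inv_iff (hN : 0 < N) (ha : Cols (box 16 5) a) (hT : Tiles₁ (ptTile N 0) a)
    (X : ℤ × ℤ) :
    Inv (a X) (egen 16 5) ↔ ¬ Inv (a X) (hgen 16 5) := by
  have h1 := (boxPin 16 5 (by norm_num) (by norm_num) (a X) (ha X)).2.1
  have h2 := not_both hN ha hT X
  exact ⟨fun he hh => h2 ⟨hh, he⟩, fun hn => h1.resolve_left hn⟩

/-- The exchanged places of equation `k`. -/
def swapped (k : Fin 3) : Fin 20 := if k = 1 then 11 else 5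

theorem member_agree {k : Fin 3} (hk : k ≠ 0) (m : Idx) (h₁ : m ≠ Sum.inr (false, 1))
    (h₂ : m ≠ Sum.inr (false, swapped k)) : member N k m = member N 0 m := by
  rcases m with d | ⟨σ, μ⟩
  · rfl
  cases σ
  · have a1 : μ ≠ 1 := fun e => h₁ (by rw [e])
    have a2 : μ ≠ swapped k := fun e => h₂ (by rw [e])
    fin_cases k
    · exact absurd rfl hk
    · simp [swapped] at a2
      simp [member, iLab, jLab, Equiv.swap_apply_of_ne_of_ne a1 a2]
    · simp [swapped] at a2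
      simp [member, iLab, jLab, Equiv.swap_apply_of_ne_of_ne a1 a2]
  · simp [member, iLab, jLab]

theorem place_one : place N (false, 1) = e₁ (2 * N) := by
  simp [place, uMap, e₁]

theorem place_swapped (k : Fin 3) :
    place N (false, swapped k) = e₁ (if k = 1 then 22 * N else 10 * N) := by
  fin_cases k <;> simp [place, uMap, e₁, swapped]

/-- The two exchanged places cover the same. -/
theorem exchanged (hN : 0 < N) (hT : ∀ k, Tiles₁ (ptTile N k) a) {k : Fin 3} (hk : k ≠ 0)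
    (g : ℤ × ℤ) (z : Blk 16 5) :
    let A₁ := a (g - place N (false, 1))
    let A₂ := a (g - place N (false, swapped k))
    let t := fun (l : Fin 3) (μ : Fin 20) => pt 16 5 (iLab l (false, μ)) (jLab l (false, μ))
    ((z - t 0 1 ∈ A₁ ∨ z - t 0 (swapped k) ∈ A₂) ↔
        (z - t k 1 ∈ A₁ ∨ z - t k (swapped k) ∈ A₂)) ∧
      ¬ (z - t 0 1 ∈ A₁ ∧ z - t 0 (swapped k) ∈ A₂) ∧
      ¬ (z - t k 1 ∈ A₁ ∧ z - t k (swapped k) ∈ A₂) := by
  intro A₁ A₂ t
  have key : ∀ l, ∃! f, f ∈ Finset.univ.image (member N l) ∧ z - f.2 ∈ a (g - f.1) :=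
    fun l =>
    hT l g z
  exact exchange (member N 0) (member N k) (member_inj hN 0) (member_inj hN k)
    (m₁ := Sum.inr (false, 1)) (m₂ := Sum.inr (false, swapped k))
    (by fin_cases k <;> simp_all [swapped]) (fun m h₁ h₂ => member_agree hk m h₁ h₂)
    (fun f => z - f.2 ∈ a (g - f.1)) (key 0) (key k)

theorem labels_one : iLab 0 (false, 1) = 0 ∧ jLab 0 (false, 1) = 0 ∧
    iLab 0 (false, 11) = 1 ∧ jLab 0 (false, 11) = 2 ∧ iLab 1 (false, 1) = 1 ∧
    jLab 1 (false, 1) = 0 ∧ iLab 1 (false, 11) = 0 ∧ jLab 1 (false, 11) = 2 := by decide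

theorem labels_two : iLab 0 (false, 5) = 0 ∧ jLab 0 (false, 5) = 1 ∧ iLab 2 (false, 1) = 0 ∧
    jLab 2 (false, 1) = 1 ∧ iLab 2 (false, 5) = 0 ∧ jLab 2 (false, 5) = 0 := by decide

/-- The first exchange, at a chosen column. -/
theorem exch_i (hN : 0 < N) (hT : ∀ k, Tiles₁ (ptTile N k) a) (Y : ℤ × ℤ) (z : Blk 16 5) :
    let A₁ := a (Y + e₁ (20 * N))
    let A₂ := a Y
    ((z - pt 16 5 0 0 ∈ A₁ ∨ z - pt 16 5 1 2 ∈ A₂) ↔
        (z - pt 16 5 1 0 ∈ A₁ ∨ z - pt 16 5 0 2 ∈ A₂)) ∧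
      ¬ (z - pt 16 5 0 0 ∈ A₁ ∧ z - pt 16 5 1 2 ∈ A₂) ∧
      ¬ (z - pt 16 5 1 0 ∈ A₁ ∧ z - pt 16 5 0 2 ∈ A₂) := by
  have h := exchanged hN hT (k := 1) (by decide) (Y + e₁ (22 * N)) z
  obtain ⟨b1, b2, b3, b4, b5, b6, b7, b8⟩ := labels_one
  have e1 : Y + e₁ (22 * N) - e₁ (2 * N) = Y + e₁ (20 * N) := by
    simp [e₁, Prod.ext_iff]; ring
  simp only [place_swapped, place_one, if_true, e1, add_sub_cancel_right] at h
  simpa only [swapped, if_true, b1, b2, b3, b4, b5, b6, b7, b8, Nat.cast_zero, Nat.cast_one,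
    Nat.cast_ofNat] using h

/-- The second exchange, at a chosen column. -/
theorem exch_j (hN : 0 < N) (hT : ∀ k, Tiles₁ (ptTile N k) a) (Y : ℤ × ℤ) (z : Blk 16 5) :
    let A₁ := a (Y + e₁ (8 * N))
    let A₂ := a Y
    ((z - pt 16 5 0 0 ∈ A₁ ∨ z - pt 16 5 0 1 ∈ A₂) ↔
        (z - pt 16 5 0 1 ∈ A₁ ∨ z - pt 16 5 0 0 ∈ A₂)) ∧
      ¬ (z - pt 16 5 0 0 ∈ A₁ ∧ z - pt 16 5 0 1 ∈ A₂) ∧
      ¬ (z - pt 16 5 0 1 ∈ A₁ ∧ z - pt 16 5 0 0 ∈ A₂) := by
  have h := exchanged hN hT (k := 2) (by decide) (Y + e₁ (10 * N)) z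
  obtain ⟨b3, b4, b5, b6, b7, b8⟩ := labels_two
  have b1 := labels_one.1
  have b2 := labels_one.2.1
  have h21 : ¬ ((2 : Fin 3) = 1) := by decide
  have e1 : Y + e₁ (10 * N) - e₁ (2 * N) = Y + e₁ (8 * N) := by
    simp [e₁, Prod.ext_iff]; ring
  simp only [place_swapped, place_one, if_neg h21, e1, add_sub_cancel_right] at h
  simpa only [swapped, if_neg h21, b1, b2, b3, b4, b5, b6, b7, b8, Nat.cast_zero,
    Nat.cast_one] using h

theorem pt_sub_pt (i j i' j' : ℤ) (k l : ℤ) (h₁ : i - i' = k) (h₂ : j - j' = l) :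
    pt 16 5 i j - pt 16 5 i' j' = pt 16 5 k l := by rw [pt_sub, h₁, h₂]

theorem h_step (hN : 0 < N) (hT : ∀ k, Tiles₁ (ptTile N k) a) (Y : ℤ × ℤ) :
    Inv (a (Y + e₁ (20 * N))) (hgen 16 5) ↔ Inv (a Y) (hgen 16 5) := by
  rw [hgen_eq_pt]
  constructor
  · intro h
    have := inv_of_exchange (A₁ := a (Y + e₁ (20 * N))) (A₂ := a Y) (t₁ := pt 16 5 0 0)
      (t₁' := pt 16 5 1 0) (t₂ := pt 16 5 1 2) (t₂' := pt 16 5 0 2)
      (s₁ := True) (s₂ := True)
      trivial (fun z => by simpa using (exch_i hN hT Y z).1)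
      (fun z => by simpa using (exch_i hN hT Y z).2.1)
      (fun z => by simpa using (exch_i hN hT Y z).2.2) (by simpa [pt_sub] using h)
    simpa [pt_sub, pt] using this.neg
  · intro h
    have := inv_of_exchange (A₁ := a Y) (A₂ := a (Y + e₁ (20 * N))) (t₁ := pt 16 5 1 2)
      (t₁' := pt 16 5 0 2) (t₂ := pt 16 5 0 0) (t₂' := pt 16 5 1 0)
      (s₁ := True) (s₂ := True)
      trivial (fun z => by simpa [or_comm] using (exch_i hN hT Y z).1)
      (fun z => by simpa [and_comm] using (exch_i hN hT Y z).2.1)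
      (fun z => by simpa [and_comm] using (exch_i hN hT Y z).2.2)
      (by simpa [pt_sub, pt] using h.neg)
    simpa [pt_sub] using this

theorem e_step (hN : 0 < N) (hT : ∀ k, Tiles₁ (ptTile N k) a) (Y : ℤ × ℤ) :
    Inv (a (Y + e₁ (8 * N))) (egen 16 5) ↔ Inv (a Y) (egen 16 5) := by
  rw [egen_eq_pt]
  constructor
  · intro h
    have := inv_of_exchange (A₁ := a (Y + e₁ (8 * N))) (A₂ := a Y) (t₁ := pt 16 5 0 0)
      (t₁' := pt 16 5 0 1) (t₂ := pt 16 5 0 1) (t₂' := pt 16 5 0 0)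
      (s₁ := True) (s₂ := True)
      trivial (fun z => by simpa using (exch_j hN hT Y z).1)
      (fun z => by simpa using (exch_j hN hT Y z).2.1)
      (fun z => by simpa using (exch_j hN hT Y z).2.2) (by simpa [pt_sub] using h)
    simpa [pt_sub, pt] using this.neg
  · intro h
    have := inv_of_exchange (A₁ := a Y) (A₂ := a (Y + e₁ (8 * N))) (t₁ := pt 16 5 0 1)
      (t₁' := pt 16 5 0 0) (t₂ := pt 16 5 0 0) (t₂' := pt 16 5 0 1)
      (s₁ := True) (s₂ := True)
      trivial (fun z => by simpa [or_comm] using (exch_j hN hT Y z).1)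
      (fun z => by simpa [and_comm] using (exch_j hN hT Y z).2.1)
      (fun z => by simpa [and_comm] using (exch_j hN hT Y z).2.2)
      (by simpa [pt_sub, pt] using h.neg)
    simpa [pt_sub] using this

theorem period (hN : 0 < N) (ha : Cols (box 16 5) a) (hT : ∀ k, Tiles₁ (ptTile N k) a)
    (X : ℤ × ℤ) : Inv (a (X + e₁ (4 * N))) (hgen 16 5) ↔ Inv (a X) (hgen 16 5) := by
  have h8 : ∀ Y, Inv (a (Y + e₁ (8 * N))) (hgen 16 5) ↔ Inv (a Y) (hgen 16 5) := fun Y => by
    rw [← not_iff_not, ← inv_iff hN ha (hT 0), ← inv_iff hN ha (hT 0), e_step hN hT Y]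
  rw [← h_step hN hT (X + e₁ (4 * N)), add_assoc, e₁_add]
  have e : (4 * (N : ℤ) + 20 * N) = 8 * N + 8 * N + 8 * N := by ring
  rw [e, ← e₁_add, ← e₁_add, ← add_assoc, ← add_assoc, h8, h8, h8]

theorem eq_step_h (hN : 0 < N) (ha : Cols (box 16 5) a) (hT : ∀ k, Tiles₁ (ptTile N k) a)
    (Y : ℤ × ℤ) (h₁ : Inv (a (Y + e₁ (8 * N))) (hgen 16 5))
    (h₂ : Inv (a Y) (hgen 16 5)) :
    a (Y + e₁ (8 * N)) = a Y := by
  have apart : ∀ X, Inv (a X) (hgen 16 5) → ∀ z, z ∈ a X → z + pt 16 5 0 1 ∉ a X := by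
    intro X hX z hz hz'
    obtain ⟨m, -, hu⟩ := (tiles_iff hN 0).1 (hT 0) X (z + pt 16 5 1 1)
    have e1 := hu (Sum.inr (false, 0)) (by
      simp only [point_zero, pt_zero, sub_zero]
      have := hX (z + pt 16 5 0 1)
      rw [hgen_eq_pt, add_assoc, pt_add] at this
      exact this.2 hz')
    have e2 := hu (Sum.inr (false, 10)) (by simp only [point_ten]; simpa using hz)
    exact absurd (e1.trans e2.symm) (by decide)
  refine eq_of_exchange (δ := pt 16 5 0 1) (apart _ h₁) (apart _ h₂) fun z => ?_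
  simpa [pt_zero] using (exch_j hN hT Y z).1

theorem eq_step_e (hN : 0 < N) (ha : Cols (box 16 5) a) (hT : ∀ k, Tiles₁ (ptTile N k) a)
    (Y : ℤ × ℤ) (h₁ : Inv (a (Y + e₁ (20 * N))) (egen 16 5))
    (h₂ : Inv (a Y) (egen 16 5)) :
    a (Y + e₁ (20 * N)) = a Y := by
  have apart : ∀ X, Inv (a X) (egen 16 5) → ∀ z, z ∈ a X → z + pt 16 5 1 0 ∉ a X := by
    intro X hX z hz hz'
    obtain ⟨m, -, hu⟩ := (tiles_iff hN 0).1 (hT 0) X (z + pt 16 5 1 1)
    have e1 := hu (Sum.inr (false, 0)) (by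
      simp only [point_zero, pt_zero, sub_zero]
      have := hX (z + pt 16 5 1 0)
      rw [egen_eq_pt, add_assoc, pt_add] at this
      exact this.2 hz')
    have e2 := hu (Sum.inr (false, 10)) (by simp only [point_ten]; simpa using hz)
    exact absurd (e1.trans e2.symm) (by decide)
  have h02 : ∀ w, w + pt 16 5 0 2 ∈ a Y ↔ w ∈ a Y := by
    have := h₂.add h₂
    rw [egen_eq_pt, pt_add] at this
    simp only [Int.reduceAdd] at this
    exact this
  refine eq_of_exchange (δ := pt 16 5 1 0) (apart _ h₁) (apart _ h₂) fun z => ?_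
  have h := (exch_i hN hT Y z).1
  have f1 := h02 (z - pt 16 5 0 2)
  rw [sub_add_cancel] at f1
  have f2 := h02 (z - pt 16 5 1 2)
  rw [sub_add, pt_sub_pt 1 2 0 2 1 0 (by norm_num) (by norm_num)] at f2
  rw [← f2, ← f1] at h
  simpa [pt_zero] using h

theorem class_card : ∀ s : Fin 4, (Finset.univ.filter fun μ : Fin 20 =>
    uMap μ % 4 = (s : ℕ)).card = 5 := by decide

theorem class_card' : ∀ s : Fin 10, (Finset.univ.filter fun μ : Fin 20 =>
    uMap μ % 10 = (s : ℕ)).card = 2 := by decide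

open Classical in
/-- A property of places which depends on the residue only holds at a multiple of `c` places. -/
theorem dvd_count {M c : ℕ} [NeZero M]
    (hc : ∀ s : Fin M, (Finset.univ.filter fun μ : Fin 20 => uMap μ % M = (s : ℕ)).card = c)
    (R : Bool → ℕ → Prop) :
    c ∣ (Finset.univ.filter fun x : Bool × Fin 20 => R x.1 (uMap x.2 % M)).card := by
  rw [Finset.card_eq_sum_card_fiberwise (t := Finset.univ)
    (f := fun x : Bool × Fin 20 =>
      (x.1, (⟨uMap x.2 % M, Nat.mod_lt _ (NeZero.pos M)⟩ : Fin M)))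
    (fun x _ => Finset.mem_univ _)]
  refine Finset.dvd_sum fun y _ => ?_
  by_cases h : R y.1 y.2
  · refine dvd_of_eq ((hc y.2).symm.trans ?_)
    rw [← Finset.card_map
      (⟨fun μ => (y.1, μ), Prod.mk_right_injective y.1⟩ : Fin 20 ↪ Bool × Fin 20)]
    congr 1
    ext ⟨σ, μ⟩
    simp only [Finset.mem_map, Finset.mem_filter, Finset.mem_univ, true_and,
      Function.Embedding.coeFn_mk, Prod.mk.injEq, Prod.ext_iff, Fin.ext_iff]
    constructor
    · rintro ⟨μ', hμ, rfl, h'⟩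
      obtain rfl : μ' = μ := Fin.ext h'
      exact ⟨by rw [hμ]; exact h, rfl, hμ⟩
    · rintro ⟨-, rfl, h'⟩
      exact ⟨μ, h', rfl, rfl⟩
  · rw [Finset.card_eq_zero.2 (Finset.filter_eq_empty_iff.2 ?_)]
    · exact dvd_zero c
    intro x hx hy
    simp only [Finset.mem_filter, Finset.mem_univ, true_and] at hx
    subst hy
    exact h hx

theorem card_filter_sum (W : Idx → Prop) [DecidablePred W] : (Finset.univ.filter W).card =
    (Finset.univ.filter fun d => W (Sum.inl d)).card +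
      (Finset.univ.filter fun x => W (Sum.inr x)).card := by
  rw [← Finset.card_disjSum]
  congr 1
  ext (d | x) <;> simp

theorem no_h (k : ℕ) : 16 ≠ 8 + 5 * k := by omega

theorem no_e (k : ℕ) : 5 ≠ 0 + 2 * k := by omega

/-- On a line of period `M` for the columns, places agree by residues. -/
theorem line_mod {b : ℤ → Set (Blk 16 5)} {M : ℕ} (hb : ∀ m, b (m + 2 * M) = b m)
    (σ : Bool) (u : ℕ) :
    b (-((2 * u + σ.toNat : ℕ) : ℤ)) = b (-((2 * (u % M) + σ.toNat : ℕ) : ℤ)) := by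
  have h := (show Function.Periodic b (2 * M : ℤ) from hb).sub_nat_mul_eq (u / M)
    (x := -((2 * (u % M) + σ.toNat : ℕ) : ℤ))
  rw [← h]
  congr 1
  have e : ((u % M : ℕ) : ℤ) + (M : ℤ) * (u / M : ℕ) = u := by
    exact_mod_cast Nat.mod_add_div u M
  push_cast at e ⊢
  linarith

open Classical in
/-- A line is never of the first type throughout. -/
theorem not_all_h (hN : 0 < N) (ha : Cols (box 16 5) a) (hT : ∀ k, Tiles₁ (ptTile N k) a)
    (Y : ℤ × ℤ) (hall : ∀ m : ℤ, Inv (a (Y + e₁ (m * N))) (hgen 16 5)) : False := by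
  obtain ⟨b, hb⟩ : ∃ b : ℤ → Set (Blk 16 5), ∀ m, b m = a (Y + e₁ (m * N)) :=
    ⟨_, fun _ => rfl⟩
  have hper : ∀ m, b (m + 2 * ((4 : ℕ) : ℤ)) = b m := by
    intro m
    rw [hb, hb]
    have e : (Y + e₁ (m * N)) + e₁ (8 * N) = Y + e₁ ((m + 2 * ((4 : ℕ) : ℤ)) * N) := by
      rw [add_assoc, e₁_add]; congr 2; push_cast; ring
    have h := eq_step_h hN ha hT (Y + e₁ (m * N)) (by rw [e]; exact hall _) (hall m)
    rw [e] at h
    exact h
  have hgY : ∀ m : Idx, Inv (a (Y - (member N 0 m).1)) (hgen 16 5) ∧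
      a (Y - (member N 0 m).1) = b (match m with
        | Sum.inl _ => 0
        | Sum.inr x => -((2 * uMap x.2 + x.1.toNat : ℕ) : ℤ)) := by
    rintro (d | x)
    · simp only [member, sub_zero, hb, zero_mul]
      have := hall 0
      simp only [zero_mul] at this
      simp only [e₁, show ((0 : ℤ), (0 : ℤ)) = 0 from rfl, add_zero] at this ⊢
      exact ⟨this, trivial⟩
    · have e : Y - place N x = Y + e₁ (-((2 * uMap x.2 + x.1.toNat : ℕ) : ℤ) * N) := by
        simp [place, e₁, Prod.ext_iff]; ring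
      simp only [member, hb, e]
      exact ⟨hall _, by first | rfl | trivial⟩
  let W : Idx → Prop := fun m =>
    ∃ z ∈ a (Y - (member N 0 m).1), lo z.2 = lo (0 - (member N 0 m).2.2)
  have hcount := card_fibres (R := ZMod 16)
    (fun r m => (((r.val : ℕ) : ZMod (16 * 16)), (0 : ZMod (5 * 5))) - (member N 0 m).2
      ∈ a (Y - (member N 0 m).1)) W
    (fun r => (tiles_iff hN 0).1 (hT 0) Y _)
    (fun m hm => fibre_h (ha _) (hgY m).1 (member N 0 m).2.1 (0 - (member N 0 m).2.2) hm)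
    (fun r m hr => ⟨_, hr, rfl⟩)
  rw [ZMod.card, card_filter_sum] at hcount
  obtain ⟨z₀, hz₀⟩ := nonempty_of_isTiling (ha Y)
  have hY : Inv (a Y) (hgen 16 5) := by
    have := hall 0
    simpa [e₁, Prod.mk_zero_zero] using this
  have hfill : (Finset.univ.filter fun d => W (Sum.inl d)).card = 8 := by
    have e : ∀ d : Fin 8 × Fin 5, W (Sum.inl d) ↔ ((d.2 : ℕ) : ZMod 5) = -lo z₀.2 := by
      intro d
      simp only [W, member, digit, sub_zero, lo_sub, lo_natCast]
      constructor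
      · rintro ⟨z, hz, h⟩
        rw [lo_snd_eq (ha Y) hY hz hz₀] at h
        rw [h]; simp [lo]
      · intro h
        exact ⟨z₀, hz₀, by simp [lo] at h ⊢; rw [h, neg_neg]⟩
    rw [Finset.filter_congr fun d _ => e d]
    have : ∀ s : ZMod 5, (Finset.univ.filter fun d : Fin 8 × Fin 5 =>
        ((d.2 : ℕ) : ZMod 5) = s).card = 8 := by decide
    exact this _
  have hpts : 5 ∣ (Finset.univ.filter fun x => W (Sum.inr x)).card := by
    have e : ∀ x : Bool × Fin 20, W (Sum.inr x) ↔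
        ∃ z ∈ b (-((2 * (uMap x.2 % 4) + x.1.toNat : ℕ) : ℤ)), lo z.2 = 0 := by
      intro x
      have h0 : lo (0 - (member N 0 (Sum.inr x)).2.2) = 0 := by
        simp only [member, pt, lo_sub, lo_mul, sub_zero]
        simp [lo]
      simp only [W]
      rw [h0, (hgY (Sum.inr x)).2]
      simp only
      rw [line_mod hper x.1 (uMap x.2)]
    rw [Finset.filter_congr fun x _ => e x]
    have h := dvd_count (M := 4) (c := 5) class_card fun σ s =>
      ∃ z ∈ b (-((2 * s + σ.toNat : ℕ) : ℤ)), lo z.2 = 0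
    convert h
  obtain ⟨k, hk⟩ := hpts
  rw [hfill, hk] at hcount
  exact no_h k hcount

open Classical in
/-- A line is never of the second type throughout. -/
theorem not_all_e (hN : 0 < N) (ha : Cols (box 16 5) a) (hT : ∀ k, Tiles₁ (ptTile N k) a)
    (Y : ℤ × ℤ) (hall : ∀ m : ℤ, Inv (a (Y + e₁ (m * N))) (egen 16 5)) : False := by
  obtain ⟨b, hb⟩ : ∃ b : ℤ → Set (Blk 16 5), ∀ m, b m = a (Y + e₁ (m * N)) :=
    ⟨_, fun _ => rfl⟩
  have hper : ∀ m, b (m + 2 * ((10 : ℕ) : ℤ)) = b m := by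
    intro m
    rw [hb, hb]
    have e : (Y + e₁ (m * N)) + e₁ (20 * N) = Y + e₁ ((m + 2 * ((10 : ℕ) : ℤ)) * N) := by
      rw [add_assoc, e₁_add]; congr 2; push_cast; ring
    have h := eq_step_e hN ha hT (Y + e₁ (m * N)) (by rw [e]; exact hall _) (hall m)
    rw [e] at h
    exact h
  have hY : Inv (a Y) (egen 16 5) := by
    have := hall 0
    simpa [e₁, Prod.mk_zero_zero] using this
  have hgY : ∀ x : Bool × Fin 20, Inv (a (Y - place N x)) (egen 16 5) ∧
      a (Y - place N x) = b (-((2 * uMap x.2 + x.1.toNat : ℕ) : ℤ)) := by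
    intro x
    have e : Y - place N x = Y + e₁ (-((2 * uMap x.2 + x.1.toNat : ℕ) : ℤ) * N) := by
      simp [place, e₁, Prod.ext_iff]; ring
    rw [e, hb]
    exact ⟨hall _, by first | rfl | trivial⟩
  obtain ⟨z₀, hz₀⟩ := nonempty_of_isTiling (ha Y)
  let W : Idx → Prop := fun m =>
    ∃ z ∈ a (Y - (member N 0 m).1), lo z.1 = lo (z₀.1 - (member N 0 m).2.1)
  have hcount := card_fibres (R := ZMod 5)
    (fun r m => (z₀.1, ((r.val : ℕ) : ZMod (5 * 5))) - (member N 0 m).2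
      ∈ a (Y - (member N 0 m).1)) W
    (fun r => (tiles_iff hN 0).1 (hT 0) Y _)
    (fun m hm => fibre_e (ha _)
      (by rcases m with d | x
          · simpa [member] using hY
          · exact (hgY x).1)
      (z₀.1 - (member N 0 m).2.1) (member N 0 m).2.2 hm)
    (fun r m hr => ⟨_, hr, rfl⟩)
  rw [ZMod.card, card_filter_sum] at hcount
  have hfill : (Finset.univ.filter fun d => W (Sum.inl d)).card = 0 := by
    rw [Finset.card_eq_zero, Finset.filter_eq_empty_iff]
    rintro d - ⟨z, hz, h⟩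
    simp only [member, digit, sub_zero, lo_sub, lo_natCast] at hz h
    rw [lo_fst_eq (ha Y) hY hz hz₀] at h
    have : (((2 * (d.1 : ℕ) + 1 : ℕ)) : ZMod 16) = 0 := sub_eq_self.1 h.symm
    rw [ZMod.natCast_eq_zero_iff] at this
    omega
  have hpts : 2 ∣ (Finset.univ.filter fun x => W (Sum.inr x)).card := by
    have e : ∀ x : Bool × Fin 20, W (Sum.inr x) ↔
        ∃ z ∈ b (-((2 * (uMap x.2 % 10) + x.1.toNat : ℕ) : ℤ)), lo z.1 = lo z₀.1 := by
      intro x
      simp only [W, member, pt, lo_sub, lo_mul, sub_zero]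
      rw [(hgY x).2, line_mod hper x.1 (uMap x.2)]
    rw [Finset.filter_congr fun x _ => e x]
    have h := dvd_count (M := 10) (c := 2) class_card' fun σ s =>
      ∃ z ∈ b (-((2 * s + σ.toNat : ℕ) : ℤ)), lo z.1 = lo z₀.1
    convert h
  obtain ⟨k, hk⟩ := hpts
  rw [hfill, hk] at hcount
  exact no_e k hcount

/-- Of period two steps, the type flips at each step. -/
theorem flip (hN : 0 < N) (ha : Cols (box 16 5) a) (hT : ∀ k, Tiles₁ (ptTile N k) a)
    (h2 : ∀ X, Inv (a (X + e₁ (2 * N))) (hgen 16 5) ↔ Inv (a X) (hgen 16 5))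
    (X : ℤ × ℤ) :
    Inv (a (X + e₁ N)) (hgen 16 5) ↔ ¬ Inv (a X) (hgen 16 5) := by
  by_contra hne
  have h1 : Inv (a (X + e₁ N)) (hgen 16 5) ↔ Inv (a X) (hgen 16 5) := by
    by_cases hA : Inv (a (X + e₁ N)) (hgen 16 5) <;> by_cases hB : Inv (a X) (hgen 16 5) <;>
      simp_all
  have all : ∀ m : ℤ, (Inv (a (X + e₁ (m * N))) (hgen 16 5) ↔ Inv (a X) (hgen 16 5)) ∧
      (Inv (a (X + e₁ ((m + 1) * N))) (hgen 16 5) ↔ Inv (a X) (hgen 16 5)) := by
    intro m
    induction m using Int.induction_on with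
    | zero =>
      simp only [zero_mul, zero_add, one_mul]
      exact ⟨by simp [e₁, Prod.mk_zero_zero], h1⟩
    | succ i ih =>
      refine ⟨ih.2, ?_⟩
      rw [← ih.1, ← h2 (X + e₁ ((i : ℤ) * N)), add_assoc X, e₁_add]
      ring_nf
    | pred i ih =>
      refine ⟨?_, by simpa using ih.1⟩
      rw [← ih.2, ← h2 (X + e₁ ((-(i : ℤ) - 1) * N)), add_assoc X, e₁_add]
      ring_nf
  by_cases hX : Inv (a X) (hgen 16 5)
  · exact not_all_h hN ha hT X fun m => (all m).1.2 hX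
  · exact not_all_e hN ha hT X fun m => (inv_iff hN ha (hT 0) _).2 fun h => hX ((all m).1.1 h)

end Vale.Agent.P043.Three.Even
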