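import Vale.Agent.P043.Three.Pins

/-!
P043, dimension three: zero-one matrices with prescribed column sums and equal row sums,
filled column by column, the rows cyclically.
-/

namespace Vale.Agent.P043.Three

open Finset

/-- Prescribed column sums and equal row sums. -/
theorem fillPin : FillPin := by
  classical
  intro n K L c hc hsum
  let e : (Σ x : Fin n, Fin (c x)) ≃ Fin L × Fin K :=
    (finSigmaFinEquiv.trans (finCongr (hsum.trans (Nat.mul_comm K L)))).trans finProdFinEquiv.symm
  let f : (Σ x : Fin n, Fin (c x)) → Fin n × Fin K := fun s => (s.1, (e s).2)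
  have hval : ∀ s, ((e s).2 : ℕ) = (finSigmaFinEquiv s : ℕ) % K := fun s => by simp [e]
  have hf : Function.Injective f := by
    rintro ⟨x, i⟩ ⟨x', j⟩ h
    obtain ⟨rfl, h⟩ := Prod.mk.inj h
    have h' := congrArg Fin.val h
    simp only [hval, finSigmaFinEquiv_apply] at h'
    have h2 : (i : ℕ) % K = (j : ℕ) % K := Nat.ModEq.add_left_cancel' _ h'
    rw [Nat.mod_eq_of_lt (i.2.trans_le (hc x)), Nat.mod_eq_of_lt (j.2.trans_le (hc x))] at h2
    rw [Fin.ext h2]
  refine ⟨univ.image f, fun x => ?_, fun y => ?_⟩
  · rw [filter_image, card_image_of_injective _ hf]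
    calc ((univ : Finset (Σ x : Fin n, Fin (c x))).filter fun s => (f s).1 = x).card
        = ((univ : Finset (Fin (c x))).image
            fun i => (⟨x, i⟩ : Σ a : Fin n, Fin (c a))).card := by
          congr 1
          ext ⟨a, i⟩
          simp only [mem_filter, mem_univ, true_and, mem_image, f]
          constructor
          · rintro rfl; exact ⟨i, rfl⟩
          · rintro ⟨j, hj⟩; cases hj; rfl
      _ = c x := by
          rw [card_image_of_injective _ sigma_mk_injective, card_univ, Fintype.card_fin]
  · rw [filter_image, card_image_of_injective _ hf]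
    calc ((univ : Finset (Σ x : Fin n, Fin (c x))).filter fun s => (f s).2 = y).card
        = (((univ : Finset (Fin L × Fin K)).filter fun p => p.2 = y).map
            e.symm.toEmbedding).card := by
          congr 1
          ext s
          simp [f]
      _ = L := by
          rw [card_map,
            show ((univ : Finset (Fin L × Fin K)).filter fun p => p.2 = y)
              = univ ×ˢ {y} by ext ⟨a, b⟩; simp [eq_comm]]
          simp

end Vale.Agent.P043.Three
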