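import Vale.Agent.P043.Three.GuardTile
import Vale.Agent.P043.Three.Box
import Vale.Agent.P043.Three.Fill

/-!
P043, dimension three, guard block: columns for both values, and the block.
-/

namespace Vale.Agent.P043.Three

namespace Guard

open Finset

/-- Two translates at distance `P` along the stride must agree. -/
noncomputable def nullTile {Γ : Type*} [AddCommGroup Γ] (U : Finset Γ) (w : ℤ × ℤ) :
    Finset ((ℤ × ℤ) × Γ) := by
  classical exact insert (0, 0) ((U.erase 0).image fun u => (w, u))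

theorem card_nullTile {Γ : Type*} [AddCommGroup Γ] {U : Finset Γ} (h0 : (0 : Γ) ∈ U) {w : ℤ × ℤ}
    (hw : w ≠ 0) : (nullTile U w).card = U.card := by
  classical
  rw [nullTile, card_insert_of_notMem (by simp [hw]),
    card_image_of_injective _ (fun a b h => congrArg Prod.snd h), card_erase_add_one h0]

theorem tiles_nullTile {Γ : Type*} [AddCommGroup Γ] {U : Finset Γ} (h0 : (0 : Γ) ∈ U) {w : ℤ × ℤ}
    (hw : w ≠ 0) {a : ℤ × ℤ → Set Γ} (ha : Cols U a) :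
    Tiles₁ (nullTile U w) a ↔ ∀ g, a g = a (g - w) := by
  classical
  constructor
  · intro h g
    ext z
    obtain ⟨f, ⟨hf, hz⟩, hu⟩ := h g z
    obtain ⟨u, ⟨hU, hzu⟩, huu⟩ := ha (g - w) z
    constructor
    · intro hzg
      by_contra hn
      have hu0 : u ≠ 0 := fun e => hn (by simpa [e] using hzu)
      have e1 := hu (0, 0) ⟨by simp [nullTile], by simpa using hzg⟩
      have e2 := hu (w, u) ⟨by simp [nullTile, hU, hu0], hzu⟩
      exact hw (congrArg Prod.fst (e2.trans e1.symm))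
    · intro hzw
      have hu0 : u = 0 := (huu 0 ⟨h0, by simpa using hzw⟩).symm
      simp only [nullTile, mem_insert, mem_image, mem_erase] at hf
      rcases hf with rfl | ⟨u', ⟨hne, hU'⟩, rfl⟩
      · simpa using hz
      · exact absurd ((huu u' ⟨hU', hz⟩).trans hu0) hne
  · intro h g z
    obtain ⟨u, ⟨hU, hzu⟩, huu⟩ := ha (g - w) z
    by_cases hu0 : u = 0
    · refine ⟨(0, 0), ⟨by simp [nullTile], ?_⟩, ?_⟩
      · simp only [sub_zero]
        rw [h g]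
        simpa [hu0] using hzu
      rintro f ⟨hf, hz⟩
      simp only [nullTile, mem_insert, mem_image, mem_erase] at hf
      rcases hf with rfl | ⟨u', ⟨hne, hU'⟩, rfl⟩
      · rfl
      · exact absurd ((huu u' ⟨hU', hz⟩).trans hu0) hne
    · refine ⟨(w, u), ⟨by simp [nullTile, hU, hu0], hzu⟩, ?_⟩
      rintro f ⟨hf, hz⟩
      simp only [nullTile, mem_insert, mem_image, mem_erase] at hf
      rcases hf with rfl | ⟨u', ⟨hne, hU'⟩, rfl⟩
      · simp only [sub_zero] at hz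
        rw [h g] at hz
        exact absurd (huu 0 ⟨h0, by simpa using hz⟩).symm hu0
      · rw [huu u' ⟨hU', hz⟩]

variable {π ρ q Q S b es : ℕ} {v : ℤ × ℤ}

/-- The phase of a point. -/
def kOf (v X : ℤ × ℤ) : ℤ := X.1 / v.1

theorem kOf_sub_zsmul (hv : 0 < v.1) (X : ℤ × ℤ) (n : ℤ) : kOf v (X - n • v) = kOf v X - n := by
  simp only [kOf, Prod.fst_sub, Prod.smul_fst, smul_eq_mul]
  rw [sub_eq_add_neg, ← neg_mul, Int.add_mul_ediv_right _ _ hv.ne']
  ring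

theorem phase_sub (hq : 0 < q) (k : ℤ) (u s : ℕ) :
    (k - ((q * u + s : ℕ) : ℤ)) % (q : ℤ) = (k - s) % (q : ℤ) ∧
      (k - ((q * u + s : ℕ) : ℤ)) / (q : ℤ) = (k - s) / (q : ℤ) - u := by
  have e : k - ((q * u + s : ℕ) : ℤ) = (k - s) + (q : ℤ) * (-(u : ℤ)) := by push_cast; ring
  rw [e, Int.add_mul_emod_self_left, Int.add_mul_ediv_left _ _ (by omega)]
  exact ⟨rfl, by ring⟩

/-- The residue slot of an h phase. -/
def hIdx (h2 : 2 < q) (k : ℤ) : Fin (q - 1) :=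
  ⟨(k % (q : ℤ)).toNat - 1, by
    have := Int.emod_lt_of_pos k (show (0 : ℤ) < q by omega)
    omega⟩

theorem hIdx_eq_iff (h2 : 2 < q) {k : ℤ} (hk : k % (q : ℤ) ≠ 0) (r : Fin (q - 1)) :
    hIdx h2 k = r ↔ k % (q : ℤ) = (r : ℕ) + 1 := by
  have := Int.emod_nonneg k (show (q : ℤ) ≠ 0 by omega)
  simp only [hIdx, Fin.ext_iff]
  omega

variable [NeZero (π * ρ)] [NeZero Q] [NeZero q] [NeZero b] [NeZero es] [NeZero (eQ π ρ S)]

/-- The column of one value at a phase. -/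
def colG (h2 : 2 < q) (hb : b ∣ π * ρ) (hqQ : q ∣ Q) (Φ : Groups π ρ q (π * ρ) Q S b es) (k : ℤ) :
    Set (Blk (π * ρ) Q) :=
  if k % (q : ℤ) = 0 then
    eCol (Φ (Sum.inl (Parity.slot es (k / q), 0))).2
      (fun I => (Φ (Sum.inl (Parity.slot es (k / q), ZMod.castHom hb (ZMod b) I))).1)
  else
    hCol (fun J => (Φ (Sum.inr ((hIdx h2 k, Parity.slot (eQ π ρ S) (k / q)),
        ZMod.castHom hqQ (ZMod q) J))).2)
      (Φ (Sum.inr ((hIdx h2 k, Parity.slot (eQ π ρ S) (k / q)), 0))).1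

variable {h2 : 2 < q} {hb : b ∣ π * ρ} {hqQ : q ∣ Q} {Φ : Groups π ρ q (π * ρ) Q S b es}

omit [NeZero q] [NeZero b] in
theorem isTiling_colG (k : ℤ) : IsTiling (box (π * ρ) Q) (colG h2 hb hqQ Φ k) := by
  unfold colG
  split_ifs
  · exact isTiling_eCol _ _
  · exact isTiling_hCol _ _

omit [NeZero q] [NeZero b] in
theorem mem_colG_zero (hl : ∀ s i i', (Φ (Sum.inl (s, i))).2 = (Φ (Sum.inl (s, i'))).2) {k : ℤ}
    (hk : k % (q : ℤ) = 0) (z : Blk (π * ρ) Q) (i j : ℕ) :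
    z - pt (π * ρ) Q i j ∈ colG h2 hb hqQ Φ k ↔
      Φ.symm (lo z.2, lo z.1) =
        Sum.inl (Parity.slot es (k / q), ZMod.castHom hb (ZMod b) (hi z.1) - (i : ZMod b)) := by
  rw [Equiv.symm_apply_eq, Prod.ext_iff, colG, if_pos hk, sub_pt_mem_eCol, map_sub, map_intCast,
    Int.cast_natCast, hl _ (ZMod.castHom hb (ZMod b) (hi z.1) - (i : ZMod b)) 0]
  exact and_comm

omit [NeZero q] [NeZero b] in
theorem mem_colG_ne (hr : ∀ s j j', (Φ (Sum.inr (s, j))).1 = (Φ (Sum.inr (s, j'))).1) {k : ℤ}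
    (hk : k % (q : ℤ) ≠ 0) (z : Blk (π * ρ) Q) (i j : ℕ) :
    z - pt (π * ρ) Q i j ∈ colG h2 hb hqQ Φ k ↔
      Φ.symm (lo z.2, lo z.1) = Sum.inr ((hIdx h2 k, Parity.slot (eQ π ρ S) (k / q)),
        ZMod.castHom hqQ (ZMod q) (hi z.2) - (j : ZMod q)) := by
  rw [Equiv.symm_apply_eq, Prod.ext_iff, colG, if_neg hk, sub_pt_mem_hCol, map_sub, map_intCast,
    Int.cast_natCast, hr _ (ZMod.castHom hqQ (ZMod q) (hi z.2) - (j : ZMod q)) 0]

omit [NeZero q] [NeZero b] in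
theorem inv_colG (k : ℤ) : Inv (colG h2 hb hqQ Φ k) (pt (π * ρ) Q b 0) := by
  unfold colG
  split_ifs
  · refine inv_eCol fun I => ?_
    simp only [map_add, Int.cast_natCast, map_natCast, ZMod.natCast_self, add_zero]
  · exact inv_hCol fun J => by simp

omit [NeZero q] [NeZero b] in
theorem colG_add_period (hes : es ∣ hNum π ρ q S) (k : ℤ) :
    colG h2 hb hqQ Φ (k + ((q * hNum π ρ q S : ℕ) : ℤ)) = colG h2 hb hqQ Φ k := by
  have e1 : (k + ((q * hNum π ρ q S : ℕ) : ℤ)) % (q : ℤ) = k % (q : ℤ) := by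
    push_cast; rw [Int.add_mul_emod_self_left]
  have e2 : (k + ((q * hNum π ρ q S : ℕ) : ℤ)) / (q : ℤ) = k / (q : ℤ) + (hNum π ρ q S : ℕ) := by
    push_cast; rw [Int.add_mul_ediv_left _ _ (by omega)]
  have e3 : ∀ M [NeZero M], M ∣ hNum π ρ q S →
      Parity.slot M (k / (q : ℤ) + (hNum π ρ q S : ℕ)) = Parity.slot M (k / (q : ℤ)) := by
    intro M _ hM
    have : ((k / (q : ℤ) + (hNum π ρ q S : ℕ) : ℤ) : ZMod M) = ((k / (q : ℤ) : ℤ) : ZMod M) := by
      rw [Int.cast_add, Int.cast_natCast, (ZMod.natCast_eq_zero_iff _ _).2 hM, add_zero]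
    simp only [Parity.slot, this]
  have e4 : hIdx h2 (k + ((q * hNum π ρ q S : ℕ) : ℤ)) = hIdx h2 k := by simp only [hIdx, e1]
  unfold colG
  rw [e1, e2, e3 es hes, e3 (eQ π ρ S) ⟨q, by rw [hNum_eq]; ring⟩, e4]

/-- The columns of one value solve both equations at a point. -/
theorem exists_unique_colG (o : Ok π ρ q (π * ρ) Q S) (hv : 0 < v.1) {hc : π.Coprime ρ}
    (hl : ∀ s i i', (Φ (Sum.inl (s, i))).2 = (Φ (Sum.inl (s, i'))).2)
    (hr : ∀ s j j', (Φ (Sum.inr (s, j))).1 = (Φ (Sum.inr (s, j'))).1)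
    {l : ℕ → ℕ} (hli : ∀ μ, ((iVal π ρ q S hc μ : ℕ) : ZMod b) = (l μ : ZMod b))
    (hbij : Function.Bijective fun μ : Fin (hNum π ρ q S) =>
      ((uu π ρ q S μ : ZMod es), (l μ : ZMod b)))
    (k : Bool) (g : ℤ × ℤ) (z : Blk (π * ρ) Q) :
    ∃! x : Pts π ρ q S,
      z - lab π ρ q S Q hc k x ∈ colG h2 hb hqQ Φ (kOf v (g - place π ρ q S v x)) := by
  have hq := o.primeQ.pos
  have hqz : (q : ℤ) ≠ 0 := by omega
  obtain ⟨kg, hkg⟩ : ∃ kg, kg = kOf v g := ⟨_, rfl⟩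
  have hk : ∀ x : Pts π ρ q S,
      kOf v (g - place π ρ q S v x) = kg - ((q * uu π ρ q S x.2 + x.1 : ℕ) : ℤ) := fun x => by
    rw [place, kOf_sub_zsmul hv, hkg]
  have key₀ : ∀ x : Pts π ρ q S, (kg - (x.1 : ℕ)) % (q : ℤ) = 0 →
      (z - lab π ρ q S Q hc k x ∈ colG h2 hb hqQ Φ (kOf v (g - place π ρ q S v x)) ↔
        Φ.symm (lo z.2, lo z.1) =
          Sum.inl (Parity.slot es ((kg - (x.1 : ℕ)) / (q : ℤ) - (uu π ρ q S x.2 : ℕ)),
            ZMod.castHom hb (ZMod b) (hi z.1) - (l x.2 : ZMod b))) := by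
    intro x h0
    rw [hk, lab, mem_colG_zero hl (by rw [(phase_sub hq kg _ _).1]; exact h0),
      (phase_sub hq kg _ _).2, hli]
  have key₁ : ∀ x : Pts π ρ q S, (kg - (x.1 : ℕ)) % (q : ℤ) ≠ 0 →
      (z - lab π ρ q S Q hc k x ∈ colG h2 hb hqQ Φ (kOf v (g - place π ρ q S v x)) ↔
        Φ.symm (lo z.2, lo z.1) =
          Sum.inr ((hIdx h2 (kg - ((q * uu π ρ q S x.2 + x.1 : ℕ) : ℤ)),
              Parity.slot (eQ π ρ S) ((kg - (x.1 : ℕ)) / (q : ℤ) - (uu π ρ q S x.2 : ℕ))),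
            ZMod.castHom hqQ (ZMod q) (hi z.2) -
              (jLab π ρ S (k && decide ((x.1 : ℕ) = 0)) x.2 : ZMod q))) := by
    intro x h0
    rw [hk, lab, mem_colG_ne hr (by rw [(phase_sub hq kg _ _).1]; exact h0),
      (phase_sub hq kg _ _).2]
  have hfin : ∀ m : ℤ, ∃ s : Fin q, ((s : ℕ) : ℤ) = m % (q : ℤ) := fun m => by
    have h1 := Int.emod_nonneg m hqz
    have h2 := Int.emod_lt_of_pos m (show (0 : ℤ) < q by omega)
    exact ⟨⟨(m % (q : ℤ)).toNat, by omega⟩, by simp; omega⟩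
  have hmod : ∀ (s : Fin q) (r : ℤ), (kg - (s : ℕ)) % (q : ℤ) = r % (q : ℤ) ↔
      ((s : ℕ) : ℤ) = (kg - r) % (q : ℤ) := by
    intro s r
    have hs : ((s : ℕ) : ℤ) % (q : ℤ) = (s : ℕ) := Int.emod_eq_of_lt (by omega) (by omega)
    conv_rhs => rw [← hs]
    rw [Int.emod_eq_emod_iff_emod_sub_eq_zero, Int.emod_eq_emod_iff_emod_sub_eq_zero,
      ← Int.dvd_iff_emod_eq_zero, ← Int.dvd_iff_emod_eq_zero, sub_right_comm kg, ← dvd_neg, neg_sub]
  rcases hv' : Φ.symm (lo z.2, lo z.1) with ⟨s₀, I₀⟩ | ⟨⟨r₀, c₀⟩, J₀⟩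
  · obtain ⟨s, hs⟩ := hfin (kg - 0)
    have h0 : (kg - (s : ℕ)) % (q : ℤ) = 0 := by
      rw [(hmod s 0).2 hs, Int.zero_emod]
    obtain ⟨μ, ⟨hμs, hμl⟩, huniq⟩ := Parity.slot_unique (fun μ : Fin (hNum π ρ q S) => uu π ρ q S μ)
      (fun μ => (l μ : ZMod b)) hbij (Nat.coprime_one_left es)
      ((((kg - (s : ℕ)) / (q : ℤ)) : ℤ) : ZMod es) ((s₀ : ℕ) : ZMod es)
      (ZMod.castHom hb (ZMod b) (hi z.1)) I₀
    refine ⟨(s, μ), (key₀ (s, μ) h0).2 ?_, ?_⟩
    · rw [hv', hμl]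
      congr 2
      exact (Parity.slot_eq.2 (by rw [← hμs]; simp)).symm
    · rintro ⟨s', ν⟩ hx
      by_cases h0' : (kg - (s' : ℕ)) % (q : ℤ) = 0
      · obtain rfl : s' = s := by
          refine Fin.ext ?_
          have := (hmod s' 0).1 (by rw [h0', Int.zero_emod])
          rw [← hs] at this
          exact_mod_cast this
        have he := (key₀ (s', ν) h0').1 hx
        rw [hv', Sum.inl.injEq, Prod.mk.injEq] at he
        rw [huniq ν ⟨by
          have := Parity.slot_eq.1 he.1.symm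
          rw [← this]; simp, he.2.symm⟩]
      · have he := (key₁ (s', ν) h0').1 hx
        rw [hv'] at he
        simp at he
  · obtain ⟨s, hs⟩ := hfin (kg - ((r₀ : ℕ) + 1))
    have hrq : (((r₀ : ℕ) : ℤ) + 1) % (q : ℤ) = (r₀ : ℕ) + 1 :=
      Int.emod_eq_of_lt (by omega) (by omega)
    have h1 : (kg - (s : ℕ)) % (q : ℤ) = (r₀ : ℕ) + 1 := by rw [(hmod s _).2 hs, hrq]
    have h0 : (kg - (s : ℕ)) % (q : ℤ) ≠ 0 := by omega
    obtain ⟨μ, ⟨hμs, hμl⟩, huniq⟩ := Parity.slot_unique (fun μ : Fin (hNum π ρ q S) => uu π ρ q S μ)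
      (fun μ => (jLab π ρ S (k && decide ((s : ℕ) = 0)) μ : ZMod q))
      (o.j_bij (k && decide ((s : ℕ) = 0))) (Nat.coprime_one_left (eQ π ρ S))
      ((((kg - (s : ℕ)) / (q : ℤ)) : ℤ) : ZMod (eQ π ρ S)) ((c₀ : ℕ) : ZMod (eQ π ρ S))
      (ZMod.castHom hqQ (ZMod q) (hi z.2)) J₀
    have hne : ∀ u : ℕ, (kg - ((q * u + (s : ℕ) : ℕ) : ℤ)) % (q : ℤ) = (r₀ : ℕ) + 1 := fun u => by
      rw [(phase_sub hq kg u s).1, h1]
    refine ⟨(s, μ), (key₁ (s, μ) h0).2 ?_, ?_⟩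
    · rw [hv', hμl]
      congr 3
      · exact ((hIdx_eq_iff h2 (by rw [hne]; omega) r₀).2 (hne _)).symm
      · exact (Parity.slot_eq.2 (by rw [← hμs]; simp)).symm
    · rintro ⟨s', ν⟩ hx
      by_cases h0' : (kg - (s' : ℕ)) % (q : ℤ) = 0
      · have he := (key₀ (s', ν) h0').1 hx
        rw [hv'] at he
        simp at he
      · have he := (key₁ (s', ν) h0').1 hx
        rw [hv', Sum.inr.injEq, Prod.mk.injEq, Prod.mk.injEq] at he
        have hr' := (hIdx_eq_iff h2 (by rw [(phase_sub hq kg _ _).1]; exact h0') r₀).1 he.1.1.symm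
        rw [(phase_sub hq kg _ _).1] at hr'
        obtain rfl : s' = s := by
          refine Fin.ext ?_
          have := (hmod s' ((r₀ : ℕ) + 1)).1 (by rw [hr', hrq])
          rw [← hs] at this
          exact_mod_cast this
        rw [huniq ν ⟨by
          have := Parity.slot_eq.1 he.1.2.symm
          rw [← this]; simp, he.2.symm⟩]

end Guard

open Guard in
/-- The guard block exists. -/
theorem guardPin : GuardPin := by
  intro q π ρ B v hq hπ hρ h2 hqπ hqρ hne hπQ hρQ hv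
  have hB : 2 < B := by
    have : q ^ 2 < q ^ B := by rw [pow_two]; omega
    exact (Nat.pow_lt_pow_iff_right hq.one_lt).1 this
  obtain ⟨B', rfl⟩ : ∃ B', B = B' + 2 := ⟨B - 2, by omega⟩
  have o : Ok π ρ q (π * ρ) (q ^ (B' + 2)) (q ^ B') :=
    { primeQ := hq, primePi := hπ, primeRho := hρ, two_lt := h2, ltPi := hqπ, ltRho := hqρ, ne := hne
      eqP := rfl, eqQ := by ring, pow := ⟨B' + 1, by ring⟩, bigPi := hπQ, bigRho := hρQ }
  obtain ⟨Q, hQ⟩ : ∃ Q, Q = q ^ (B' + 2) := ⟨_, rfl⟩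
  rw [← hQ] at o hπQ hρQ ⊢
  obtain ⟨S, hS⟩ : ∃ S, S = q ^ B' := ⟨_, rfl⟩
  rw [← hS] at o
  have : NeZero (π * ρ) := ⟨(Nat.mul_pos hπ.pos hρ.pos).ne'⟩
  have : NeZero Q := ⟨o.Q_pos.ne'⟩
  have : NeZero q := ⟨hq.ne_zero⟩
  have : NeZero π := ⟨hπ.ne_zero⟩
  have : NeZero ρ := ⟨hρ.ne_zero⟩
  have : NeZero (eQ π ρ S) := ⟨o.eQ_pos.ne'⟩
  have : NeZero (ρ * (q * S)) := ⟨o.distinct.1.ne'⟩
  have : NeZero (π * (q * S)) := ⟨o.distinct.2.1.ne'⟩
  have hc := o.coprime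
  have hqQ : q ∣ Q := ⟨q * S, by rw [o.eqQ]; ring⟩
  obtain ⟨Φ₁, l₁, r₁⟩ := exists_groupsOf (π := π) (ρ := ρ) fillPin (a := π) (b := ρ) hq hqπ hqρ hρQ
    rfl o.eqQ o.pow rfl
  obtain ⟨Φ₀, l₀, r₀⟩ := exists_groupsOf (π := π) (ρ := ρ) (p := π * ρ) fillPin (a := ρ) (b := π) hq
    hqρ hqπ hπQ (mul_comm π ρ) o.eqQ o.pow rfl
  obtain ⟨P, hP⟩ : ∃ P, P = q * hNum π ρ q S := ⟨_, rfl⟩
  have hw : ((P : ℤ) • v : ℤ × ℤ) ≠ 0 := by
    intro h
    have := congrArg Prod.fst h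
    simp only [Prod.smul_fst, smul_eq_mul, Prod.fst_zero, mul_eq_zero] at this
    have hPpos : 0 < P := hP ▸ Nat.mul_pos hq.pos (Nat.zero_lt_of_lt o.one_add_lt)
    omega
  have hbox : (0 : Blk (π * ρ) Q) ∈ box (π * ρ) Q :=
    mem_box.2 ⟨0, 0, Nat.pos_of_ne_zero (NeZero.ne _), o.Q_pos, by simp⟩
  have hcardbox : (box (π * ρ) Q).card = π * ρ * Q := by
    rw [box, Finset.card_image_of_injOn, Finset.card_product, Finset.card_range, Finset.card_range]
    rintro ⟨i, j⟩ hij ⟨i', j'⟩ hij' h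
    simp only [Finset.coe_product, Set.mem_prod, Finset.coe_range, Set.mem_Iio] at hij hij'
    simp only [Prod.mk.injEq] at h
    have h1 := congrArg ZMod.val h.1
    have h2 := congrArg ZMod.val h.2
    have := Nat.le_mul_self (π * ρ)
    have := Nat.le_mul_self Q
    rw [ZMod.val_natCast_of_lt (by omega), ZMod.val_natCast_of_lt (by omega)] at h1 h2
    rw [h1, h2]
  refine ⟨Option Bool, inferInstance,
    fun o => o.elim (nullTile (box (π * ρ) Q) ((P : ℤ) • v)) (tile π ρ q S Q v hc), P, ?_, ?_, ?_, ?_⟩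
  · have ho : ∀ {n : ℕ}, n.Prime → 2 < n → Odd n := fun hn h => hn.odd_of_ne_two (by omega)
    rw [hP, hNum, hS]
    refine (ho hq h2).mul (((ho hπ ?_).mul (ho hρ ?_)).mul ((ho hq h2).mul ((ho hq h2).pow)))
    · exact h2.trans o.q_lt_pi
    · exact h2.trans o.q_lt_rho
  · rintro (_ | k)
    · exact (card_nullTile hbox hw).trans hcardbox
    · exact card_tile o hv k
  · intro a ha hT
    refine ⟨fun X => ?_, exists_value_missing boxPin o hv ha fun k => hT (some k)⟩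
    have := (tiles_nullTile hbox hw ha).1 (hT none) (X + (P : ℤ) • v)
    rwa [add_sub_cancel_right] at this
  intro c hc'
  let a : ℤ × ℤ → Set (Blk (π * ρ) Q) := fun X =>
    if c X then colG h2 (dvd_mul_left ρ π) hqQ Φ₁ (kOf v X)
    else colG h2 (dvd_mul_right π ρ) hqQ Φ₀ (kOf v X)
  have ha : Cols (box (π * ρ) Q) a := fun X => by
    simp only [a]
    split_ifs
    · exact isTiling_colG _
    · exact isTiling_colG _
  have hcn : ∀ (X : ℤ × ℤ) (n : ℤ), c (X - n • v) = c X := fun X n =>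
    ((show Function.Periodic c v from hc').zsmul n).sub_eq X
  have hproj : ∀ w : ZMod π × ZMod ρ,
      ((((ZMod.chineseRemainder hc).symm w).val : ℕ) : ZMod π) = w.1 ∧
        ((((ZMod.chineseRemainder hc).symm w).val : ℕ) : ZMod ρ) = w.2 := by
    intro w
    have key : ∀ (n : ℕ) (f : ZMod (π * ρ) →+* ZMod n) (x : ZMod (π * ρ)), ((x.val : ℕ) : ZMod n) = f x :=
      fun n f x => by rw [← map_natCast f, ZMod.natCast_zmod_val]
    constructor
    · rw [key π ((RingHom.fst _ _).comp (ZMod.chineseRemainder hc).toRingHom)]; simp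
    · rw [key ρ ((RingHom.snd _ _).comp (ZMod.chineseRemainder hc).toRingHom)]; simp
  refine ⟨a, ha, ?_, fun X => ⟨fun h => ?_, fun h => ?_⟩⟩
  · rintro (_ | k)
    · refine (tiles_nullTile hbox hw ha).2 fun g => ?_
      simp only [a, hcn, kOf_sub_zsmul hv]
      have e : ∀ {b es : ℕ} [NeZero b] [NeZero es] (hb : b ∣ π * ρ)
          (Φ : Groups π ρ q (π * ρ) Q S b es), es ∣ hNum π ρ q S →
          colG h2 hb hqQ Φ (kOf v g) = colG h2 hb hqQ Φ (kOf v g - (P : ℤ)) := by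
        intro b es _ _ hb Φ hes
        conv_lhs => rw [← sub_add_cancel (kOf v g) (P : ℤ)]
        rw [hP]
        exact colG_add_period hes _
      rw [e (dvd_mul_left ρ π) Φ₁ ⟨ρ, by unfold hNum; ring⟩,
        e (dvd_mul_right π ρ) Φ₀ ⟨π, by unfold hNum; ring⟩]
    · refine (tiles_iff o hv k).2 fun g z => ?_
      have hcx : ∀ x, c (g - place π ρ q S v x) = c g := fun x => hcn g _
      simp only [a, hcx]
      cases c g
      · simp only [Bool.false_eq_true, if_false]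
        exact exists_unique_colG o hv l₀ r₀ (l := aLab π ρ q S) (fun μ => (hproj _).1) o.a_bij k g z
      · simp only [if_true]
        exact exists_unique_colG o hv l₁ r₁ (l := bLab π ρ q S) (fun μ => (hproj _).2) o.b_bij k g z
  · simp only [a, h, if_true]
    have e : oneElt π ρ Q = pt (π * ρ) Q ρ 0 := by simp [oneElt, pt, mul_comm]
    rw [e]; exact inv_colG _
  · simp only [a, h, Bool.false_eq_true, if_false]
    have e : zeroElt π ρ Q = pt (π * ρ) Q π 0 := by simp [zeroElt, pt, mul_comm]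
    rw [e]; exact inv_colG _

end Vale.Agent.P043.Three
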