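import Vale.Agent.P043.Three.Parity

/-!
P043, dimension three, guard block: labels on the three-cube flip, and the matrices.
-/

namespace Vale.Agent.P043.Three.Guard

/-- Hypotheses on the numbers of a guard block: `p = π ρ`, `Q = q q S`. -/
structure Ok (π ρ q p Q S : ℕ) : Prop where
  primeQ : q.Prime
  primePi : π.Prime
  primeRho : ρ.Prime
  two_lt : 2 < q
  ltPi : q * q < π
  ltRho : q * q < ρ
  ne : π ≠ ρ
  eqP : p = π * ρ
  eqQ : Q = q * q * S
  pow : ∃ B, q * S = q ^ B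
  bigPi : π < Q
  bigRho : ρ < Q

/-- The place along the stride: the odd vertices of the cube go down in the first direction. -/
def uMap (eq a b μ : ℕ) : ℕ :=
  if μ = eq then 0 else if μ = a then eq + a else if μ = b then eq + b
  else if μ = eq + a + b then a + b else μ

/-- The odd vertices exchanged along the first and the `a` direction. -/
def fl (eq a b μ : ℕ) : ℕ :=
  if μ = eq then a else if μ = a then eq else if μ = b then eq + a + b
  else if μ = eq + a + b then b else μ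

variable {eq a b : ℕ}

theorem uMap_mod_eq (μ : ℕ) : uMap eq a b μ % eq = μ % eq := by
  unfold uMap
  split_ifs <;> subst_vars <;> simp [add_assoc]

theorem uMap_mod_fl (μ : ℕ) : uMap eq a b μ % a = fl eq a b μ % a := by
  unfold uMap fl
  split_ifs
  · simp
  · simp
  · rw [add_right_comm eq a b, Nat.add_mod_right]
  · rw [Nat.add_mod_left]
  · rfl

theorem uMap_comm (_h : a ≠ b) (μ : ℕ) : uMap eq a b μ = uMap eq b a μ := by
  unfold uMap
  split_ifs <;> omega

theorem fl_fl (h₁ : eq ≠ a) (h₂ : eq ≠ b) (h₃ : a ≠ b) (h₀ : 0 < eq) (h₀' : 0 < a) (μ : ℕ) :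
    fl eq a b (fl eq a b μ) = μ := by
  unfold fl
  split_ifs <;> omega

theorem fl_lt {H : ℕ} (h₁ : eq + a + b < H) {μ : ℕ} (h : μ < H) : fl eq a b μ < H := by
  unfold fl
  split_ifs <;> omega

/-- The step of the h slots. -/
def eQ (π ρ S : ℕ) : ℕ := π * ρ * S

/-- The number of points of one phase. -/
def hNum (π ρ q S : ℕ) : ℕ := π * ρ * (q * S)

variable {π ρ q p Q S : ℕ}

theorem Ok.S_pos (o : Ok π ρ q p Q S) : 0 < S := by
  rcases Nat.eq_zero_or_pos S with rfl | h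
  · have := o.bigPi; rw [o.eqQ] at this; simp at this
  · exact h

theorem Ok.q_lt_pi (o : Ok π ρ q p Q S) : q < π :=
  lt_of_le_of_lt (Nat.le_mul_self q) o.ltPi

theorem Ok.q_lt_rho (o : Ok π ρ q p Q S) : q < ρ :=
  lt_of_le_of_lt (Nat.le_mul_self q) o.ltRho

theorem Ok.eQ_pos (o : Ok π ρ q p Q S) : 0 < eQ π ρ S :=
  Nat.mul_pos (Nat.mul_pos o.primePi.pos o.primeRho.pos) o.S_pos

theorem Ok.one_lt_eQ (o : Ok π ρ q p Q S) : 1 < eQ π ρ S := by
  have h1 := o.primePi.two_le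
  have h2 := Nat.le_mul_of_pos_right π o.primeRho.pos
  have h3 := Nat.le_mul_of_pos_right (π * ρ) o.S_pos
  unfold eQ
  omega

theorem hNum_eq : hNum π ρ q S = q * eQ π ρ S := by unfold hNum eQ; ring

theorem hNum_eq_pi : hNum π ρ q S = π * (ρ * (q * S)) := by unfold hNum; ring

theorem hNum_eq_rho : hNum π ρ q S = ρ * (π * (q * S)) := by unfold hNum; ring

theorem Ok.qS_pos (o : Ok π ρ q p Q S) : 0 < q * S := Nat.mul_pos o.primeQ.pos o.S_pos

theorem Ok.distinct (o : Ok π ρ q p Q S) :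
    0 < ρ * (q * S) ∧ 0 < π * (q * S) ∧ ρ * (q * S) < eQ π ρ S ∧ π * (q * S) < eQ π ρ S ∧
      ρ * (q * S) ≠ π * (q * S) := by
  refine ⟨Nat.mul_pos o.primeRho.pos o.qS_pos, Nat.mul_pos o.primePi.pos o.qS_pos, ?_, ?_, ?_⟩
  · calc ρ * (q * S) = ρ * q * S := (mul_assoc _ _ _).symm
      _ < ρ * π * S := Nat.mul_lt_mul_of_pos_right
          (Nat.mul_lt_mul_of_pos_left o.q_lt_pi o.primeRho.pos) o.S_pos
      _ = eQ π ρ S := by unfold eQ; ring
  · calc π * (q * S) = π * q * S := (mul_assoc _ _ _).symm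
      _ < π * ρ * S := Nat.mul_lt_mul_of_pos_right
          (Nat.mul_lt_mul_of_pos_left o.q_lt_rho o.primePi.pos) o.S_pos
      _ = eQ π ρ S := by unfold eQ; ring
  · intro h
    exact o.ne (Nat.eq_of_mul_eq_mul_right o.qS_pos h).symm

theorem Ok.cube_lt (o : Ok π ρ q p Q S) :
    eQ π ρ S + ρ * (q * S) + π * (q * S) < hNum π ρ q S := by
  obtain ⟨-, -, h1, h2, -⟩ := o.distinct
  have h3 : 3 * eQ π ρ S ≤ hNum π ρ q S := by
    rw [hNum_eq]
    exact Nat.mul_le_mul_right _ o.two_lt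
  omega

theorem Ok.coprime (o : Ok π ρ q p Q S) : π.Coprime ρ :=
  (Nat.coprime_primes o.primePi o.primeRho).2 o.ne

theorem Ok.not_dvd (o : Ok π ρ q p Q S) : ¬ q ∣ p := by
  rw [o.eqP]
  intro h
  rcases o.primeQ.dvd_mul.1 h with h | h
  · exact o.q_lt_pi.ne ((Nat.prime_dvd_prime_iff_eq o.primeQ o.primePi).1 h)
  · exact o.q_lt_rho.ne ((Nat.prime_dvd_prime_iff_eq o.primeQ o.primeRho).1 h)

variable (π ρ q S)

/-- The place of a point. -/
def uu (μ : ℕ) : ℕ := uMap (eQ π ρ S) (ρ * (q * S)) (π * (q * S)) μ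

/-- The label read modulo `π`. -/
def aLab (μ : ℕ) : ℕ := fl (eQ π ρ S) (ρ * (q * S)) (π * (q * S)) μ / (ρ * (q * S))

/-- The label read modulo `ρ`. -/
def bLab (μ : ℕ) : ℕ := fl (eQ π ρ S) (π * (q * S)) (ρ * (q * S)) μ / (π * (q * S))

/-- The two points exchanged in the second equation. -/
def swapMap (k : Bool) (μ : ℕ) : ℕ :=
  if k then (if μ = 1 then 1 + eQ π ρ S else if μ = 1 + eQ π ρ S then 1 else μ) else μ

/-- The second label. -/
def jLab (k : Bool) (μ : ℕ) : ℕ := swapMap π ρ S k μ / eQ π ρ S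

variable {π ρ q S}

theorem bLab_eq (o : Ok π ρ q p Q S) (μ : ℕ) :
    uu π ρ q S μ = uMap (eQ π ρ S) (π * (q * S)) (ρ * (q * S)) μ :=
  uMap_comm o.distinct.2.2.2.2 μ

theorem Ok.a_inj (o : Ok π ρ q p Q S) {μ ν : ℕ}
    (h1 : uu π ρ q S μ % (ρ * (q * S)) = uu π ρ q S ν % (ρ * (q * S)))
    (h2 : aLab π ρ q S μ = aLab π ρ q S ν) : μ = ν := by
  obtain ⟨d1, d2, d3, d4, d5⟩ := o.distinct
  rw [uu, uu, uMap_mod_fl, uMap_mod_fl] at h1
  simp only [aLab] at h2
  have e : fl (eQ π ρ S) (ρ * (q * S)) (π * (q * S)) μ =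
      fl (eQ π ρ S) (ρ * (q * S)) (π * (q * S)) ν := by
    rw [← Nat.div_add_mod (fl _ _ _ μ) (ρ * (q * S)),
      ← Nat.div_add_mod (fl _ _ _ ν) (ρ * (q * S)), h1, h2]
  have := congrArg (fl (eQ π ρ S) (ρ * (q * S)) (π * (q * S))) e
  rwa [fl_fl d3.ne' d4.ne' d5 o.eQ_pos d1, fl_fl d3.ne' d4.ne' d5 o.eQ_pos d1] at this

theorem Ok.b_inj (o : Ok π ρ q p Q S) {μ ν : ℕ}
    (h1 : uu π ρ q S μ % (π * (q * S)) = uu π ρ q S ν % (π * (q * S)))
    (h2 : bLab π ρ q S μ = bLab π ρ q S ν) : μ = ν := by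
  obtain ⟨d1, d2, d3, d4, d5⟩ := o.distinct
  rw [bLab_eq o, bLab_eq o, uMap_mod_fl, uMap_mod_fl] at h1
  simp only [bLab] at h2
  have e : fl (eQ π ρ S) (π * (q * S)) (ρ * (q * S)) μ =
      fl (eQ π ρ S) (π * (q * S)) (ρ * (q * S)) ν := by
    rw [← Nat.div_add_mod (fl _ _ _ μ) (π * (q * S)),
      ← Nat.div_add_mod (fl _ _ _ ν) (π * (q * S)), h1, h2]
  have := congrArg (fl (eQ π ρ S) (π * (q * S)) (ρ * (q * S))) e
  rwa [fl_fl d4.ne' d3.ne' d5.symm o.eQ_pos d2, fl_fl d4.ne' d3.ne' d5.symm o.eQ_pos d2] at this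

theorem Ok.aLab_lt (o : Ok π ρ q p Q S) {μ : ℕ} (h : μ < hNum π ρ q S) : aLab π ρ q S μ < π := by
  refine Nat.div_lt_of_lt_mul ?_
  have := fl_lt o.cube_lt h
  rwa [mul_comm _ π, ← hNum_eq_pi]

theorem Ok.bLab_lt (o : Ok π ρ q p Q S) {μ : ℕ} (h : μ < hNum π ρ q S) : bLab π ρ q S μ < ρ := by
  refine Nat.div_lt_of_lt_mul ?_
  have hc : eQ π ρ S + π * (q * S) + ρ * (q * S) < hNum π ρ q S := by
    have := o.cube_lt; omega
  have := fl_lt hc h
  rwa [mul_comm _ ρ, ← hNum_eq_rho]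

theorem Ok.one_add_lt (o : Ok π ρ q p Q S) : 1 + eQ π ρ S < hNum π ρ q S := by
  have := o.cube_lt
  have := o.distinct.1
  have := o.distinct.2.1
  omega

theorem Ok.jLab_lt (o : Ok π ρ q p Q S) (k : Bool) {μ : ℕ} (h : μ < hNum π ρ q S) :
    jLab π ρ S k μ < q := by
  refine Nat.div_lt_of_lt_mul ?_
  have := o.one_add_lt
  rw [mul_comm _ q, ← hNum_eq]
  unfold swapMap
  split_ifs <;> omega

theorem swapMap_swap (k : Bool) (μ : ℕ) : swapMap π ρ S k (swapMap π ρ S k μ) = μ := by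
  unfold swapMap
  cases k <;> simp only [Bool.false_eq_true, if_false, if_true]
  split_ifs <;> omega

theorem Ok.swap_mod (o : Ok π ρ q p Q S) (k : Bool) (μ : ℕ) :
    swapMap π ρ S k μ % eQ π ρ S = μ % eQ π ρ S := by
  have := o.one_lt_eQ
  unfold swapMap
  cases k <;> simp only [Bool.false_eq_true, if_false, if_true]
  split_ifs <;> subst_vars <;> simp

theorem Ok.j_inj (o : Ok π ρ q p Q S) (k : Bool) {μ ν : ℕ}
    (h1 : uu π ρ q S μ % eQ π ρ S = uu π ρ q S ν % eQ π ρ S)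
    (h2 : jLab π ρ S k μ = jLab π ρ S k ν) : μ = ν := by
  simp only [uu, uMap_mod_eq] at h1
  rw [← o.swap_mod k μ, ← o.swap_mod k ν] at h1
  simp only [jLab] at h2
  have e : swapMap π ρ S k μ = swapMap π ρ S k ν := by
    rw [← Nat.div_add_mod (swapMap π ρ S k μ) (eQ π ρ S),
      ← Nat.div_add_mod (swapMap π ρ S k ν) (eQ π ρ S), h1, h2]
  have := congrArg (swapMap π ρ S k) e
  rwa [swapMap_swap, swapMap_swap] at this

theorem bijective_pair {M N H : ℕ} [NeZero M] [NeZero N] (u l : ℕ → ℕ)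
    (hlt : ∀ μ, μ < H → l μ < N) (hH : H = M * N)
    (inj : ∀ {μ ν}, u μ % M = u ν % M → l μ = l ν → μ = ν) :
    Function.Bijective fun μ : Fin H => ((u μ : ZMod M), (l μ : ZMod N)) := by
  refine (Fintype.bijective_iff_injective_and_card _).2 ⟨fun μ ν h => ?_, ?_⟩
  · simp only [Prod.mk.injEq] at h
    refine Fin.ext (inj ?_ ?_)
    · simpa [ZMod.val_natCast] using congrArg ZMod.val h.1
    · have := congrArg ZMod.val h.2
      rwa [ZMod.val_natCast_of_lt (hlt _ μ.2), ZMod.val_natCast_of_lt (hlt _ ν.2)] at this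
  · simp [hH]

theorem Ok.j_bij (o : Ok π ρ q p Q S) (k : Bool) [NeZero (eQ π ρ S)] [NeZero q] :
    Function.Bijective fun μ : Fin (hNum π ρ q S) =>
      ((uu π ρ q S μ : ZMod (eQ π ρ S)), (jLab π ρ S k μ : ZMod q)) :=
  bijective_pair _ _ (fun _ h => o.jLab_lt k h) (by rw [hNum_eq, mul_comm]) (o.j_inj k)

theorem Ok.a_bij (o : Ok π ρ q p Q S) [NeZero (ρ * (q * S))] [NeZero π] :
    Function.Bijective fun μ : Fin (hNum π ρ q S) =>
      ((uu π ρ q S μ : ZMod (ρ * (q * S))), (aLab π ρ q S μ : ZMod π)) :=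
  bijective_pair _ _ (fun _ h => o.aLab_lt h) (by rw [hNum_eq_pi, mul_comm]) o.a_inj

theorem Ok.b_bij (o : Ok π ρ q p Q S) [NeZero (π * (q * S))] [NeZero ρ] :
    Function.Bijective fun μ : Fin (hNum π ρ q S) =>
      ((uu π ρ q S μ : ZMod (π * (q * S))), (bLab π ρ q S μ : ZMod ρ)) :=
  bijective_pair _ _ (fun _ h => o.bLab_lt h) (by rw [hNum_eq_rho, mul_comm]) o.b_inj

/-- The groups: e slots of period `b`, then h slots. -/
abbrev Groups (π ρ q p Q S b es : ℕ) :=
  (Fin es × ZMod b) ⊕ ((Fin (q - 1) × Fin (eQ π ρ S)) × ZMod q) ≃ ZMod Q × ZMod p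

/-- The groups of one value. -/
theorem exists_groupsOf (hFill : FillPin) {a b : ℕ} (hq : q.Prime) (ha : q * q < a) (hb : q * q < b)
    (hbQ : b < Q) (hp : p = a * b) (hQ : Q = q * q * S) (hpow : ∃ B, q * S = q ^ B)
    (hab : eQ π ρ S = p * S) [NeZero p] [NeZero Q] [NeZero b] [NeZero q] :
    ∃ e : Groups π ρ q p Q S b (a * (q * S)),
      (∀ s i i', (e (Sum.inl (s, i))).2 = (e (Sum.inl (s, i'))).2) ∧
      ∀ s j j', (e (Sum.inr (s, j))).1 = (e (Sum.inr (s, j'))).1 := by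
  classical
  obtain ⟨B, hB⟩ := hpow
  obtain ⟨i, hi⟩ : ∃ i, i = Nat.log q b := ⟨_, rfl⟩
  have hib : q ^ i ≤ b := hi ▸ Nat.pow_log_le_self q (by omega)
  have hbi : b < q ^ (i + 1) := hi ▸ Nat.lt_pow_succ_log_self hq.one_lt b
  have hiB : i ≤ B := by
    have h1 : q ^ i < q ^ (B + 1) := by
      calc q ^ i ≤ b := hib
        _ < Q := hbQ
        _ = q ^ (B + 1) := by rw [pow_succ, ← hB, hQ]; ring
    have := (Nat.pow_lt_pow_iff_right hq.one_lt).1 h1
    omega
  obtain ⟨d, rfl⟩ := Nat.exists_eq_add_of_le hiB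
  obtain ⟨r0, hr0⟩ : ∃ z, z = p % q := ⟨_, rfl⟩
  have hr : r0 < q := hr0 ▸ Nat.mod_lt _ hq.pos
  obtain ⟨K, hK⟩ : ∃ z, z = a * q ^ i := ⟨_, rfl⟩
  have hKp : K ≤ p := by rw [hK, hp]; exact Nat.mul_le_mul_left a hib
  have hqa : q ≤ a := (Nat.le_mul_self q).trans ha.le
  have hKr : q ≤ K := hqa.trans (hK ▸ Nat.le_mul_of_pos_right a (pow_pos hq.pos i))
  have hqK : p + a ≤ q * K := by
    have h1 : a * (b + 1) ≤ a * q ^ (i + 1) := Nat.mul_le_mul_left a hbi
    rw [hK, hp]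
    calc a * b + a = a * (b + 1) := by ring
      _ ≤ a * q ^ (i + 1) := h1
      _ = q * (a * q ^ i) := by ring
  have hqr : q * r0 ≤ p := by
    calc q * r0 ≤ q * q := Nat.mul_le_mul_left q hr.le
      _ ≤ a := ha.le
      _ ≤ p := hp ▸ Nat.le_mul_of_pos_right a (by omega)
  have hcap : p * S - q * S * r0 ≤ Q * ((K - r0) / q) := by
    have h1 := Nat.div_add_mod (K - r0) q
    have h2 := Nat.mod_lt (K - r0) hq.pos
    obtain ⟨m, hm⟩ : ∃ m, m = (K - r0) / q := ⟨_, rfl⟩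
    rw [← hm] at h1 ⊢
    have h3 : q * K ≤ q * (q * m) + q * r0 + q * q := by
      rw [← Nat.mul_add, ← Nat.mul_add]
      exact Nat.mul_le_mul_left q (by omega)
    have h4 : p ≤ q * (q * m) + q * r0 := by omega
    have h5 := Nat.mul_le_mul_right S h4
    rw [Nat.sub_le_iff_le_add, hQ]
    calc p * S ≤ (q * (q * m) + q * r0) * S := h5
      _ = _ := by ring
  obtain ⟨c, hc1, hc2, hc3⟩ := Parity.exists_sums Q r0 q K (p * S - q * S * r0)
    (Nat.pos_of_ne_zero (NeZero.ne Q)) (hr.le.trans hKr) hcap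
  have htot : Q * r0 + q * (p * S - q * S * r0) = p * (q * S) := by
    have : q * S * r0 ≤ p * S := by
      calc q * S * r0 = q * r0 * S := by ring
        _ ≤ p * S := Nat.mul_le_mul_right S hqr
    rw [Nat.mul_sub, hQ]
    have := Nat.mul_le_mul_left q this
    have e : q * q * S * r0 = q * (q * S * r0) := by ring
    have e' : p * (q * S) = q * (p * S) := by ring
    omega
  obtain ⟨L, hL⟩ : ∃ z, z = b * q ^ d := ⟨_, rfl⟩
  have hsum : ∑ x, c x = K * L := by
    rw [hc3, htot, hK, hL, hp, hB, pow_add]; ring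
  obtain ⟨C, hC1, hC2⟩ := hFill Q K L c hc1 hsum
  let emb : Fin Q × Fin K ↪ ZMod Q × ZMod p :=
    ⟨fun u => ((u.1 : ℕ), (u.2 : ℕ)), fun u w h => by
      simp only [Prod.mk.injEq] at h
      have e1 := congrArg ZMod.val h.1
      have e2 := congrArg ZMod.val h.2
      rw [ZMod.val_natCast_of_lt u.1.2, ZMod.val_natCast_of_lt w.1.2] at e1
      rw [ZMod.val_natCast_of_lt (u.2.2.trans_le hKp), ZMod.val_natCast_of_lt (w.2.2.trans_le hKp)] at e2
      exact Prod.ext (Fin.ext e1) (Fin.ext e2)⟩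
  have hemb : ∀ u, emb u = (((u.1 : ℕ) : ZMod Q), ((u.2 : ℕ) : ZMod p)) := fun u => rfl
  have hrow : ∀ y, b ∣ ((C.map emb).filter fun u => u.2 = y).card := by
    intro y
    rw [Finset.filter_map, Finset.card_map]
    by_cases hy : y.val < K
    · have : C.filter ((fun u : ZMod Q × ZMod p => u.2 = y) ∘ emb) =
          C.filter fun u => u.2 = ⟨y.val, hy⟩ := by
        refine Finset.filter_congr fun u _ => ?_
        simp only [Function.comp_apply, hemb]
        constructor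
        · rintro rfl
          exact Fin.ext (ZMod.val_natCast_of_lt (u.2.2.trans_le hKp)).symm
        · intro h; rw [h]; exact ZMod.natCast_zmod_val y
      rw [this, hC2, hL]
      exact dvd_mul_right b _
    · have : C.filter ((fun u : ZMod Q × ZMod p => u.2 = y) ∘ emb) = ∅ := by
        refine Finset.filter_eq_empty_iff.2 fun u _ h => hy ?_
        simp only [Function.comp_apply, hemb] at h
        rw [← h, ZMod.val_natCast_of_lt (u.2.2.trans_le hKp)]
        exact u.2.2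
      rw [this, Finset.card_empty]
      exact dvd_zero b
  have hcol : ∀ x, q ∣ p - ((C.map emb).filter fun u => u.1 = x).card := by
    intro x
    rw [Finset.filter_map, Finset.card_map]
    have : C.filter ((fun u : ZMod Q × ZMod p => u.1 = x) ∘ emb) =
        C.filter fun u => u.1 = ⟨x.val, ZMod.val_lt x⟩ := by
      refine Finset.filter_congr fun u _ => ?_
      simp only [Function.comp_apply, hemb]
      constructor
      · rintro rfl
        exact Fin.ext (ZMod.val_natCast_of_lt u.1.2).symm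
      · intro h; rw [h]; exact ZMod.natCast_zmod_val x
    rw [this, hC1]
    obtain ⟨t, ht⟩ := hc2 ⟨x.val, ZMod.val_lt x⟩
    rw [ht]
    refine ⟨p / q - t, ?_⟩
    have := Nat.div_add_mod p q
    rw [← hr0] at this
    rw [Nat.mul_sub]
    omega
  have hcard : (C.map emb).card = p * (q * S) := by
    rw [Finset.card_map, Finset.card_eq_sum_card_fiberwise (f := fun u => u.1) (t := Finset.univ)
      (fun u _ => Finset.mem_univ _)]
    simp only [hC1]
    rw [hc3, htot]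
  obtain ⟨e, h1, h2⟩ := Parity.exists_split (S := Fin (a * (q * S))) (J := ZMod b)
    (S' := Fin (q - 1) × Fin (eQ π ρ S)) (I := ZMod q) (C.map emb)
    (fun y => by simpa using hrow y) (fun x => by simpa using hcol x)
    (by rw [hcard, Fintype.card_fin, ZMod.card, hp]; ring)
    (by
      rw [hcard, Fintype.card_prod, Fintype.card_fin, Fintype.card_fin, ZMod.card, ZMod.card,
        ZMod.card, hab, hQ]
      obtain ⟨q', rfl⟩ : ∃ q', q = q' + 1 := ⟨q - 1, by omega⟩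
      rw [Nat.add_sub_cancel]; ring)
  exact ⟨e, h1, h2⟩

end Vale.Agent.P043.Three.Guard
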