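import Vale.Agent.P043.Three.GuardLabels

/-!
P043, dimension three, guard block: the equations, and no window of columns with both values.
-/

namespace Vale.Agent.P043.Three.Guard

open Finset

variable (π ρ q S Q : ℕ) (v : ℤ × ℤ)

/-- A point: its phase and its number. -/
abbrev Pts := Fin q × Fin (hNum π ρ q S)

/-- The place of a point. -/
def place (x : Pts π ρ q S) : ℤ × ℤ := ((q * uu π ρ q S x.2 + x.1 : ℕ) : ℤ) • v

/-- The first label, from its two residues. -/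
def iVal (hc : π.Coprime ρ) (μ : ℕ) : ℕ :=
  ((ZMod.chineseRemainder hc).symm ((aLab π ρ q S μ : ZMod π), (bLab π ρ q S μ : ZMod ρ))).val

/-- The label of a point; the second equation exchanges two points of the first phase. -/
def lab (hc : π.Coprime ρ) (k : Bool) (x : Pts π ρ q S) : Blk (π * ρ) Q :=
  pt (π * ρ) Q (iVal π ρ q S hc x.2) (jLab π ρ S (k && decide ((x.1 : ℕ) = 0)) x.2)

/-- The tile of one equation. -/
def tile (hc : π.Coprime ρ) (k : Bool) : Finset ((ℤ × ℤ) × Blk (π * ρ) Q) :=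
  univ.image fun x : Pts π ρ q S => (place π ρ q S v x, lab π ρ q S Q hc k x)

variable {π ρ q S Q v} {hc : π.Coprime ρ}

theorem pt_smul {p Q : ℕ} (c i j : ℤ) : c • pt p Q i j = pt p Q (c * i) (c * j) := by
  simp only [pt, Prod.smul_mk, zsmul_eq_mul, ← Int.cast_mul, Prod.mk.injEq]
  constructor <;> congr 1 <;> ring

theorem pt_split {p Q : ℕ} (i j : ℤ) : pt p Q i j = pt p Q 0 j + i • hgen p Q := by
  rw [hgen_eq_pt, pt_smul, pt_add]; simp

/-- A column with the first period does not see first labels. -/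
theorem sub_pt_mem_iff {p Q : ℕ} {A : Set (Blk p Q)} (h : Inv A (hgen p Q)) (i j : ℤ)
    (z : Blk p Q) : z - pt p Q i j ∈ A ↔ z - pt p Q 0 j ∈ A := by
  have := (h.zsmul i) (z - pt p Q i j)
  rw [← this, pt_split i j, ← sub_sub, sub_add_cancel]

theorem place_fst (x : Pts π ρ q S) :
    (place π ρ q S v x).1 = ((q * uu π ρ q S x.2 + x.1 : ℕ) : ℤ) * v.1 := by
  simp [place]

theorem pt_snd_inj {p Q j j' : ℕ} {i i' : ℤ} (hj : j < Q) (hj' : j' < Q)
    (h : pt p Q i j = pt p Q i' j') : j = j' := by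
  have h2 := congrArg (fun z : Blk p Q => z.2.val) h
  simp only [pt] at h2
  rw [← Nat.cast_mul, ← Nat.cast_mul, Int.cast_natCast, Int.cast_natCast,
    ZMod.val_natCast_of_lt (Nat.mul_lt_mul_of_pos_left hj (by omega)),
    ZMod.val_natCast_of_lt (Nat.mul_lt_mul_of_pos_left hj' (by omega))] at h2
  exact Nat.eq_of_mul_eq_mul_left (by omega) h2

theorem Ok.Q_pos (o : Ok π ρ q (π * ρ) Q S) : 0 < Q := Nat.zero_lt_of_lt o.bigPi

theorem Ok.q_le_Q (o : Ok π ρ q (π * ρ) Q S) : q ≤ Q := (o.q_lt_pi.trans o.bigPi).le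

theorem place_lab_inj (o : Ok π ρ q (π * ρ) Q S) (hv : 0 < v.1) (k : Bool) :
    Function.Injective fun x : Pts π ρ q S => (place π ρ q S v x, lab π ρ q S Q hc k x) := by
  intro x y h
  simp only [Prod.mk.injEq] at h
  have h1 := congrArg Prod.fst h.1
  rw [place_fst, place_fst] at h1
  have hu : q * uu π ρ q S x.2 + x.1 = q * uu π ρ q S y.2 + y.1 := by
    exact_mod_cast mul_right_cancel₀ hv.ne' h1
  have hs : (x.1 : ℕ) = y.1 := by
    have := congrArg (· % q) hu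
    simpa [Nat.mul_add_mod, Nat.mod_eq_of_lt x.1.2, Nat.mod_eq_of_lt y.1.2] using this
  have hu' : uu π ρ q S x.2 = uu π ρ q S y.2 :=
    Nat.eq_of_mul_eq_mul_left o.primeQ.pos (by omega)
  obtain ⟨h2, hj⟩ : True ∧ pt (π * ρ) Q (iVal π ρ q S hc x.2)
      (jLab π ρ S (k && decide ((x.1 : ℕ) = 0)) x.2) = pt (π * ρ) Q (iVal π ρ q S hc y.2)
      (jLab π ρ S (k && decide ((x.1 : ℕ) = 0)) y.2) :=
    ⟨trivial, by have := h.2; simp only [lab, ← hs] at this; exact this⟩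
  have hj' := pt_snd_inj ((o.jLab_lt _ x.2.2).trans_le o.q_le_Q)
    ((o.jLab_lt _ y.2.2).trans_le o.q_le_Q) hj
  exact Prod.ext (Fin.ext hs) (Fin.ext (o.j_inj _ (congrArg (· % eQ π ρ S) hu') hj'))

theorem card_tile (o : Ok π ρ q (π * ρ) Q S) (hv : 0 < v.1) (k : Bool) :
    (tile π ρ q S Q v hc k).card = π * ρ * Q := by
  rw [tile, card_image_of_injective _ (place_lab_inj o hv k), card_univ, Fintype.card_prod,
    Fintype.card_fin, Fintype.card_fin, hNum, o.eqQ]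
  ring

/-- An equation, read on points. -/
theorem tiles_iff (o : Ok π ρ q (π * ρ) Q S) (hv : 0 < v.1) (k : Bool)
    {a : ℤ × ℤ → Set (Blk (π * ρ) Q)} :
    Tiles₁ (tile π ρ q S Q v hc k) a ↔ ∀ g z, ∃! x : Pts π ρ q S,
      z - lab π ρ q S Q hc k x ∈ a (g - place π ρ q S v x) := by
  constructor
  · intro h g z
    obtain ⟨f, ⟨hf, h1⟩, hu⟩ := h g z
    obtain ⟨x, -, rfl⟩ := mem_image.1 hf
    exact ⟨x, h1, fun y h2 =>
      place_lab_inj o hv k (hu _ ⟨mem_image_of_mem _ (mem_univ y), h2⟩)⟩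
  · intro h g z
    obtain ⟨x, h1, hu⟩ := h g z
    refine ⟨_, ⟨mem_image_of_mem _ (mem_univ x), h1⟩, ?_⟩
    rintro f ⟨hf, h2⟩
    obtain ⟨y, -, rfl⟩ := mem_image.1 hf
    rw [hu y h2]

/-- The two values together give the first period. -/
theorem inv_hgen_of (hc : π.Coprime ρ) {A : Set (Blk (π * ρ) Q)} (h₁ : Inv A (oneElt π ρ Q))
    (h₀ : Inv A (zeroElt π ρ Q)) : Inv A (hgen (π * ρ) Q) := by
  have e₁ : oneElt π ρ Q = pt (π * ρ) Q ρ 0 := by simp [oneElt, pt, mul_comm]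
  have e₀ : zeroElt π ρ Q = pt (π * ρ) Q π 0 := by simp [zeroElt, pt, mul_comm]
  rw [e₁] at h₁
  rw [e₀] at h₀
  have hb : (π : ℤ) * Nat.gcdA π ρ + (ρ : ℤ) * Nat.gcdB π ρ = 1 := by
    rw [← Nat.gcd_eq_gcd_ab, hc.gcd_eq_one, Nat.cast_one]
  have := (h₀.zsmul (Nat.gcdA π ρ)).add (h₁.zsmul (Nat.gcdB π ρ))
  rw [pt_smul, pt_smul, pt_add] at this
  rw [hgen_eq_pt]
  convert this using 2 <;> linarith [hb]

variable [NeZero (π * ρ)] [NeZero Q]

omit [NeZero (π * ρ)] [NeZero Q] in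
/-- The double: a column and its translate by both periods are disjoint. -/
theorem double (o : Ok π ρ q (π * ρ) Q S) (hv : 0 < v.1) {a : ℤ × ℤ → Set (Blk (π * ρ) Q)}
    (hT : Tiles₁ (tile π ρ q S Q v hc false) a) (X : ℤ × ℤ) (z : Blk (π * ρ) Q) (hz : z ∈ a X) :
    z + pt (π * ρ) Q 1 1 ∉ a X := by
  intro hz'
  obtain ⟨d1, d2, d3, d4, d5⟩ := o.distinct
  have hE := o.one_lt_eQ
  have hH : eQ π ρ S < hNum π ρ q S := by have := o.one_add_lt; omega
  have hq : 0 < q := o.primeQ.pos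
  have : Fact (1 < π * ρ) := ⟨one_lt_mul'' o.primePi.one_lt o.primeRho.one_lt⟩
  let x₀ : Pts π ρ q S := (⟨0, hq⟩, ⟨0, Nat.zero_lt_of_lt hH⟩)
  let x₁ : Pts π ρ q S := (⟨0, hq⟩, ⟨eQ π ρ S, hH⟩)
  have u₀ : uu π ρ q S 0 = 0 := by
    simp only [uu, uMap]; split_ifs <;> omega
  have u₁ : uu π ρ q S (eQ π ρ S) = 0 := by simp [uu, uMap]
  have p₀ : place π ρ q S v x₀ = 0 := by simp [place, x₀, u₀]
  have p₁ : place π ρ q S v x₁ = 0 := by simp [place, x₁, u₁]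
  have l₀ : lab π ρ q S Q hc false x₀ = pt (π * ρ) Q 0 0 := by
    have f₀ : ∀ a b, 0 < a → 0 < b → fl (eQ π ρ S) a b 0 = 0 := fun a b ha hb => by
      simp only [fl]; split_ifs <;> omega
    have hi : iVal π ρ q S hc 0 = 0 := by
      simp only [iVal, aLab, bLab, f₀ _ _ d1 d2, f₀ _ _ d2 d1, Nat.zero_div, Nat.cast_zero,
        Prod.mk_zero_zero, map_zero, ZMod.val_zero]
    simp [lab, x₀, jLab, swapMap, hi]
  have l₁ : lab π ρ q S Q hc false x₁ = pt (π * ρ) Q 1 1 := by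
    have hi : iVal π ρ q S hc (eQ π ρ S) = 1 := by
      simp only [iVal, aLab, bLab, fl, if_true, Nat.div_self d1, Nat.div_self d2, Nat.cast_one,
        Prod.mk_one_one, map_one, ZMod.val_one]
    simp [lab, x₁, jLab, swapMap, hi, Nat.div_self o.eQ_pos]
  obtain ⟨w, -, hu⟩ := (tiles_iff o hv false).1 hT X (z + pt (π * ρ) Q 1 1)
  have h₀ := hu x₀ (by
    simp only
    rw [p₀, l₀, show pt (π * ρ) Q 0 0 = 0 by simp [pt], sub_zero, sub_zero]
    exact hz')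
  have h₁ := hu x₁ (by simp only; rw [p₁, l₁, sub_zero, add_sub_cancel_right]; exact hz)
  have := congrArg (fun x : Pts π ρ q S => (x.2 : ℕ)) (h₀.trans h₁.symm)
  simp only [x₀, x₁] at this
  omega

/-- With the first period everywhere on a line, the columns repeat along it. -/
theorem period_of_all (o : Ok π ρ q (π * ρ) Q S) (hv : 0 < v.1)
    {a : ℤ × ℤ → Set (Blk (π * ρ) Q)} (hT : ∀ k, Tiles₁ (tile π ρ q S Q v hc k) a) (X : ℤ × ℤ)
    (hall : ∀ k : ℤ, Inv (a (X + k • v)) (hgen (π * ρ) Q)) (k : ℤ) :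
    a (X + (k + (q * eQ π ρ S : ℕ)) • v) = a (X + k • v) := by
  classical
  obtain ⟨d1, d2, d3, d4, d5⟩ := o.distinct
  have hE := o.one_lt_eQ
  have hl := o.one_add_lt
  have hq : 0 < q := o.primeQ.pos
  let x₁ : Pts π ρ q S := (⟨0, hq⟩, ⟨1, by omega⟩)
  let x₂ : Pts π ρ q S := (⟨0, hq⟩, ⟨1 + eQ π ρ S, hl⟩)
  have hP : π ∣ eQ π ρ S ∧ ρ ∣ eQ π ρ S := ⟨⟨ρ * S, by unfold eQ; ring⟩, ⟨π * S, by unfold eQ; ring⟩⟩
  have n₁ : 1 + eQ π ρ S ≠ ρ * (q * S) := fun h => o.primeRho.one_lt.ne'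
    (Nat.dvd_one.1 ((Nat.dvd_add_left hP.2).1 (h ▸ dvd_mul_right ρ _)))
  have n₂ : 1 + eQ π ρ S ≠ π * (q * S) := fun h => o.primePi.one_lt.ne'
    (Nat.dvd_one.1 ((Nat.dvd_add_left hP.1).1 (h ▸ dvd_mul_right π _)))
  have n₁' : 1 ≠ ρ * (q * S) := fun h =>
    o.primeRho.one_lt.ne' (Nat.dvd_one.1 (h ▸ dvd_mul_right ρ _))
  have n₂' : 1 ≠ π * (q * S) := fun h =>
    o.primePi.one_lt.ne' (Nat.dvd_one.1 (h ▸ dvd_mul_right π _))
  have u₁ : uu π ρ q S 1 = 1 := by simp only [uu, uMap]; split_ifs <;> omega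
  have u₂ : uu π ρ q S (1 + eQ π ρ S) = 1 + eQ π ρ S := by
    simp only [uu, uMap]; split_ifs <;> omega
  let g := X + (k + (q * (1 + eQ π ρ S) : ℕ)) • v
  have e₁ : g - place π ρ q S v x₁ = X + (k + (q * eQ π ρ S : ℕ)) • v := by
    simp only [g, place, x₁, u₁, add_sub_assoc, ← sub_smul]
    congr 2
    push_cast; ring
  have e₂ : g - place π ρ q S v x₂ = X + k • v := by
    simp only [g, place, x₂, u₂, add_sub_assoc, ← sub_smul]
    congr 2
    push_cast; ring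
  let φ : Bool → Pts π ρ q S → (ℤ × ℤ) × Blk (π * ρ) Q :=
    fun b x => (place π ρ q S v x, lab π ρ q S Q hc b x)
  have hne : x₁ ≠ x₂ := by simp [x₁, x₂, Fin.ext_iff]; omega
  have hag : ∀ x : Pts π ρ q S, x ≠ x₁ → x ≠ x₂ → φ true x = φ false x := by
    rintro ⟨s, μ⟩ h1 h2
    by_cases hs : (s : ℕ) = 0
    · have a1 : (μ : ℕ) ≠ 1 := fun e => h1 (Prod.ext (Fin.ext hs) (Fin.ext e))
      have a2 : (μ : ℕ) ≠ 1 + eQ π ρ S := fun e => h2 (Prod.ext (Fin.ext hs) (Fin.ext e))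
      simp [φ, lab, jLab, swapMap, hs, a1, a2]
    · simp [φ, lab, hs]
  have hex := fun z => exchange (φ false) (φ true) (place_lab_inj o hv _) (place_lab_inj o hv _)
    hne hag (fun f => z - f.2 ∈ a (g - f.1)) (hT false g z) (hT true g z)
  have hd1 : (1 + eQ π ρ S) / eQ π ρ S = 1 := by
    rw [Nat.add_div_right 1 (by omega), Nat.div_eq_of_lt hE]
  have j₁ : jLab π ρ S false 1 = 0 ∧ jLab π ρ S true 1 = 1 := by
    simp [jLab, swapMap, Nat.div_eq_of_lt hE, hd1]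
  have j₂ : jLab π ρ S false (1 + eQ π ρ S) = 1 ∧ jLab π ρ S true (1 + eQ π ρ S) = 0 := by
    simp [jLab, swapMap, Nat.div_eq_of_lt hE, hd1, (Nat.zero_lt_of_lt hE).ne']
  have hh₁ := hall (k + (q * eQ π ρ S : ℕ))
  have hh₂ := hall k
  rw [← e₁] at hh₁
  rw [← e₂] at hh₂
  have hA : ∀ Y, Inv (a Y) (hgen (π * ρ) Q) → ∀ z, z ∈ a Y → z + pt (π * ρ) Q 0 1 ∉ a Y := by
    intro Y hY z hz hz'
    apply double o hv (hT false) Y z hz
    have e : z + pt (π * ρ) Q 1 1 = z + pt (π * ρ) Q 0 1 + hgen (π * ρ) Q := by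
      rw [add_assoc, hgen_eq_pt, pt_add]; simp
    rw [e]
    exact (hY _).2 hz'
  rw [← e₁, ← e₂]
  refine eq_of_exchange (hA _ hh₁) (hA _ hh₂) fun z => ?_
  have h := (hex z).1
  have z0 : pt (π * ρ) Q 0 0 = 0 := by simp [pt]
  have L : ∀ b, lab π ρ q S Q hc b x₁ = pt (π * ρ) Q (iVal π ρ q S hc 1) (jLab π ρ S b 1) ∧
      lab π ρ q S Q hc b x₂ =
        pt (π * ρ) Q (iVal π ρ q S hc (1 + eQ π ρ S)) (jLab π ρ S b (1 + eQ π ρ S)) := fun b => by
    simp [lab, x₁, x₂]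
  simp only [φ, (L false).1, (L false).2, (L true).1, (L true).2, j₁.1, j₁.2, j₂.1,
    j₂.2, Nat.cast_zero, Nat.cast_one] at h
  rw [sub_pt_mem_iff hh₁ (iVal π ρ q S hc 1 : ℤ) 0, sub_pt_mem_iff hh₁ (iVal π ρ q S hc 1 : ℤ) 1,
    sub_pt_mem_iff hh₂ (iVal π ρ q S hc (1 + eQ π ρ S) : ℤ) 0,
    sub_pt_mem_iff hh₂ (iVal π ρ q S hc (1 + eQ π ρ S) : ℤ) 1, z0, sub_zero] at h
  exact h

theorem card_residue (p Q : ℕ) [NeZero p] [NeZero Q] :
    Nat.card {z : Blk p Q // z.2.val % Q = 0} = p * p * Q := by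
  have hQ : 0 < Q := Nat.pos_of_ne_zero (NeZero.ne Q)
  let e : {z : Blk p Q // z.2.val % Q = 0} ≃ ZMod (p * p) × Fin Q :=
    { toFun := fun z => (z.1.1, ⟨z.1.2.val / Q, Nat.div_lt_of_lt_mul (ZMod.val_lt _)⟩)
      invFun := fun u => ⟨(u.1, ((Q * u.2 : ℕ) : ZMod (Q * Q))), by
        rw [ZMod.val_natCast_of_lt (Nat.mul_lt_mul_of_pos_left u.2.2 hQ), Nat.mul_mod_right]⟩
      left_inv := fun z => Subtype.ext (Prod.ext rfl (by
        simp only
        rw [Nat.mul_div_cancel' (Nat.dvd_of_mod_eq_zero z.2), ZMod.natCast_zmod_val]))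
      right_inv := fun u => Prod.ext rfl (Fin.ext (by
        simp only
        rw [ZMod.val_natCast_of_lt (Nat.mul_lt_mul_of_pos_left u.2.2 hQ),
          Nat.mul_div_cancel_left _ hQ])) }
  rw [Nat.card_congr e]
  simp

/-- Some column of every line lacks one of the values. -/
theorem exists_value_missing (hBox : BoxPin) (o : Ok π ρ q (π * ρ) Q S) (hv : 0 < v.1)
    {a : ℤ × ℤ → Set (Blk (π * ρ) Q)} (ha : Cols (box (π * ρ) Q) a)
    (hT : ∀ k, Tiles₁ (tile π ρ q S Q v hc k) a) (X : ℤ × ℤ) :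
    ∃ k : ℤ, ¬ (Inv (a (X + k • v)) (oneElt π ρ Q) ∧ Inv (a (X + k • v)) (zeroElt π ρ Q)) := by
  classical
  by_contra hcon
  have hall : ∀ k : ℤ, Inv (a (X + k • v)) (hgen (π * ρ) Q) := fun k => by
    by_contra h
    exact hcon ⟨k, fun hk => h (inv_hgen_of hc hk.1 hk.2)⟩
  have hp : 0 < π * ρ := Nat.pos_of_ne_zero (NeZero.ne _)
  have hQ := o.Q_pos
  have hqQ := o.q_le_Q
  have hE := o.eQ_pos
  have hHe : hNum π ρ q S = q * eQ π ρ S := hNum_eq
  let F : ℤ → Set (Blk (π * ρ) Q) := fun k => a (X + k • v)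
  have hper : Function.Periodic F ((q * eQ π ρ S : ℕ) : ℤ) := period_of_all o hv hT X hall
  let Bk : Fin q × Fin (eQ π ρ S) → ℤ := fun t => -((q * (t.2 : ℕ) + t.1 : ℕ) : ℤ)
  choose β hβ using fun t => (hBox (π * ρ) Q hp hQ (F (Bk t)) (ha _)).2.2.1 (hall _)
  have hcard : ∀ t, Nat.card (F (Bk t)) = π * ρ * Q := fun t =>
    (hBox (π * ρ) Q hp hQ _ (ha _)).1
  let num : Fin (eQ π ρ S) → Fin q → Fin (hNum π ρ q S) := fun c j =>
    Fin.cast hHe.symm (finProdFinEquiv (j, c))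
  have hnum : ∀ c j, (num c j : ℕ) % eQ π ρ S = c ∧ (num c j : ℕ) / eQ π ρ S = j := fun c j => by
    simp [num, Nat.add_mul_div_left _ _ hE, Nat.mod_eq_of_lt c.2, Nat.div_eq_of_lt c.2]
  have key : ∀ s c j (z : Blk (π * ρ) Q),
      (z - lab π ρ q S Q hc false (s, num c j) ∈ a (X - place π ρ q S v (s, num c j))) ↔
        z - pt (π * ρ) Q 0 (j : ℕ) ∈ F (Bk (s, c)) := by
    intro s c j z
    obtain ⟨h1, h2⟩ := hnum c j
    have hu : uu π ρ q S (num c j) % eQ π ρ S = c := by rw [uu, uMap_mod_eq, h1]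
    have he : a (X - place π ρ q S v (s, num c j)) = F (Bk (s, c)) := by
      have h3 := Nat.div_add_mod (uu π ρ q S (num c j)) (eQ π ρ S)
      rw [hu] at h3
      have := hper.sub_nat_mul_eq (x := Bk (s, c)) (uu π ρ q S (num c j) / eQ π ρ S)
      rw [← this]
      simp only [F, Bk, place]
      rw [sub_eq_add_neg, ← neg_smul]
      congr 3
      generalize uu π ρ q S (num c j) / eQ π ρ S = m at h3
      rw [← h3]
      push_cast; ring
    rw [he, lab, sub_pt_mem_iff (hall _)]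
    simp only [jLab, swapMap, Bool.false_and, Bool.false_eq_true, if_false, h2]
    rfl
  let T := {t : Fin q × Fin (eQ π ρ S) // β t = 0} × Fin q
  have hres : ∀ (t : Fin q × Fin (eQ π ρ S)) (j : ℕ) (z : Blk (π * ρ) Q),
      z - pt (π * ρ) Q 0 j ∈ F (Bk t) → z.2.val % Q = β t := by
    intro t j z h
    rw [← hβ t _ h]
    simp only [pt, Prod.snd_sub]
    have e : z.2 = (z.2 - (((Q : ℤ) * j : ℤ) : ZMod (Q * Q))) + ((Q * j : ℕ) : ZMod (Q * Q)) := by
      push_cast; ring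
    conv_lhs => rw [e]
    rw [ZMod.val_add, ZMod.val_natCast, Nat.mod_mod_of_dvd _ (dvd_mul_right Q Q), Nat.add_mod,
      Nat.mod_mod_of_dvd _ (dvd_mul_right Q Q), Nat.mul_mod_right, add_zero, Nat.mod_mod]
  have huniq : ∀ z : Blk (π * ρ) Q, ∃! u : (Fin q × Fin (eQ π ρ S)) × Fin q,
      z - pt (π * ρ) Q 0 (u.2 : ℕ) ∈ F (Bk u.1) := by
    intro z
    obtain ⟨⟨s, μ⟩, hx, hu⟩ := (tiles_iff o hv false).1 (hT false) X z
    obtain ⟨⟨j, c⟩, hjc⟩ := finProdFinEquiv.surjective (Fin.cast hHe μ)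
    have hμ : num c j = μ := by simp [num, hjc]
    refine ⟨((s, c), j), (key s c j z).1 (hμ.symm ▸ hx), ?_⟩
    rintro ⟨⟨s', c'⟩, j'⟩ h
    have := hu (s', num c' j') ((key s' c' j' z).2 h)
    simp only [Prod.mk.injEq] at this
    obtain ⟨rfl, h'⟩ := this
    rw [← hμ] at h'
    have := finProdFinEquiv.injective (Fin.cast_injective hHe.symm h')
    simp only [Prod.mk.injEq] at this
    simp [this]
  let f : (Σ u : T, F (Bk u.1.1)) → {z : Blk (π * ρ) Q // z.2.val % Q = 0} := fun w =>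
    ⟨(w.2 : Blk (π * ρ) Q) + pt (π * ρ) Q 0 (w.1.2 : ℕ), by
      rw [hres w.1.1.1 w.1.2 _ (by rw [add_sub_cancel_right]; exact w.2.2), w.1.1.2]⟩
  have hf : Function.Bijective f := by
    constructor
    · rintro ⟨⟨⟨t, ht⟩, j⟩, b⟩ ⟨⟨⟨t', ht'⟩, j'⟩, b'⟩ h
      simp only [f, Subtype.mk.injEq] at h
      obtain ⟨u, -, hu⟩ := huniq ((b : Blk (π * ρ) Q) + pt (π * ρ) Q 0 (j : ℕ))
      have e1 := hu (t, j) (by simp only; rw [add_sub_cancel_right]; exact b.2)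
      have e2 := hu (t', j') (by simp only; rw [h, add_sub_cancel_right]; exact b'.2)
      have := e1.trans e2.symm
      simp only [Prod.mk.injEq] at this
      obtain ⟨rfl, rfl⟩ := this
      obtain rfl : b = b' := Subtype.ext (add_right_cancel h)
      rfl
    · rintro ⟨z, hz⟩
      obtain ⟨⟨t, j⟩, h, -⟩ := huniq z
      exact ⟨⟨(⟨t, (hres t j z h).symm.trans hz⟩, j), ⟨_, h⟩⟩, Subtype.ext (sub_add_cancel _ _)⟩
  have hcount := Nat.card_congr (Equiv.ofBijective f hf)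
  rw [card_residue, Nat.card_sigma] at hcount
  simp only [hcard, sum_const, card_univ, smul_eq_mul, T, Fintype.card_prod, Fintype.card_fin] at hcount
  apply o.not_dvd
  refine ⟨Fintype.card {t : Fin q × Fin (eQ π ρ S) // β t = 0}, ?_⟩
  exact Nat.eq_of_mul_eq_mul_right (Nat.mul_pos hp hQ) (by linarith)

end Vale.Agent.P043.Three.Guard
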