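import Vale.Agent.P043.Three.Blocks
import Vale.Agent.P043.Three.Cyclic

/-!
P043, dimension three: the gadgets give a system with a cyclic finite factor.

Variables are read as `x_v xor px`, where `x` is the type of a block and `px` the negated type of
the even block; guards make them invariant by odd multiples `N` of their period vectors, and on
the sublattice `N ℤ²` they form a two-adic family.
-/

namespace Vale.Agent.P043.Three

open Finset

attribute [local irreducible] Params.N Params.D Params.B Params.gB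

variable {T : Params} (G : Gadgets T)

instance (b : Idx) : NeZero (T.dims b).1 := ⟨(T.dims_pos b).1.ne'⟩

instance (b : Idx) : NeZero (T.dims b).2 := ⟨(T.dims_pos b).2.ne'⟩

/-- The forbidden raw bits at a point. -/
abbrev Bad := {σ : Option Var → Bool // ¬ Rel (fun v => xor (σ (some v)) (!σ none)) (!σ none)}

/-- All clauses. -/
def clauses : Bad ⊕ (Option Var × Bool × Bool) → ∀ b, Option (Grp T b) :=
  Sum.elim (fun σ => relClause T σ.1) fun i => guardClause T i.1 i.2.1 i.2.2

/-- A family solving all local equations and clauses. -/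
def IsGood (a : ∀ b, ℤ × ℤ → Set (Grp T b)) : Prop :=
  (∀ b, Cols (box _ _) (a b)) ∧ (∀ i, Tiles₁ (G.LE i) (a .even)) ∧
  (∀ v i, Tiles₂ (G.LP v i) (a .even) (a (.par v))) ∧
  (∀ o i, Tiles₁ (G.LG o i) (a (.guard o))) ∧
  ∀ i X, ∃ b t, clauses (T := T) i b = some t ∧ Inv (a b X) t

theorem IsGood.exclusive {a : ∀ b, ℤ × ℤ → Set (Grp T b)} (hc : ∀ b, Cols (box _ _) (a b))
    (h₁ : ∀ i, Tiles₁ (G.LE i) (a .even))
    (h₂ : ∀ v i, Tiles₂ (G.LP v i) (a .even) (a (.par v))) (o : Option Var) (X : ℤ × ℤ) :
    Inv (a (rawIdx o) X) (egen _ _) ↔ ¬ Inv (a (rawIdx o) X) (hgen _ _) := by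
  rcases o with _ | v
  · exact (G.soundE (a .even) (hc .even) h₁).1 X
  · exact (G.soundP v (a .even) (a (.par v)) (hc .even) (hc (.par v)) (h₂ v)).1 X

/-- The value seen by a guard in the intended family. -/
def aim : Option Var → ℤ × ℤ → Bool
  | none, X => decide (2 ∣ X.1)
  | some v, X => intended v X

theorem aim_add (o : Option Var) (X : ℤ × ℤ) : aim o (X + gstride T o) = aim o X := by
  rcases o with _ | v
  · exact decide_eq_decide.2 (show (2 : ℤ) ∣ X.1 + 2 * (T.N : ℤ) ↔ 2 ∣ X.1 by omega)
  · have h : Function.Periodic (intended v) (per v) := intended_add v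
    exact h.zsmul _ X

theorem not_dec (n : ℤ) : (!decide (2 ∣ n)) = decide (n % 2 = 1) := by
  rw [Bool.eq_iff_iff]
  simp only [Bool.not_eq_true', decide_eq_false_iff_not, decide_eq_true_eq]
  omega

theorem exists_good : ∃ a, IsGood G a := by
  classical
  obtain ⟨a₀, ha₀c, ha₀t, ha₀x, hPx⟩ := G.existsE
  choose aP haPc haPt haPx using fun v => hPx v (intended v) (intended_add v)
  choose aG haGc haGt haGx using fun o => G.existsG o (aim o) (aim_add o)
  let a : ∀ b, ℤ × ℤ → Set (Grp T b) := fun b => match b with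
    | .even => a₀
    | .par v => aP v
    | .guard o => aG o
  have hc : ∀ b, Cols (box _ _) (a b) := by
    rintro (_ | v | o)
    · exact ha₀c
    · exact haPc v
    · exact haGc o
  refine ⟨a, hc, ha₀t, haPt, haGt, ?_⟩
  have hx₀ : ∀ X, xraw T a none X = decide (2 ∣ X.1) := fun X => by
    rw [Bool.eq_iff_iff, xraw_eq_true, decide_eq_true_eq]
    exact ha₀x X
  have hxv : ∀ v X, xraw T a (some v) X = xor (intended v X) (decide (X.1 % 2 = 1)) := fun v X => by
    rw [Bool.eq_iff_iff, xraw_eq_true]
    exact haPx v X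
  have hlit : ∀ o X x, xraw T a o X ≠ x →
      Inv (a (rawIdx o) X) (opp T (rawIdx o) x) := fun o X x h =>
    (inv_opp_iff T (IsGood.exclusive G hc ha₀t haPt o X)).2 h
  rintro (⟨σ, hσ⟩ | ⟨o, x₀, x⟩) X
  · by_cases h : ∀ o, xraw T a o X = σ o
    · refine absurd ?_ hσ
      have h' : ∀ v, xor (σ (some v)) (!σ none) = intended v X := fun v => by
        rw [← h, ← h, hxv, hx₀, not_dec, Bool.xor_assoc, Bool.xor_self, Bool.xor_false]
      simp only [h']
      rw [← h, hx₀, not_dec]
      exact rel_intended X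
    · push Not at h
      obtain ⟨o, ho⟩ := h
      rcases o with _ | v
      · exact ⟨.even, opp T .even (σ none), rfl, hlit none X _ ho⟩
      · exact ⟨.par v, opp T (.par v) (σ (some v)), rfl, hlit (some v) X _ ho⟩
  · by_cases h₀ : xraw T a none X = x₀
    swap
    · exact ⟨.even, opp T .even x₀, rfl, hlit none X _ h₀⟩
    have hval : ∀ o', guarded o' (xraw T a none X) (xraw T a o' X) = aim o' X := by
      intro o'
      rcases o' with _ | v
      · exact hx₀ X
      · simp only [guarded, aim, hxv, hx₀, not_dec, Bool.xor_assoc, Bool.xor_self, Bool.xor_false]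
    have hg : ∀ x', xraw T a o X = x' → ∃ b t,
        guardClause T o x₀ x' b = some t ∧ Inv (a b X) t := fun x' hx => by
      refine ⟨.guard o, valElt T o (guarded o x₀ x'), if_pos rfl, ?_⟩
      rw [← hx, ← h₀, hval]
      exact haGx o X
    rcases o with _ | v
    · refine ⟨.guard none, valElt T none (guarded none x₀ x),
        by simp [clauses, guardClause], ?_⟩
      rw [show guarded none x₀ x = guarded none (xraw T a none X) (xraw T a none X) by
        rw [h₀]; rfl, hval]
      exact haGx none X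
    · by_cases hv : xraw T a (some v) X = x
      · exact hg x hv
      · exact ⟨.par v, opp T (.par v) x, if_pos rfl, hlit (some v) X _ hv⟩

theorem not_periodic {a : ∀ b, ℤ × ℤ → Set (Grp T b)} (ha : IsGood G a) :
    ¬ ∃ P : ℕ, 0 < P ∧ ∀ b X, a b (X + ((P : ℤ), 0)) = a b X ∧
      a b (X + (0, (P : ℤ))) = a b X := by
  obtain ⟨hcol, ht₁, ht₂, htG, hcl⟩ := ha
  rintro ⟨P, hPpos, hper⟩
  obtain ⟨-, hE4, hE2, hEflip⟩ := G.soundE (a .even) (hcol .even) ht₁
  have hno : ∀ o X, ¬ Inv (a (rawIdx o) X) (opp T (rawIdx o) (xraw T a o X)) :=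
    fun o X h => (inv_opp_iff T (IsGood.exclusive G hcol ht₁ ht₂ o X)).1 h rfl
  let val : Option Var → ℤ × ℤ → Bool :=
    fun o X => guarded o (xraw T a none X) (xraw T a o X)
  have hguard : ∀ o X, Inv (a (.guard o) X) (valElt T o (val o X)) := by
    intro o X
    obtain ⟨b, t, hbt, hinv⟩ := hcl (.inr (o, xraw T a none X, xraw T a o X)) X
    rcases b with _ | v | o' <;> simp only [clauses, Sum.elim_inr, guardClause] at hbt
    · obtain rfl := Option.some.inj hbt
      exact absurd hinv (hno none X)
    · split_ifs at hbt with hov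
      obtain rfl := Option.some.inj hbt
      subst hov
      exact absurd hinv (hno (some v) X)
    · split_ifs at hbt with hoo
      obtain rfl := Option.some.inj hbt
      subst hoo
      exact hinv
  have hodd : ∀ o, (∀ X, val o (X + (2 : ℤ) • gstride T o) = val o X) →
      ∀ X, val o (X + gstride T o) = val o X := by
    intro o h2
    refine half_period (val o) _ (G.gP o) (G.oddG o) h2 fun X => ?_
    obtain ⟨hGp, hGk⟩ := G.soundG o (a (.guard o)) (hcol (.guard o)) (htG o)
    obtain ⟨k, hk⟩ := hGk X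
    refine ⟨k, ?_⟩
    have e1 := hguard o (X + k • gstride T o)
    have e2 := hguard o (X + k • gstride T o + (G.gP o : ℤ) • gstride T o)
    rw [hGp] at e2
    revert e1 e2
    cases val o (X + k • gstride T o) <;>
      cases val o (X + k • gstride T o + (G.gP o : ℤ) • gstride T o)
    · exact fun _ _ => rfl
    · exact fun e1 e2 => absurd ⟨e2, e1⟩ hk
    · exact fun e1 e2 => absurd ⟨e1, e2⟩ hk
    · exact fun _ _ => rfl
  have hxraw : ∀ o X Y, (Inv (a (rawIdx o) X) (hgen _ _) ↔ Inv (a (rawIdx o) Y) (hgen _ _)) →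
      xraw T a o X = xraw T a o Y := fun o X Y h => by
    rw [Bool.eq_iff_iff, xraw_eq_true, xraw_eq_true]
    exact h
  -- the even block flips
  have hS2 : ∀ X, xraw T a none (X + (2 * (T.N : ℤ), 0)) = xraw T a none X := by
    refine hodd none fun X => ?_
    have e : (2 : ℤ) • gstride T none = (4 * (T.N : ℤ), 0) := by
      ext <;> simp [gstride] <;> ring
    rw [e]
    exact hxraw none _ _ (hE4 X)
  have hSy : ∀ X, xraw T a none (X + (0, 1)) = xraw T a none X := fun X =>
    hxraw none _ _ (hE2 X)
  have hS1 : ∀ X, xraw T a none (X + ((T.N : ℤ), 0)) = !xraw T a none X := by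
    intro X
    have h2 : ∀ Y, Inv (a .even (Y + (2 * (T.N : ℤ), 0))) (hgen _ _) ↔
        Inv (a .even Y) (hgen _ _) := fun Y => by
      have := hS2 Y
      rwa [Bool.eq_iff_iff, xraw_eq_true, xraw_eq_true] at this
    have := hEflip h2 X
    rw [Bool.eq_iff_iff, Bool.not_eq_true', ← Bool.not_eq_true, xraw_eq_true, xraw_eq_true]
    exact this
  -- the variables
  have hstep : ∀ v X, val (some v) (X + gstride T (some v)) = val (some v) X := by
    intro v
    refine hodd (some v) fun X => ?_
    have hxv : Function.Periodic (xraw T a (some v))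
        ((2 * ((T.D v * (T.π v * T.q v ^ T.B v) : ℕ) : ℤ)) • per v) := fun Y =>
      hxraw (some v) _ _ ((G.soundP v (a .even) (a (.par v)) (hcol .even) (hcol (.par v))
        (ht₂ v)).2 Y)
    obtain ⟨r, hr⟩ := T.step_dvd_N v
    have e : (2 : ℤ) • gstride T (some v) = (r : ℤ) •
        ((2 * ((T.D v * (T.π v * T.q v ^ T.B v) : ℕ) : ℤ)) • per v) := by
      simp only [gstride, smul_smul]
      congr 1
      rw [hr]
      push_cast
      ring
    have e' : (2 : ℤ) • gstride T (some v)
        = (1 : ℤ) • (2 * (T.N : ℤ), (0 : ℤ)) + (2 * (T.N : ℤ) * slope v) • ((0 : ℤ), (1 : ℤ)) := by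
      ext <;> simp [gstride, per] <;> ring
    have h1 : xraw T a (some v) (X + (2 : ℤ) • gstride T (some v)) = xraw T a (some v) X := by
      rw [e]; exact hxv.zsmul _ X
    have h0 : xraw T a none (X + (2 : ℤ) • gstride T (some v)) = xraw T a none X := by
      rw [e', ← add_assoc]
      exact (Function.Periodic.zsmul hSy _ _).trans (Function.Periodic.zsmul hS2 _ X)
    simp only [val, guarded, h1, h0]
  -- the reading on the sublattice
  let emb : ℤ × ℤ → ℤ × ℤ := fun Y => (T.N : ℤ) • Y
  refine no_periodic_reading (fun v Y => val (some v) (emb Y))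
    (fun Y => !xraw T a none (emb Y)) ?_ ?_ ?_ ?_ P hPpos ?_
  · intro v Y
    simp only [emb, smul_add]
    exact hstep v _
  · intro Y
    have e : emb (Y + (1, 0)) = emb Y + ((T.N : ℤ), 0) := by ext <;> simp [emb, mul_add]
    simp only [e, hS1]
  · intro Y
    have e : emb (Y + (0, 1)) = emb Y + (T.N : ℤ) • ((0 : ℤ), (1 : ℤ)) := by
      ext <;> simp [emb, mul_add]
    simp only [e]
    rw [Function.Periodic.zsmul hSy _ _]
  · intro Y
    by_contra hbad
    obtain ⟨b, t, hbt, hinv⟩ :=
      hcl (.inl ⟨fun o => xraw T a o (emb Y), hbad⟩) (emb Y)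
    rcases b with _ | v | o' <;> simp only [clauses, Sum.elim_inl, relClause] at hbt
    · obtain rfl := Option.some.inj hbt
      exact hno none _ hinv
    · obtain rfl := Option.some.inj hbt
      exact hno (some v) _ hinv
    · cases hbt
  · intro v Y
    have hp : ∀ b, Function.Periodic (a b) ((0 : ℤ), (P : ℤ)) := fun b X => (hper b X).2
    have e : emb (Y + (0, (P : ℤ))) = emb Y + (T.N : ℤ) • ((0 : ℤ), (P : ℤ)) := by
      ext <;> simp [emb, mul_add]
    have hx : ∀ o, xraw T a o (emb (Y + (0, (P : ℤ)))) = xraw T a o (emb Y) := fun o => by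
      refine hxraw o _ _ ?_
      rw [e, (hp (rawIdx o)).zsmul]
    simp only [val, hx]

/-- The gadget pins and the layer give the system. -/
theorem mainPin : MainPin := by
  intro _ hE hP hG hL
  classical
  obtain ⟨T⟩ := exists_params
  obtain ⟨G⟩ := exists_gadgets T hE hP hG
  let b₁ : G.ιE ⊕ (Σ o, G.ιG o) → Idx := Sum.elim (fun _ => .even) fun i => .guard i.1
  let L₁ : ∀ i, Finset ((ℤ × ℤ) × Grp T (b₁ i)) := fun i => match i with
    | .inl i => G.LE i
    | .inr i => G.LG i.1 i.2
  have := G.fE
  have := G.fP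
  have := G.fG
  refine hL Idx (Grp T) (fun b => box _ _)
    (fun b => zero_mem_box (T.dims_pos b).1 (T.dims_pos b).2)
    (exists_surjective_blocks T.dims T.dims_pos T.coprime_in T.pairwise_coprime)
    (G.ιE ⊕ Σ o, G.ιG o) b₁ L₁ ?_ (Σ v, G.ιP v) (fun _ => .even) (fun i => .par i.1)
    (fun i => G.LP i.1 i.2) ?_ ?_ (Bad ⊕ (Option Var × Bool × Bool)) (clauses (T := T)) ?_ ?_ ?_ ?_
  · rintro (i | ⟨o, i⟩)
    · show (G.LE i).card = _
      rw [card_box, G.cardE i]
      rfl
    · show (G.LG o i).card = _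
      rw [card_box, G.cardG o i]
      rfl
  · exact fun i h => Idx.noConfusion h
  · rintro ⟨v, i⟩
    rw [card_box, card_box, G.cardP v i]
    rfl
  · rintro (σ | ⟨o, x₀, x⟩)
    · exact ⟨.even, _, rfl⟩
    · exact ⟨.even, _, rfl⟩
  · rintro (σ | ⟨o, x₀, x⟩) (_ | v | o') t ht <;>
      simp only [clauses, Sum.elim_inl, Sum.elim_inr, relClause, guardClause] at ht
    · obtain rfl := Option.some.inj ht
      exact opp_sub_ne T none _
    · obtain rfl := Option.some.inj ht
      exact opp_sub_ne T (some v) _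
    · cases ht
    · obtain rfl := Option.some.inj ht
      exact opp_sub_ne T none _
    · split_ifs at ht
      obtain rfl := Option.some.inj ht
      exact opp_sub_ne T (some v) _
    · split_ifs at ht
      obtain rfl := Option.some.inj ht
      exact valElt_sub_ne T o' _
  · obtain ⟨a, h1, h2, h3, h4, h5⟩ := exists_good G
    exact ⟨a, h1, fun i => match i with
      | .inl i => h2 i
      | .inr ⟨o, i⟩ => h4 o i, fun i => h3 i.1 i.2, h5⟩
  · rintro a ⟨h1, h2, h3, h5⟩
    exact not_periodic G ⟨h1, fun i => h2 (.inl i), fun v i => h3 ⟨v, i⟩,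
      fun o i => h2 (.inr ⟨o, i⟩), h5⟩

end Vale.Agent.P043.Three
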