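import Vale.Agent.P043.Three.Reading

/-!
P043, dimension three: the blocks and their primes. One even block, one parity block for each
variable, one guard block for each variable and one for the even block.
-/

namespace Vale.Agent.P043.Three

open Finset

/-- The blocks. -/
inductive Idx
  | even
  | par (v : Var)
  | guard (o : Option Var)
  deriving DecidableEq

/-- The blocks as a sum. -/
def idxEquiv : Idx ≃ Unit ⊕ Var ⊕ Option Var where
  toFun
    | .even => .inl ()
    | .par v => .inr (.inl v)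
    | .guard o => .inr (.inr o)
  invFun
    | .inl () => .even
    | .inr (.inl v) => .par v
    | .inr (.inr o) => .guard o
  left_inv := by rintro (_ | _ | _) <;> rfl
  right_inv := by rintro (_ | _ | _) <;> rfl

instance : Fintype Idx := Fintype.ofEquiv _ idxEquiv.symm

/-- Increasing primes: three for each of the odd blocks. -/
structure Params where
  pr : (Var ⊕ Option Var) → Fin 3 → ℕ
  prime : ∀ x k, (pr x k).Prime
  five_lt : ∀ x k, 5 < pr x k
  inj : ∀ x k y l, pr x k = pr y l → x = y ∧ k = l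
  sq_lt : ∀ x, pr x 0 * pr x 0 < pr x 1 ∧ pr x 0 * pr x 0 < pr x 2

theorem exists_params : Nonempty Params := by
  choose nxt hnxt using fun n : ℕ => Nat.exists_infinite_primes (n * n + n + 6)
  let P : ℕ → ℕ := fun i => Nat.rec (nxt 0) (fun _ x => nxt x) i
  have hP : ∀ i, (P i).Prime ∧ 5 < P i := by
    intro i
    cases i with
    | zero => exact ⟨(hnxt 0).2, show 5 < nxt 0 by have := (hnxt 0).1; omega⟩
    | succ i => exact ⟨(hnxt (P i)).2, show 5 < nxt (P i) by have := (hnxt (P i)).1; omega⟩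
  have hlt : ∀ i, P i * P i < P (i + 1) := fun i => by
    have := (hnxt (P i)).1
    show P i * P i < nxt (P i)
    omega
  have hmono : StrictMono P := strictMono_nat_of_lt_succ fun i => by
    have := hlt i; have := (hP i).2; nlinarith
  let e := Fintype.equivFin (Var ⊕ Option Var)
  refine ⟨⟨fun x k => P (3 * (e x : ℕ) + k), fun x k => (hP _).1, fun x k => (hP _).2,
    fun x k y l h => ?_, fun x => ⟨hlt _, (hlt _).trans (hmono (by
      show 3 * (e x : ℕ) + 1 < 3 * (e x : ℕ) + 2
      omega))⟩⟩⟩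
  have h' := hmono.injective h
  have hk := k.isLt
  have hl := l.isLt
  exact ⟨e.injective (Fin.ext (by omega)), Fin.ext (by omega)⟩

variable (T : Params)

/-- The smaller prime of a parity block. -/
def Params.q (v : Var) : ℕ := T.pr (.inl v) 0

/-- The larger prime of a parity block. -/
def Params.π (v : Var) : ℕ := T.pr (.inl v) 1

/-- The exponent of a parity block. -/
def Params.B (v : Var) : ℕ := T.π v * T.π v + 1

/-- The small prime of a guard block. -/
def Params.gq (o : Option Var) : ℕ := T.pr (.inr o) 0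

/-- The prime of the value `true`. -/
def Params.gπ (o : Option Var) : ℕ := T.pr (.inr o) 1

/-- The prime of the value `false`. -/
def Params.gρ (o : Option Var) : ℕ := T.pr (.inr o) 2

/-- The exponent of a guard block. -/
def Params.gB (o : Option Var) : ℕ := T.gπ o + T.gρ o

/-- The stride of a parity block: the other larger primes. -/
def Params.D (v : Var) : ℕ := ∏ w ∈ univ.erase v, T.π w

/-- The odd number by which everything is scaled. -/
def Params.N : ℕ := ∏ v, T.π v * T.q v ^ T.B v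

/-- The sizes of the blocks. -/
def Params.dims : Idx → ℕ × ℕ
  | .even => (16, 5)
  | .par v => (T.π v * T.π v, T.q v ^ T.B v)
  | .guard o => (T.gπ o * T.gρ o, T.gq o ^ T.gB o)

theorem Params.pr_pos (x : Var ⊕ Option Var) (k : Fin 3) : 0 < T.pr x k :=
  (T.prime x k).pos

theorem Params.dims_pos (b : Idx) : 0 < (T.dims b).1 ∧ 0 < (T.dims b).2 := by
  rcases b with _ | v | o
  · simp [Params.dims]
  · exact ⟨Nat.mul_pos (T.pr_pos _ _) (T.pr_pos _ _), pow_pos (T.pr_pos _ _) _⟩
  · exact ⟨Nat.mul_pos (T.pr_pos _ _) (T.pr_pos _ _), pow_pos (T.pr_pos _ _) _⟩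

/-- The primes of a block. -/
def Params.primesOf : Idx → ℕ → Prop
  | .even, ℓ => ℓ = 2 ∨ ℓ = 5
  | .par v, ℓ => ℓ = T.q v ∨ ℓ = T.π v
  | .guard o, ℓ => ℓ = T.gq o ∨ ℓ = T.gπ o ∨ ℓ = T.gρ o

theorem Params.primesOf_dvd {b : Idx} {ℓ : ℕ} (hℓ : ℓ.Prime)
    (h : ℓ ∣ (T.dims b).1 * (T.dims b).2) : T.primesOf b ℓ := by
  rcases b with _ | v | o <;> simp only [Params.dims] at h <;>
    rcases (Nat.Prime.dvd_mul hℓ).1 h with h | h
  · exact Or.inl ((Nat.prime_dvd_prime_iff_eq hℓ Nat.prime_two).1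
      (hℓ.dvd_of_dvd_pow (show ℓ ∣ 2 ^ 4 from h)))
  · exact Or.inr ((Nat.prime_dvd_prime_iff_eq hℓ (by norm_num)).1 h)
  · rcases (Nat.Prime.dvd_mul hℓ).1 h with h | h <;>
      exact Or.inr ((Nat.prime_dvd_prime_iff_eq hℓ (T.prime _ _)).1 h)
  · exact Or.inl ((Nat.prime_dvd_prime_iff_eq hℓ (T.prime _ _)).1 (hℓ.dvd_of_dvd_pow h))
  · rcases (Nat.Prime.dvd_mul hℓ).1 h with h | h
    · exact Or.inr (Or.inl ((Nat.prime_dvd_prime_iff_eq hℓ (T.prime _ _)).1 h))
    · exact Or.inr (Or.inr ((Nat.prime_dvd_prime_iff_eq hℓ (T.prime _ _)).1 h))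
  · exact Or.inl ((Nat.prime_dvd_prime_iff_eq hℓ (T.prime _ _)).1 (hℓ.dvd_of_dvd_pow h))

theorem Params.primesOf_inj {b c : Idx} {ℓ : ℕ} (hb : T.primesOf b ℓ) (hc : T.primesOf c ℓ) :
    b = c := by
  have h5 : ∀ x k, T.pr x k ≠ 2 ∧ T.pr x k ≠ 5 := fun x k => by
    have := T.five_lt x k; omega
  rcases b with _ | v | o <;> rcases c with _ | w | o' <;>
    simp only [Params.primesOf, Params.q, Params.π, Params.gq, Params.gπ, Params.gρ] at hb hc
  · rfl
  · rcases hc with rfl | rfl <;> rcases hb with h | h <;>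
      first | exact absurd h (h5 _ _).1 | exact absurd h (h5 _ _).2
  · rcases hc with rfl | rfl | rfl <;> rcases hb with h | h <;>
      first | exact absurd h (h5 _ _).1 | exact absurd h (h5 _ _).2
  · rcases hb with rfl | rfl <;> rcases hc with h | h <;>
      first | exact absurd h (h5 _ _).1 | exact absurd h (h5 _ _).2
  · rcases hb with rfl | rfl <;> rcases hc with h | h <;>
      rw [Sum.inl.inj (T.inj _ _ _ _ h).1]
  · rcases hb with rfl | rfl <;> rcases hc with h | h | h <;> cases (T.inj _ _ _ _ h).1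
  · rcases hb with rfl | rfl | rfl <;> rcases hc with h | h <;>
      first | exact absurd h (h5 _ _).1 | exact absurd h (h5 _ _).2
  · rcases hb with rfl | rfl | rfl <;> rcases hc with h | h <;> cases (T.inj _ _ _ _ h).1
  · rcases hb with rfl | rfl | rfl <;> rcases hc with h | h | h <;>
      rw [Sum.inr.inj (T.inj _ _ _ _ h).1]

theorem Params.pairwise_coprime : Pairwise fun b c => Nat.Coprime
    ((T.dims b).1 * (T.dims b).2) ((T.dims c).1 * (T.dims c).2) := fun _ _ hne =>
  Nat.coprime_of_dvd fun _ hℓ h h' => hne (T.primesOf_inj (T.primesOf_dvd hℓ h)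
    (T.primesOf_dvd hℓ h'))

theorem Params.coprime_in (b : Idx) : Nat.Coprime (T.dims b).1 (T.dims b).2 := by
  have hne : ∀ x k l, k ≠ l → Nat.Coprime (T.pr x k) (T.pr x l) := fun x k l hkl =>
    (Nat.coprime_primes (T.prime x k) (T.prime x l)).2 fun h => hkl (T.inj _ _ _ _ h).2
  rcases b with _ | v | o
  · show Nat.Coprime 16 5
    decide
  · exact ((hne _ 1 0 (by decide)).mul_left (hne _ 1 0 (by decide))).pow_right _
  · exact ((hne _ 1 0 (by decide)).mul_left (hne _ 2 0 (by decide))).pow_right _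

theorem Params.two_lt (x : Var ⊕ Option Var) (k : Fin 3) : 2 < T.pr x k := by
  have := T.five_lt x k
  omega

theorem Params.odd_pr (x : Var ⊕ Option Var) (k : Fin 3) : Odd (T.pr x k) :=
  (T.prime x k).odd_of_ne_two (by have := T.five_lt x k; omega)

theorem Params.par_hyp (v : Var) : (T.π v).Prime ∧ (T.q v).Prime ∧ 2 < T.q v ∧ T.q v < T.π v ∧
    T.π v * T.π v ≤ T.q v ^ (T.B v - 1) ∧ Odd (T.D v) ∧ (T.D v).Coprime (T.π v) ∧
      (T.D v).Coprime (T.q v) := by
  refine ⟨T.prime _ _, T.prime _ _, T.two_lt _ _, ?_, ?_, ?_, ?_, ?_⟩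
  · have h1 := (T.sq_lt (.inl v)).1
    have h2 := T.five_lt (.inl v) 0
    simp only [Params.q, Params.π]
    nlinarith
  · simp only [Params.B, Nat.add_sub_cancel]
    exact (Nat.lt_pow_self (Nat.lt_of_lt_of_le (by norm_num) (T.two_lt _ _))).le
  · exact Finset.prod_induction _ Odd (fun _ _ => Odd.mul) odd_one fun w _ => T.odd_pr _ _
  · refine Nat.Coprime.prod_left fun w hw => (Nat.coprime_primes (T.prime _ _) (T.prime _ _)).2 ?_
    exact fun h => (Finset.mem_erase.1 hw).1 (Sum.inl.inj (T.inj _ _ _ _ h).1)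
  · refine Nat.Coprime.prod_left fun w _ => (Nat.coprime_primes (T.prime _ _) (T.prime _ _)).2 ?_
    exact fun h => absurd (T.inj _ _ _ _ h).2 (by decide)

theorem Params.guard_hyp (o : Option Var) : (T.gq o).Prime ∧ (T.gπ o).Prime ∧ (T.gρ o).Prime ∧
    2 < T.gq o ∧ T.gq o * T.gq o < T.gπ o ∧ T.gq o * T.gq o < T.gρ o ∧ T.gπ o ≠ T.gρ o ∧
      T.gπ o < T.gq o ^ T.gB o ∧ T.gρ o < T.gq o ^ T.gB o := by
  have h : T.gπ o + T.gρ o < T.gq o ^ T.gB o :=
    Nat.lt_pow_self (Nat.lt_of_lt_of_le (by norm_num) (T.two_lt _ _))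
  exact ⟨T.prime _ _, T.prime _ _, T.prime _ _, T.two_lt _ _, (T.sq_lt _).1, (T.sq_lt _).2,
    fun h => absurd (T.inj _ _ _ _ h).2 (by decide), by omega, by omega⟩

theorem Params.odd_N : Odd T.N :=
  Finset.prod_induction _ Odd (fun _ _ => Odd.mul) odd_one fun _ _ =>
    (T.odd_pr _ _).mul (T.odd_pr _ _).pow

theorem Params.step_dvd_N (v : Var) : T.D v * (T.π v * T.q v ^ T.B v) ∣ T.N := by
  have e : T.D v * T.π v = ∏ w, T.π w := by
    rw [Params.D, mul_comm, Finset.mul_prod_erase _ _ (mem_univ v)]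
  rw [← mul_assoc, e, Params.N, Finset.prod_mul_distrib]
  exact mul_dvd_mul_left (∏ w, T.π w)
    (Finset.dvd_prod_of_mem (fun w => T.q w ^ T.B w) (mem_univ v))

theorem Params.π_dvd_N (v : Var) : T.π v ∣ T.N :=
  (dvd_mul_right (T.π v) (T.q v ^ T.B v)).trans
    (Finset.dvd_prod_of_mem (fun w => T.π w * T.q w ^ T.B w) (mem_univ v))

theorem Params.π_dvd_D {v w : Var} (h : w ≠ v) : T.π w ∣ T.D v :=
  Finset.dvd_prod_of_mem _ (Finset.mem_erase.2 ⟨h, mem_univ w⟩)

end Vale.Agent.P043.Three
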