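import Vale.Agent.P043.Three.ParityTile
import Vale.Agent.P043.Three.Box
import Vale.Agent.P043.Three.Fill

/-!
P043, dimension three, parity block: columns for every line function, and the block.
-/

namespace Vale.Agent.P043.Three

namespace Parity

/-- Groups of the two slices. -/
abbrev Groups (π q R Q : ℕ) :=
  ∀ b : Bool, ({s : Fin (gMod π R) // fslot π q s = b} × ZMod q) ⊕
    ({s : Fin (eMod π Q) // fslot π q s = !b} × ZMod π) ≃ ZMod (π * π) × ZMod Q

/-- The slot of an integer. -/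
def slot (M : ℕ) [NeZero M] (n : ℤ) : Fin M := ⟨(n : ZMod M).val, ZMod.val_lt _⟩

theorem slot_eq {M : ℕ} [NeZero M] {n : ℤ} {s : Fin M} :
    slot M n = s ↔ (n : ZMod M) = ((s : ℕ) : ZMod M) := by
  rw [slot, Fin.ext_iff]
  show (n : ZMod M).val = (s : ℕ) ↔ _
  constructor
  · intro h; rw [← h]; exact (ZMod.natCast_zmod_val _).symm
  · intro h; rw [h]; exact ZMod.val_natCast_of_lt s.2

theorem slice_eq {π q M : ℕ} [NeZero M] (hM : π ∣ M) (n : ℤ) :
    slicePat π q n = fslot π q (slot M n : ℕ) := by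
  have h : (((n : ZMod M).val % π : ℕ) : ℤ) = n % (π : ℤ) := by
    rw [Int.natCast_mod, ZMod.val_intCast, Int.emod_emod_of_dvd n (Int.natCast_dvd_natCast.2 hM)]
  simp only [slicePat, fslot, kth, slot, decide_eq_decide, ← h, Nat.cast_le]
  rfl

/-- The half of the clock decides which digits reach a point. -/
theorem sel_iff {A : Set (Blk 16 5)} (hA : IsTiling (box 16 5) A) {b : Bool}
    (hb : ∀ z ∈ A, z.1.val % 2 = 1 ↔ b = true) (σ : Bool) (z : Blk 16 5) :
    Sel A σ z ↔ decide (z.1.val % 2 = 1) = xor σ b := by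
  have key : ∀ u ∈ A, ∀ i : ℕ, (u.1 + (i : ZMod (16 * 16))).val % 2 = (u.1.val + i) % 2 := by
    intro u _ i
    rw [ZMod.val_add, ZMod.val_natCast]
    omega
  have hw : ∀ i j : ℕ, z - ((i : ZMod (16 * 16)), (j : ZMod (5 * 5))) ∈ A →
      decide (z.1.val % 2 = 1) = xor (decide (i % 2 = 1)) b := by
    intro i j h
    have h1 := key _ h i
    have h2 := hb _ h
    simp only [Prod.fst_sub, sub_add_cancel] at h1 h2
    rw [h1]
    by_cases h3 : i % 2 = 1 <;> cases b <;> simp [h3] at h2 ⊢ <;> omega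
  constructor
  · rintro ⟨d, hd⟩
    rw [hw _ _ hd]
    cases σ <;> simp
  · intro h
    obtain ⟨f, ⟨hf, hz⟩, -⟩ := hA z
    obtain ⟨i, j, hi, hj, rfl⟩ := mem_box.1 hf
    have h1 := hw i j hz
    rw [h] at h1
    have hσ : σ.toNat = i % 2 := by
      rcases Nat.mod_two_eq_zero_or_one i with h2 | h2 <;> cases σ <;> cases b <;>
        simp [h2] at h1 ⊢
    refine ⟨(⟨i / 2, by omega⟩, ⟨j, hj⟩), ?_⟩
    have : σ.toNat + 2 * (i / 2) = i := by rw [hσ]; omega
    simpa [rd, this] using hz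

/-- The period type of a column. -/
def hType (c : ℤ × ℤ → Bool) (X : ℤ × ℤ) : Bool := xor (c X) (decide (X.1 % 2 = 1))

variable {π q R Q D : ℕ} {r : ℤ}

/-- At the points of one equation, the type only depends on the parity of the point. -/
theorem hType_place (o : Ok π q R Q D) {c : ℤ × ℤ → Bool} (hc : ∀ X, c (X + ((1 : ℤ), r)) = c X)
    (g : ℤ × ℤ) (x : Pts π Q) :
    hType c (g - place π R Q D r x) = xor (hType c g) x.1 := by
  have h1 : c (g - place π R Q D r x) = c g :=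
    ((show Function.Periodic c ((1 : ℤ), r) from hc).zsmul _).sub_eq g
  have h2 : (2 * uMap π R Q x.2 + x.1.toNat) * D % 2 = x.1.toNat := by
    rw [Nat.mul_mod, Nat.odd_iff.1 o.oddD]
    cases x.1 <;> simp <;> omega
  have h3 : (g - place π R Q D r x).1 =
      g.1 - (((2 * uMap π R Q x.2 + x.1.toNat) * D : ℕ) : ℤ) := by
    rw [Prod.fst_sub, place_fst]
  have h4 : decide ((g - place π R Q D r x).1 % 2 = 1) = xor (decide (g.1 % 2 = 1)) x.1 := by
    rw [h3]
    generalize (2 * uMap π R Q x.2 + x.1.toNat) * D = m at h2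
    by_cases hg : g.1 % 2 = 1 <;> cases hx : x.1 <;> simp [hx, hg] at h2 ⊢ <;> omega
  simp only [hType, h1, h4, Bool.xor_assoc]

/-- The place of a point, in the slots. -/
theorem slot_cast (M : ℕ) (g : ℤ × ℤ) (σ : Bool) (μ : Fin (hNum π Q)) :
    (((g - place π R Q D r (σ, μ)).1 : ℤ) : ZMod M) =
      ((g.1 : ZMod M) - ((σ.toNat * D : ℕ) : ZMod M)) -
        ((2 * D : ℕ) : ZMod M) * (uMap π R Q μ : ZMod M) := by
  rw [Prod.fst_sub, place_fst]
  push_cast
  ring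

variable [NeZero (π * π)] [NeZero Q] [NeZero π] [NeZero q]

/-- A column of the first period. -/
def hColOf (Φ : Groups π q R Q) (hq : q ∣ Q) (s : Fin (gMod π R)) : Set (Blk (π * π) Q) :=
  hCol (fun J => (Φ (fslot π q s) (Sum.inl (⟨s, rfl⟩, ZMod.castHom hq (ZMod q) J))).1)
    (Φ (fslot π q s) (Sum.inl (⟨s, rfl⟩, 0))).2

/-- A column of the second period. -/
def eColOf (Φ : Groups π q R Q) (s : Fin (eMod π Q)) : Set (Blk (π * π) Q) :=
  eCol (Φ (!fslot π q s) (Sum.inr (⟨s, (Bool.not_not _).symm⟩, 0))).1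
    (fun I => (Φ (!fslot π q s)
      (Sum.inr (⟨s, (Bool.not_not _).symm⟩, ZMod.castHom (dvd_mul_right π π) (ZMod π) I))).2)

theorem mem_hColOf (Φ : Groups π q R Q) (hq : q ∣ Q)
    (h2 : ∀ b s j j', (Φ b (Sum.inl (s, j))).2 = (Φ b (Sum.inl (s, j'))).2)
    (s : Fin (gMod π R)) {b : Bool} (hs : fslot π q s = b) (z : Blk (π * π) Q) (i j : ℕ) :
    z - pt (π * π) Q i j ∈ hColOf Φ hq s ↔
      (Φ b).symm (lo z.1, lo z.2) =
        Sum.inl (⟨s, hs⟩, ZMod.castHom hq (ZMod q) (hi z.2) - (j : ZMod q)) := by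
  subst hs
  rw [Equiv.symm_apply_eq, Prod.ext_iff, hColOf, sub_pt_mem_hCol, map_sub, map_intCast,
    Int.cast_natCast, h2 _ _ (ZMod.castHom hq (ZMod q) (hi z.2) - (j : ZMod q)) 0]
  exact and_comm

theorem mem_eColOf (Φ : Groups π q R Q)
    (h1 : ∀ b s i i', (Φ b (Sum.inr (s, i))).1 = (Φ b (Sum.inr (s, i'))).1)
    (s : Fin (eMod π Q)) {b : Bool} (hs : fslot π q s = !b) (z : Blk (π * π) Q) (i j : ℕ) :
    z - pt (π * π) Q i j ∈ eColOf Φ s ↔
      (Φ b).symm (lo z.1, lo z.2) =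
        Sum.inr (⟨s, hs⟩, ZMod.castHom (dvd_mul_right π π) (ZMod π) (hi z.1) - (i : ZMod π)) := by
  obtain rfl : b = !fslot π q s := by rw [hs, Bool.not_not]
  rw [Equiv.symm_apply_eq, Prod.ext_iff, eColOf, sub_pt_mem_eCol, map_sub, map_intCast,
    Int.cast_natCast, h1 _ _ (ZMod.castHom (dvd_mul_right π π) (ZMod π) (hi z.1) - (i : ZMod π)) 0]

variable [NeZero (gMod π R)] [NeZero (eMod π Q)]

/-- The columns of a line function. -/
def col (Φ : Groups π q R Q) (hq : q ∣ Q) (c : ℤ × ℤ → Bool) (X : ℤ × ℤ) : Set (Blk (π * π) Q) :=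
  if hType c X then hColOf Φ hq (slot (gMod π R) X.1) else eColOf Φ (slot (eMod π Q) X.1)

theorem isTiling_col (Φ : Groups π q R Q) (hq : q ∣ Q) (c : ℤ × ℤ → Bool) (X : ℤ × ℤ) :
    IsTiling (box (π * π) Q) (col Φ hq c X) := by
  unfold col
  split_ifs
  · exact isTiling_hCol _ _
  · exact isTiling_eCol _ _

/-- The columns solve both equations. -/
theorem tiles_col (o : Ok π q R Q D) (Φ : Groups π q R Q) (hq : q ∣ Q)
    (h2 : ∀ b s j j', (Φ b (Sum.inl (s, j))).2 = (Φ b (Sum.inl (s, j'))).2)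
    (h1 : ∀ b s i i', (Φ b (Sum.inr (s, i))).1 = (Φ b (Sum.inr (s, i'))).1)
    {rest : ℤ → Bool} (hrest : ∀ n, rest (n + D) = rest n)
    {a₀ : ℤ × ℤ → Set (Blk 16 5)} (ha₀ : Cols (box 16 5) a₀)
    (hclock : HalfClock a₀ (fun n => xor (rest n) (slicePat π q n)))
    {c : ℤ × ℤ → Bool} (hc : ∀ X, c (X + ((1 : ℤ), r)) = c X) (k : Bool) :
    Tiles₂ (tile π R Q D r k) a₀ (col Φ hq c) := by
  rw [tiles_iff o k ha₀]
  intro g z₀ z
  obtain ⟨σh, hσh⟩ : ∃ σ, σ = !hType c g := ⟨_, rfl⟩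
  obtain ⟨b₀, hb₀⟩ : ∃ b, b = xor (xor (decide (z₀.1.val % 2 = 1)) σh) (rest g.1) := ⟨_, rfl⟩
  have hπG : π ∣ gMod π R := ⟨π * R, by unfold gMod; ring⟩
  have hπE : π ∣ eMod π Q := dvd_mul_right _ _
  have hsel : ∀ x : Pts π Q, Sel (a₀ (g - place π R Q D r x)) x.1 z₀ ↔
      slicePat π q (g - place π R Q D r x).1 =
        xor (xor (decide (z₀.1.val % 2 = 1)) x.1) (rest g.1) := by
    intro x
    rw [sel_iff (ha₀ _) (fun u hu => hclock _ u hu)]
    have hr : rest (g - place π R Q D r x).1 = rest g.1 := by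
      rw [Prod.fst_sub, place_fst, Nat.cast_mul]
      exact (show Function.Periodic rest (D : ℤ) from hrest).sub_nat_mul_eq _
    simp only [hr]
    generalize decide (z₀.1.val % 2 = 1) = u₁
    generalize rest g.1 = u₂
    generalize slicePat π q (g - place π R Q D r x).1 = u₃
    cases x.1 <;> cases u₁ <;> cases u₂ <;> cases u₃ <;> decide
  have keyh : ∀ μ, (Sel (a₀ (g - place π R Q D r (σh, μ))) σh z₀ ∧
      z - lab π R Q k (σh, μ) ∈ col Φ hq c (g - place π R Q D r (σh, μ))) ↔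
      ∃ hs : fslot π q (slot (gMod π R) (g - place π R Q D r (σh, μ)).1 : ℕ) = b₀,
        (Φ b₀).symm (lo z.1, lo z.2) = Sum.inl (⟨_, hs⟩,
          ZMod.castHom hq (ZMod q) (hi z.2) - (jLab π R Q μ : ZMod q)) := by
    intro μ
    have ht : hType c (g - place π R Q D r (σh, μ)) = true := by
      rw [hType_place o hc, hσh]; cases hType c g <;> rfl
    rw [hsel (σh, μ), slice_eq hπG, ← hb₀, col, if_pos ht]
    exact ⟨fun h => ⟨h.1, (mem_hColOf Φ hq h2 _ h.1 z _ _).1 h.2⟩,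
      fun ⟨hs, h⟩ => ⟨hs, (mem_hColOf Φ hq h2 _ hs z _ _).2 h⟩⟩
  have keye : ∀ μ, (Sel (a₀ (g - place π R Q D r (!σh, μ))) (!σh) z₀ ∧
      z - lab π R Q k (!σh, μ) ∈ col Φ hq c (g - place π R Q D r (!σh, μ))) ↔
      ∃ hs : fslot π q (slot (eMod π Q) (g - place π R Q D r (!σh, μ)).1 : ℕ) = !b₀,
        (Φ b₀).symm (lo z.1, lo z.2) = Sum.inr (⟨_, hs⟩,
          ZMod.castHom (dvd_mul_right π π) (ZMod π) (hi z.1) - (iLab π Q (k && σh) μ : ZMod π)) := by
    intro μ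
    have ht : ¬ hType c (g - place π R Q D r (!σh, μ)) = true := by
      rw [hType_place o hc, hσh]; cases hType c g <;> simp
    have hb : xor (xor (decide (z₀.1.val % 2 = 1)) (!σh)) (rest g.1) = !b₀ := by
      rw [hb₀]
      generalize decide (z₀.1.val % 2 = 1) = u₁
      cases u₁ <;> cases σh <;> cases rest g.1 <;> rfl
    rw [hsel (!σh, μ), slice_eq hπE, hb, col, if_neg ht, lab, Bool.not_not]
    exact ⟨fun h => ⟨h.1, (mem_eColOf Φ h1 _ h.1 z _ _).1 h.2⟩,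
      fun ⟨hs, h⟩ => ⟨hs, (mem_eColOf Φ h1 _ hs z _ _).2 h⟩⟩
  have hcopG : (2 * D).Coprime (gMod π R) := o.cop.coprime_dvd_right
    (Nat.mul_dvd_mul_left _ ⟨q, by rw [o.eqQ, mul_comm]⟩)
  have hcopE : (2 * D).Coprime (eMod π Q) := o.cop.coprime_dvd_right
    (Nat.mul_dvd_mul_right (dvd_mul_right π π) Q)
  rcases hv : (Φ b₀).symm (lo z.1, lo z.2) with ⟨⟨s₀, hs₀⟩, J₀⟩ | ⟨⟨s₀, hs₀⟩, I₀⟩
  · obtain ⟨μ, ⟨hμs, hμj⟩, huniq⟩ := slot_unique (fun μ : Fin (hNum π Q) => uMap π R Q μ)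
      (fun μ => (jLab π R Q μ : ZMod q)) o.g_bij hcopG
      ((g.1 : ZMod (gMod π R)) - ((σh.toNat * D : ℕ) : ZMod (gMod π R)))
      ((s₀ : ℕ) : ZMod (gMod π R)) (ZMod.castHom hq (ZMod q) (hi z.2)) J₀
    rw [← slot_cast, ← slot_eq] at hμs
    refine ⟨(σh, μ), (keyh μ).2 ⟨by rw [hμs]; exact hs₀, ?_⟩, ?_⟩
    · rw [hv]
      subst hμs
      rw [hμj]
    · rintro ⟨σ, ν⟩ hx
      by_cases hσ : σ = σh
      · subst hσ
        obtain ⟨hs, he⟩ := (keyh ν).1 hx
        rw [hv] at he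
        simp only [Sum.inl.injEq, Prod.mk.injEq, Subtype.mk.injEq] at he
        rw [huniq ν ⟨by rw [← slot_cast, ← slot_eq]; exact he.1.symm, he.2.symm⟩]
      · obtain rfl : σ = !σh := by cases σ <;> cases σh <;> simp_all
        obtain ⟨hs, he⟩ := (keye ν).1 hx
        rw [hv] at he
        simp at he
  · obtain ⟨μ, ⟨hμs, hμj⟩, huniq⟩ := slot_unique (fun μ : Fin (hNum π Q) => uMap π R Q μ)
      (fun μ => (iLab π Q (k && σh) μ : ZMod π)) (o.e_bij (k && σh)) hcopE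
      ((g.1 : ZMod (eMod π Q)) - (((!σh).toNat * D : ℕ) : ZMod (eMod π Q)))
      ((s₀ : ℕ) : ZMod (eMod π Q)) (ZMod.castHom (dvd_mul_right π π) (ZMod π) (hi z.1)) I₀
    rw [← slot_cast, ← slot_eq] at hμs
    refine ⟨(!σh, μ), (keye μ).2 ⟨by rw [hμs]; exact hs₀, ?_⟩, ?_⟩
    · rw [hv]
      subst hμs
      rw [hμj]
    · rintro ⟨σ, ν⟩ hx
      by_cases hσ : σ = σh
      · subst hσ
        obtain ⟨hs, he⟩ := (keyh ν).1 hx
        rw [hv] at he
        simp at he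
      · obtain rfl : σ = !σh := by cases σ <;> cases σh <;> simp_all
        obtain ⟨hs, he⟩ := (keye ν).1 hx
        rw [hv] at he
        simp only [Sum.inr.injEq, Prod.mk.injEq, Subtype.mk.injEq] at he
        rw [huniq ν ⟨by rw [← slot_cast, ← slot_eq]; exact he.1.symm, he.2.symm⟩]

omit [NeZero (gMod π R)] [NeZero (eMod π Q)] in
/-- The block, with both periods and every line function. -/
theorem block (hBox : BoxPin) (hFill : FillPin) (o : Ok π q R Q D) :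
    (∀ k, (tile π R Q D r k).card = 80 * (π * π * Q)) ∧
      (∀ a₀ a, Cols (box 16 5) a₀ → Cols (box (π * π) Q) a →
        (∀ k, Tiles₂ (tile π R Q D r k) a₀ a) →
        (∀ X, Inv (a X) (egen (π * π) Q) ↔ ¬ Inv (a X) (hgen (π * π) Q)) ∧
        ∀ X, Inv (a (X + (2 * ((D * (π * Q) : ℕ) : ℤ)) • ((1 : ℤ), r))) (hgen (π * π) Q)
          ↔ Inv (a X) (hgen (π * π) Q)) ∧
      (∀ (rest : ℤ → Bool) (a₀ : ℤ × ℤ → Set (Blk 16 5)) (c : ℤ × ℤ → Bool),
        (∀ n, rest (n + D) = rest n) → Cols (box 16 5) a₀ →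
        HalfClock a₀ (fun n => xor (rest n) (slicePat π q n)) →
        (∀ X, c (X + ((1 : ℤ), r)) = c X) →
        ∃ a, Cols (box (π * π) Q) a ∧ (∀ k, Tiles₂ (tile π R Q D r k) a₀ a) ∧
          ∀ X, Inv (a X) (hgen (π * π) Q) ↔ xor (c X) (decide (X.1 % 2 = 1)) = true) := by
  refine ⟨card_tile o, fun a₀ a ha₀ ha hT => ⟨inv_iff hBox o ha₀ ha hT, inv_period o ha₀ hT⟩, ?_⟩
  intro rest a₀ c hrest ha₀ hclock hc
  have : NeZero (gMod π R) := ⟨o.gMod_pos.ne'⟩
  have : NeZero (eMod π Q) := ⟨o.eMod_pos.ne'⟩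
  choose Φ h2 h1 using fun b => exists_groupsOf hFill o b
  have hq : q ∣ Q := ⟨R, o.eqQ⟩
  have ha : Cols (box (π * π) Q) (col Φ hq c) := isTiling_col Φ hq c
  have hT := tiles_col (r := r) o Φ hq h2 h1 hrest ha₀ hclock hc
  refine ⟨_, ha, hT, fun X => ⟨fun h => ?_, fun h => ?_⟩⟩
  · by_contra hn
    refine not_both o ha₀ ha (hT false) X ⟨h, ?_⟩
    rw [col, if_neg (show ¬ hType c X = true from hn)]
    exact inv_egen_eCol _ _
  · rw [col, if_pos (show hType c X = true from h)]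
    exact inv_hgen_hCol _ _

end Parity

/-- The parity block exists. -/
theorem parityPin_of (hBox : BoxPin) (hFill : FillPin) : ParityPin := by
  intro π q B D r hπ hq h2 hlt hbig hD hDπ hDq
  have hB : 1 ≤ B := by
    rcases Nat.eq_zero_or_pos B with rfl | h
    · have := hπ.two_le
      have : 4 ≤ π * π := Nat.mul_le_mul this this
      simp at hbig
      omega
    · exact h
  have o : Parity.Ok π q (q ^ (B - 1)) (q ^ B) D :=
    { primePi := hπ, primeQ := hq, two_lt := h2, lt := hlt, big := hbig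
      eqQ := by rw [← pow_succ', Nat.sub_add_cancel hB]
      oddD := hD
      cop := by
        have hπ2 : Nat.Coprime 2 π := (Nat.coprime_primes Nat.prime_two hπ).2 (by omega)
        have hq2 : Nat.Coprime 2 q := (Nat.coprime_primes Nat.prime_two hq).2 (by omega)
        exact ((hπ2.mul_left hDπ).mul_right (hπ2.mul_left hDπ)).mul_right
          ((hq2.mul_left hDq).pow_right B) }
  have : NeZero (π * π) := ⟨(Nat.mul_pos hπ.pos hπ.pos).ne'⟩
  have : NeZero (q ^ B) := ⟨(pow_pos hq.pos B).ne'⟩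
  have : NeZero π := ⟨hπ.ne_zero⟩
  have : NeZero q := ⟨hq.ne_zero⟩
  exact ⟨Bool, inferInstance, Parity.tile π (q ^ (B - 1)) (q ^ B) D r, Parity.block hBox hFill o⟩

/-- The parity block. -/
theorem parityPin : ParityPin := parityPin_of boxPin fillPin

end Vale.Agent.P043.Three
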