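import Vale.Agent.P043.Three.ParityMatrix

/-!
P043, dimension three, parity block: labels of the points of the tile.
-/

namespace Vale.Agent.P043.Three.Parity

variable (π q R Q : ℕ)

/-- The number of points of one slice in the block. -/
def hNum : ℕ := π * π * Q

/-- The two special points exchange their h slots. -/
def tauMap (μ : ℕ) : ℕ :=
  if μ = eMod π Q then gMod π R else if μ = gMod π R then eMod π Q else μ

/-- The place along the stride. -/
def uMap (μ : ℕ) : ℕ :=
  if μ = eMod π Q then 0 else if μ = gMod π R then eMod π Q + gMod π R else μ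

/-- The two points whose first labels are exchanged in the second equation. -/
def swapMap (k : Bool) (μ : ℕ) : ℕ :=
  if k then (if μ = 1 then 1 + eMod π Q else if μ = 1 + eMod π Q then 1 else μ) else μ

/-- The first label. -/
def iLab (k : Bool) (μ : ℕ) : ℕ := swapMap π Q k μ / eMod π Q

/-- The second label. -/
def jLab (μ : ℕ) : ℕ := tauMap π R Q μ / gMod π R

variable {π q R Q} {D : ℕ}

theorem Ok.R_pos (o : Ok π q R Q D) : 0 < R := by
  have h := o.big
  have : 0 < π * π := Nat.mul_pos o.primePi.pos o.primePi.pos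
  omega

theorem Ok.Q_pos (o : Ok π q R Q D) : 0 < Q := by
  rw [o.eqQ]; exact Nat.mul_pos o.primeQ.pos o.R_pos

theorem Ok.eMod_pos (o : Ok π q R Q D) : 0 < eMod π Q := Nat.mul_pos o.primePi.pos o.Q_pos

theorem Ok.gMod_pos (o : Ok π q R Q D) : 0 < gMod π R :=
  Nat.mul_pos (Nat.mul_pos o.primePi.pos o.primePi.pos) o.R_pos

theorem Ok.hNum_eq (_o : Ok π q R Q D) : hNum π Q = π * eMod π Q := by
  unfold hNum eMod; ring

theorem Ok.hNum_eq' (o : Ok π q R Q D) : hNum π Q = q * gMod π R := by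
  unfold hNum gMod; rw [o.eqQ]; ring

theorem Ok.eMod_lt (o : Ok π q R Q D) : eMod π Q < gMod π R := by
  have := o.lt
  unfold eMod gMod
  rw [o.eqQ, mul_assoc π π R]
  exact Nat.mul_lt_mul_of_pos_left (Nat.mul_lt_mul_of_pos_right this o.R_pos) o.primePi.pos

theorem Ok.one_lt_eMod (o : Ok π q R Q D) : 1 < eMod π Q :=
  lt_of_lt_of_le o.primePi.one_lt (Nat.le_mul_of_pos_right π o.Q_pos)

theorem Ok.one_add_ne (o : Ok π q R Q D) : 1 + eMod π Q ≠ gMod π R := by
  intro h
  have h1 : π ∣ gMod π R := ⟨π * R, by unfold gMod; ring⟩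
  have h2 : π ∣ eMod π Q := dvd_mul_right _ _
  rw [← h, Nat.dvd_add_left h2] at h1
  exact o.primePi.one_lt.ne' (Nat.dvd_one.1 h1)

theorem Ok.gMod_lt (o : Ok π q R Q D) : gMod π R < hNum π Q := by
  rw [o.hNum_eq']
  have := o.gMod_pos
  exact lt_mul_of_one_lt_left this o.primeQ.one_lt

theorem Ok.one_add_lt (o : Ok π q R Q D) : 1 + eMod π Q < hNum π Q := by
  have := o.eMod_lt
  have := o.gMod_lt
  omega

theorem Ok.swap_lt (o : Ok π q R Q D) (k : Bool) {μ : ℕ} (h : μ < hNum π Q) :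
    swapMap π Q k μ < hNum π Q := by
  have := o.one_add_lt
  unfold swapMap
  split_ifs <;> omega

theorem Ok.tau_lt (o : Ok π q R Q D) {μ : ℕ} (h : μ < hNum π Q) : tauMap π R Q μ < hNum π Q := by
  have := o.gMod_lt
  have := o.eMod_lt
  unfold tauMap
  split_ifs <;> omega

theorem Ok.iLab_lt (o : Ok π q R Q D) (k : Bool) {μ : ℕ} (h : μ < hNum π Q) : iLab π Q k μ < π := by
  have h1 := o.swap_lt k h
  rw [o.hNum_eq] at h1
  exact Nat.div_lt_of_lt_mul (by rwa [mul_comm (eMod π Q)])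

theorem Ok.jLab_lt (o : Ok π q R Q D) {μ : ℕ} (h : μ < hNum π Q) : jLab π R Q μ < q := by
  have h1 := o.tau_lt h
  rw [o.hNum_eq'] at h1
  exact Nat.div_lt_of_lt_mul (by rwa [mul_comm (gMod π R)])

theorem u_mod_g (μ : ℕ) : uMap π R Q μ % gMod π R = tauMap π R Q μ % gMod π R := by
  unfold uMap tauMap
  split_ifs
  · simp
  · simp
  · rfl

theorem Ok.u_mod_e (o : Ok π q R Q D) (k : Bool) (μ : ℕ) :
    uMap π R Q μ % eMod π Q = swapMap π Q k μ % eMod π Q := by
  have h1 := o.one_lt_eMod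
  have h2 := o.eMod_lt
  have h3 := o.one_add_ne
  unfold uMap swapMap
  cases k <;> simp only [Bool.false_eq_true, if_false, if_true] <;> split_ifs with a b c d <;>
    first
    | rfl
    | omega
    | (subst_vars; simp)

theorem swapMap_swap (k : Bool) (μ : ℕ) : swapMap π Q k (swapMap π Q k μ) = μ := by
  unfold swapMap
  cases k <;> simp only [Bool.false_eq_true, if_false, if_true]
  split_ifs <;> omega

theorem tauMap_tau (μ : ℕ) : tauMap π R Q (tauMap π R Q μ) = μ := by
  unfold tauMap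
  split_ifs <;> omega

/-- First labels and places determine the point. -/
theorem Ok.e_inj (o : Ok π q R Q D) (k : Bool) {μ ν : ℕ}
    (h1 : uMap π R Q μ % eMod π Q = uMap π R Q ν % eMod π Q)
    (h2 : iLab π Q k μ = iLab π Q k ν) : μ = ν := by
  rw [o.u_mod_e k, o.u_mod_e k] at h1
  have e := Nat.div_add_mod (swapMap π Q k μ) (eMod π Q)
  rw [h1, show swapMap π Q k μ / eMod π Q = swapMap π Q k ν / eMod π Q from h2, Nat.div_add_mod] at e
  have := congrArg (swapMap π Q k) e
  rw [swapMap_swap, swapMap_swap] at this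
  exact this.symm

/-- Second labels and places determine the point. -/
theorem g_inj {μ ν : ℕ} (h1 : uMap π R Q μ % gMod π R = uMap π R Q ν % gMod π R)
    (h2 : jLab π R Q μ = jLab π R Q ν) : μ = ν := by
  rw [u_mod_g, u_mod_g] at h1
  have e := Nat.div_add_mod (tauMap π R Q μ) (gMod π R)
  rw [h1, show tauMap π R Q μ / gMod π R = tauMap π R Q ν / gMod π R from h2, Nat.div_add_mod] at e
  have := congrArg (tauMap π R Q) e
  rw [tauMap_tau, tauMap_tau] at this
  exact this.symm

theorem Ok.e_bij (o : Ok π q R Q D) (k : Bool) [NeZero (eMod π Q)] [NeZero π] :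
    Function.Bijective fun μ : Fin (hNum π Q) =>
      (((uMap π R Q μ : ℕ) : ZMod (eMod π Q)), ((iLab π Q k μ : ℕ) : ZMod π)) := by
  refine (Fintype.bijective_iff_injective_and_card _).2 ⟨fun μ ν h => ?_, ?_⟩
  · simp only [Prod.mk.injEq] at h
    refine Fin.ext (o.e_inj k ?_ ?_)
    · simpa [ZMod.val_natCast] using congrArg ZMod.val h.1
    · have := congrArg ZMod.val h.2
      rwa [ZMod.val_natCast_of_lt (o.iLab_lt k μ.2), ZMod.val_natCast_of_lt (o.iLab_lt k ν.2)] at this
  · simp only [Fintype.card_fin, Fintype.card_prod, ZMod.card]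
    rw [o.hNum_eq, mul_comm]

theorem Ok.g_bij (o : Ok π q R Q D) [NeZero (gMod π R)] [NeZero q] :
    Function.Bijective fun μ : Fin (hNum π Q) =>
      (((uMap π R Q μ : ℕ) : ZMod (gMod π R)), ((jLab π R Q μ : ℕ) : ZMod q)) := by
  refine (Fintype.bijective_iff_injective_and_card _).2 ⟨fun μ ν h => ?_, ?_⟩
  · simp only [Prod.mk.injEq] at h
    refine Fin.ext (g_inj (π := π) (R := R) (Q := Q) ?_ ?_)
    · simpa [ZMod.val_natCast] using congrArg ZMod.val h.1
    · have := congrArg ZMod.val h.2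
      rwa [ZMod.val_natCast_of_lt (o.jLab_lt μ.2), ZMod.val_natCast_of_lt (o.jLab_lt ν.2)] at this
  · simp only [Fintype.card_fin, Fintype.card_prod, ZMod.card]
    rw [o.hNum_eq', mul_comm]

/-- Exactly one point lies in a given slot with a given label. -/
theorem slot_unique {M : ℕ} {X J : Type*} [AddCommGroup J] (uu : X → ℕ) (jj : X → J)
    (hb : Function.Bijective fun x => ((uu x : ZMod M), jj x)) {t : ℕ} (ht : t.Coprime M)
    (A s : ZMod M) (C0 J0 : J) :
    ∃! x, A - (t : ZMod M) * (uu x : ZMod M) = s ∧ C0 - jj x = J0 := by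
  obtain ⟨v, hv⟩ : ∃ v : ZMod M, (t : ZMod M) * v = 1 :=
    ⟨((ZMod.unitOfCoprime t ht)⁻¹ : (ZMod M)ˣ), by
      rw [← ZMod.coe_unitOfCoprime t ht, ← Units.val_mul, mul_inv_cancel, Units.val_one]⟩
  obtain ⟨x, hx, hu⟩ := hb.existsUnique (v * (A - s), C0 - J0)
  simp only [Prod.mk.injEq] at hx hu
  refine ⟨x, ⟨?_, ?_⟩, fun y hy => hu y ⟨?_, ?_⟩⟩
  · rw [hx.1, ← mul_assoc, hv, one_mul, sub_sub_cancel]
  · rw [hx.2, sub_sub_cancel]
  · rw [← hy.1, sub_sub_cancel, ← mul_assoc, mul_comm v, hv, one_mul]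
  · rw [← hy.2, sub_sub_cancel]

end Vale.Agent.P043.Three.Parity
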