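import Vale.Agent.P043.Three.Pins

/-!
P043, dimension three, parity block: the two zero-one matrices and their groups.
-/

namespace Vale.Agent.P043.Three.Parity

/-- Hypotheses on the numbers of a parity block, `Q = q R`. -/
structure Ok (π q R Q D : ℕ) : Prop where
  primePi : π.Prime
  primeQ : q.Prime
  two_lt : 2 < q
  lt : q < π
  big : π * π ≤ R
  eqQ : Q = q * R
  cop : (2 * D).Coprime (π * π * Q)
  oddD : Odd D

/-- The long modulus (of the e slots). -/
def eMod (π Q : ℕ) : ℕ := π * Q

/-- The short modulus (of the h slots). -/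
def gMod (π R : ℕ) : ℕ := π * π * R

/-- The threshold of the slices. -/
def kth (π q : ℕ) : ℕ := q * ((π - 1) / q)

/-- The slice of a natural slot. -/
def fslot (π q s : ℕ) : Bool := decide (kth π q ≤ s % π)

/-- Grouping by a key: all fibres divisible by the group size. -/
theorem exists_groups {α κ S J : Type*} [Fintype α] [DecidableEq κ] [Fintype κ] [Fintype S]
    [Fintype J] [Nonempty J] (key : α → κ) (hdiv : ∀ k, Fintype.card J ∣ Fintype.card {a // key a = k})
    (hcard : Fintype.card α = Fintype.card S * Fintype.card J) :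
    ∃ e : S × J ≃ α, ∀ s j j', key (e (s, j)) = key (e (s, j')) := by
  classical
  let m : κ → ℕ := fun k => Fintype.card {a // key a = k} / Fintype.card J
  have hm : ∀ k, Fintype.card (Fin (m k) × J) = Fintype.card {a // key a = k} := fun k => by
    simp [m, Nat.div_mul_cancel (hdiv k)]
  let e' : (Σ k, Fin (m k)) × J ≃ α :=
    (Equiv.sigmaProdDistrib _ _).trans
      ((Equiv.sigmaCongrRight fun k => Fintype.equivOfCardEq (hm k)).trans (Equiv.sigmaFiberEquiv key))
  have hS : Fintype.card S = Fintype.card (Σ k, Fin (m k)) := by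
    have h1 := Fintype.card_congr e'
    rw [Fintype.card_prod, hcard] at h1
    exact (Nat.eq_of_mul_eq_mul_right Fintype.card_pos h1).symm
  refine ⟨((Fintype.equivOfCardEq hS).prodCongr (Equiv.refl J)).trans e', fun s j j' => ?_⟩
  have h : ∀ (x : Σ k, Fin (m k)) (j : J), key (e' (x, j)) = x.1 := fun x j =>
    ((Fintype.equivOfCardEq (hm x.1)) (x.2, j)).2
  simp [h]

/-- Splitting a finite type in row groups of a part and column groups of the rest. -/
theorem exists_split {X Y S S' J I : Type*} [Fintype X] [Fintype Y] [DecidableEq X] [DecidableEq Y]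
    [Fintype S] [Fintype S'] [Fintype J] [Fintype I] [Nonempty J] [Nonempty I] (C : Finset (X × Y))
    (hrow : ∀ y, Fintype.card J ∣ (C.filter fun u => u.2 = y).card)
    (hcol : ∀ x, Fintype.card I ∣ Fintype.card Y - (C.filter fun u => u.1 = x).card)
    (hC : C.card = Fintype.card S * Fintype.card J)
    (htot : Fintype.card X * Fintype.card Y = C.card + Fintype.card S' * Fintype.card I) :
    ∃ e : (S × J) ⊕ (S' × I) ≃ X × Y,
      (∀ s j j', (e (Sum.inl (s, j))).2 = (e (Sum.inl (s, j'))).2) ∧
      ∀ s i i', (e (Sum.inr (s, i))).1 = (e (Sum.inr (s, i'))).1 := by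
  classical
  obtain ⟨e₁, h₁⟩ := exists_groups (α := {u : X × Y // u ∈ C}) (S := S) (J := J) (fun u => u.1.2)
    (fun y => by
      convert hrow y using 1
      rw [← Fintype.card_coe]
      exact Fintype.card_congr ((Equiv.subtypeSubtypeEquivSubtypeInter (fun u => u ∈ C)
        (fun u : X × Y => u.2 = y)).trans (Equiv.subtypeEquivRight fun u => by simp)))
    (by simpa using hC)
  obtain ⟨e₂, h₂⟩ := exists_groups (α := {u : X × Y // u ∉ C}) (S := S') (J := I) (fun u => u.1.1)
    (fun x => by
      convert hcol x using 1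
      have hall : ((Finset.univ : Finset (X × Y)).filter fun u => u.1 = x).card = Fintype.card Y := by
        rw [← Fintype.card_subtype]
        exact Fintype.card_congr ⟨fun u => u.1.2, fun y => ⟨(x, y), rfl⟩,
          fun u => Subtype.ext (Prod.ext u.2.symm rfl), fun y => rfl⟩
      rw [← hall, ← Finset.card_sdiff_of_subset (Finset.filter_subset_filter _ (Finset.subset_univ C)),
        ← Fintype.card_coe]
      exact Fintype.card_congr ((Equiv.subtypeSubtypeEquivSubtypeInter (fun u => u ∉ C)
        (fun u : X × Y => u.1 = x)).trans (Equiv.subtypeEquivRight fun u => by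
          simp [Finset.mem_sdiff]; tauto)))
    (by
      have h := Fintype.card_subtype_compl (fun u : X × Y => u ∈ C)
      rw [h, Fintype.card_prod, Fintype.card_coe]
      omega)
  refine ⟨(Equiv.sumCongr e₁ e₂).trans (Equiv.sumCompl fun u => u ∈ C), fun s j j' => ?_, fun s i i' => ?_⟩
  · simpa using h₁ s j j'
  · simpa using h₂ s i i'

/-- Column sums of prescribed residue. -/
theorem exists_sums (p r0 step K T : ℕ) (hp : 0 < p) (hr : r0 ≤ K)
    (hT : T ≤ p * ((K - r0) / step)) :
    ∃ c : Fin p → ℕ, (∀ x, c x ≤ K) ∧ (∀ x, ∃ a, c x = r0 + step * a) ∧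
      ∑ x, c x = p * r0 + step * T := by
  refine ⟨fun x => r0 + step * (T / p + if (x : ℕ) < T % p then 1 else 0), fun x => ?_,
    fun x => ⟨_, rfl⟩, ?_⟩
  · have key : T / p + (if (x : ℕ) < T % p then 1 else 0) ≤ (K - r0) / step := by
      have h1 := Nat.div_add_mod T p
      have h2 : T / p ≤ (K - r0) / step := Nat.div_le_of_le_mul hT
      split_ifs with h
      · by_contra hc
        have h3 : T / p = (K - r0) / step := by omega
        have h4 : 0 < T % p := by omega
        rw [h3] at h1
        omega
      · omega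
    have h5 := Nat.mul_le_mul_left step key
    have h6 := Nat.mul_div_le (K - r0) step
    exact (Nat.add_le_add_left (h5.trans h6) r0).trans (by omega)
  · have hcount : ∑ x : Fin p, (if (x : ℕ) < T % p then 1 else 0) = T % p := by
      rw [Finset.sum_boole, Fin.card_filter_val_lt, Nat.cast_id, min_eq_right]
      exact (Nat.mod_lt T hp).le
    simp only [Finset.sum_add_distrib, ← Finset.mul_sum, hcount, Finset.sum_const, Finset.card_univ,
      Fintype.card_fin, smul_eq_mul]
    rw [Nat.div_add_mod]

/-- The number of slots of one slice. -/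
theorem card_slice {π q M : ℕ} (hπ : 0 < π) (hk : kth π q ≤ π) (b : Bool) :
    Fintype.card {s : Fin (π * M) // fslot π q s = b} =
      (if b then π - kth π q else kth π q) * M := by
  let e : Fin M × Fin π ≃ Fin (π * M) := finProdFinEquiv.trans (finCongr (mul_comm M π))
  have he : ∀ u, fslot π q (e u) = decide (kth π q ≤ (u.2 : ℕ)) := fun u => by
    simp [fslot, e, finProdFinEquiv, Nat.add_mod, Nat.mod_eq_of_lt u.2.2]
  rw [← Fintype.card_congr (e.subtypeEquiv (p := fun u : Fin M × Fin π => decide (kth π q ≤ (u.2 : ℕ)) = b)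
    (q := fun s : Fin (π * M) => fslot π q s = b) fun u => by simp [he]), Fintype.card_subtype,
    show (Finset.univ.filter fun u : Fin M × Fin π => decide (kth π q ≤ (u.2 : ℕ)) = b) =
      Finset.univ ×ˢ (Finset.univ.filter fun u : Fin π => decide (kth π q ≤ (u : ℕ)) = b) by
        ext u; simp, Finset.card_product, Finset.card_univ, Fintype.card_fin, mul_comm M]
  congr 1
  have hlt : ((Finset.univ : Finset (Fin π)).filter fun u : Fin π => (u : ℕ) < kth π q).card = kth π q := by
    rw [Fin.card_filter_val_lt, min_eq_right hk]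
  cases b
  · simpa using hlt
  · have := Finset.card_filter_add_card_filter_not (s := (Finset.univ : Finset (Fin π)))
      (fun u : Fin π => (u : ℕ) < kth π q)
    simp only [not_lt, hlt, Finset.card_univ, Fintype.card_fin] at this
    simp only [decide_eq_true_eq, if_true]
    omega

variable {π q R Q D : ℕ}

theorem Ok.kth_lt (o : Ok π q R Q D) : kth π q < π := by
  have h1 := Nat.mul_div_le (π - 1) q
  have := o.primePi.pos
  unfold kth
  omega

theorem Ok.rest_le (o : Ok π q R Q D) : π - kth π q ≤ q := by
  have h1 := Nat.div_add_mod (π - 1) q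
  have h2 := Nat.mod_lt (π - 1) o.primeQ.pos
  unfold kth
  omega

/-- The matrix of one slice. -/
theorem exists_matrix (hFill : FillPin) (o : Ok π q R Q D) [NeZero (π * π)] [NeZero Q] (b : Bool) :
    ∃ C : Finset (ZMod (π * π) × ZMod Q),
      (∀ y, q ∣ (C.filter fun u => u.2 = y).card) ∧
      (∀ x, π ∣ Q - (C.filter fun u => u.1 = x).card) ∧
      C.card = (if b then π - kth π q else kth π q) * (π * Q) := by
  classical
  have hπ := o.primePi.pos
  have hR : π * π ≤ R := o.big
  have hQ := o.eqQ
  have hk := o.kth_lt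
  have hr := o.rest_le
  obtain ⟨r0, hr0⟩ : ∃ z, z = Q % π := ⟨_, rfl⟩
  have hr0lt : r0 < π := hr0 ▸ Nat.mod_lt _ hπ
  have hQdiv := Nat.div_add_mod Q π
  rw [← hr0] at hQdiv
  obtain ⟨t, ht⟩ : ∃ z, z = if b then π - kth π q else kth π q := ⟨_, rfl⟩
  obtain ⟨K, hK⟩ : ∃ z, z = if b then (π - kth π q) * R else Q := ⟨_, rfl⟩
  obtain ⟨L, hL⟩ : ∃ z, z = if b then π * q else kth π q * π := ⟨_, rfl⟩
  have hKQ : K ≤ Q := by
    rw [hK]
    cases b
    · simp
    · simp only [if_true, hQ]; exact Nat.mul_le_mul_right R hr
  have hKL : t * (π * Q) = K * L := by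
    rw [ht, hK, hL, hQ]
    cases b <;> simp only [if_true, Bool.false_eq_true, if_false] <;> ring
  have hqL : q ∣ L := by
    rw [hL]
    cases b
    · simp only [Bool.false_eq_true, if_false, kth, mul_assoc]; exact dvd_mul_right _ _
    · simp only [if_true]; exact dvd_mul_left _ _
  have ht1 : t ≤ π := by rw [ht]; cases b <;> simp <;> omega
  have hKR : π * π ≤ K := by
    rw [hK]
    cases b
    · simp only [Bool.false_eq_true, if_false, hQ]
      exact hR.trans (Nat.le_mul_of_pos_left R o.primeQ.pos)
    · simp only [if_true]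
      exact hR.trans (Nat.le_mul_of_pos_left R (by omega))
  have hπ0 : π * r0 ≤ t * Q := by
    have h1 : π * r0 ≤ π * π := Nat.mul_le_mul_left π hr0lt.le
    have h2 : 1 ≤ t := by
      rw [ht]
      cases b
      · simp only [Bool.false_eq_true, if_false, kth]
        have : q ≤ π - 1 := by have := o.lt; omega
        exact Nat.mul_pos o.primeQ.pos (Nat.div_pos this o.primeQ.pos)
      · simp only [if_true]; omega
    have h3 : π * π ≤ Q := (hKR.trans hKQ)
    calc π * r0 ≤ 1 * Q := by rw [one_mul]; exact h1.trans h3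
      _ ≤ t * Q := Nat.mul_le_mul_right Q h2
  have hcap : t * Q - π * r0 ≤ π * π * ((K - r0) / π) := by
    have h1 := Nat.div_add_mod (K - r0) π
    have h2 := Nat.mod_lt (K - r0) hπ
    cases b
    · simp only [Bool.false_eq_true, if_false] at hK ht
      subst hK
      have h3 : K - r0 = π * (K / π) := by omega
      rw [h3, Nat.mul_div_cancel_left _ hπ]
      have h4 : t * K ≤ π * K := Nat.mul_le_mul_right K ht1
      have h5 : π * K = π * π * (K / π) + π * r0 := by
        conv_lhs => rw [← hQdiv]
        ring
      omega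
    · simp only [if_true] at hK ht
      have h3 : t * Q = q * K := by rw [hK, ← ht, hQ]; ring
      have h4 : q * K + 2 * K ≤ π * K := by
        have : q + 2 ≤ π := by
          obtain ⟨a, ha⟩ := o.primePi.odd_of_ne_two (by have := o.lt; have := o.two_lt; omega)
          obtain ⟨a', ha'⟩ := o.primeQ.odd_of_ne_two (by have := o.two_lt; omega)
          have := o.lt
          omega
        calc q * K + 2 * K = (q + 2) * K := by ring
          _ ≤ π * K := Nat.mul_le_mul_right K this
      have h5 : π * K ≤ π * π * ((K - r0) / π) + 2 * (π * π) := by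
        calc π * K ≤ π * (π * ((K - r0) / π) + 2 * π) := Nat.mul_le_mul_left π (by omega)
          _ = _ := by ring
      omega
  obtain ⟨c, hc1, hc2, hc3⟩ := exists_sums (π * π) r0 π K (t * Q - π * r0) (Nat.mul_pos hπ hπ)
    ((hr0lt.le.trans (Nat.le_mul_self π)).trans hKR) hcap
  have hsum : ∑ x, c x = K * L := by
    rw [hc3, ← hKL]
    have h1 : π * (t * Q - π * r0) + π * (π * r0) = π * (t * Q) := by
      rw [← Nat.mul_add, Nat.sub_add_cancel hπ0]
    calc π * π * r0 + π * (t * Q - π * r0) = π * (t * Q) := by rw [← h1]; ring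
      _ = _ := by ring
  obtain ⟨C, hC1, hC2⟩ := hFill (π * π) K L c hc1 hsum
  let emb : Fin (π * π) × Fin K ↪ ZMod (π * π) × ZMod Q :=
    ⟨fun u => ((u.1 : ℕ), (u.2 : ℕ)), fun u v h => by
      simp only [Prod.mk.injEq] at h
      have e1 := congrArg ZMod.val h.1
      have e2 := congrArg ZMod.val h.2
      rw [ZMod.val_natCast_of_lt u.1.2, ZMod.val_natCast_of_lt v.1.2] at e1
      rw [ZMod.val_natCast_of_lt (u.2.2.trans_le hKQ), ZMod.val_natCast_of_lt (v.2.2.trans_le hKQ)] at e2
      exact Prod.ext (Fin.ext e1) (Fin.ext e2)⟩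
  have hemb : ∀ u, emb u = (((u.1 : ℕ) : ZMod (π * π)), ((u.2 : ℕ) : ZMod Q)) := fun u => rfl
  refine ⟨C.map emb, fun y => ?_, fun x => ?_, ?_⟩
  · rw [Finset.filter_map, Finset.card_map]
    by_cases hy : y.val < K
    · have : C.filter ((fun u : ZMod (π * π) × ZMod Q => u.2 = y) ∘ emb) =
          C.filter fun u => u.2 = ⟨y.val, hy⟩ := by
        refine Finset.filter_congr fun u _ => ?_
        simp only [Function.comp_apply, hemb]
        constructor
        · rintro rfl
          exact Fin.ext (ZMod.val_natCast_of_lt (u.2.2.trans_le hKQ)).symm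
        · intro h; rw [h]; exact ZMod.natCast_zmod_val y
      rw [this, hC2]
      exact hqL
    · have : C.filter ((fun u : ZMod (π * π) × ZMod Q => u.2 = y) ∘ emb) = ∅ := by
        refine Finset.filter_eq_empty_iff.2 fun u _ h => hy ?_
        simp only [Function.comp_apply, hemb] at h
        rw [← h, ZMod.val_natCast_of_lt (u.2.2.trans_le hKQ)]
        exact u.2.2
      rw [this, Finset.card_empty]
      exact dvd_zero q
  · rw [Finset.filter_map, Finset.card_map]
    have : C.filter ((fun u : ZMod (π * π) × ZMod Q => u.1 = x) ∘ emb) =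
        C.filter fun u => u.1 = ⟨x.val, ZMod.val_lt x⟩ := by
      refine Finset.filter_congr fun u _ => ?_
      simp only [Function.comp_apply, hemb]
      constructor
      · rintro rfl
        exact Fin.ext (ZMod.val_natCast_of_lt u.1.2).symm
      · intro h; rw [h]; exact ZMod.natCast_zmod_val x
    rw [this, hC1]
    obtain ⟨a, ha⟩ := hc2 ⟨x.val, ZMod.val_lt x⟩
    rw [ha]
    refine ⟨Q / π - a, ?_⟩
    rw [Nat.mul_sub]
    omega
  · rw [Finset.card_map, Finset.card_eq_sum_card_fiberwise (f := fun u => u.1) (t := Finset.univ)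
      (fun u _ => Finset.mem_univ _)]
    simp only [hC1]
    rw [hsum, ← hKL, ht]

/-- The groups of a slice: h slots of the slice and e slots of the other. -/
theorem exists_groupsOf (hFill : FillPin) (o : Ok π q R Q D) [NeZero (π * π)] [NeZero Q] [NeZero π]
    [NeZero q] (b : Bool) :
    ∃ e : ({s : Fin (gMod π R) // fslot π q s = b} × ZMod q) ⊕
        ({s : Fin (eMod π Q) // fslot π q s = !b} × ZMod π) ≃ ZMod (π * π) × ZMod Q,
      (∀ s j j', (e (Sum.inl (s, j))).2 = (e (Sum.inl (s, j'))).2) ∧
      ∀ s i i', (e (Sum.inr (s, i))).1 = (e (Sum.inr (s, i'))).1 := by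
  classical
  obtain ⟨C, hrow, hcol, hC⟩ := exists_matrix hFill o b
  have hk := o.kth_lt.le
  have hg : Fintype.card {s : Fin (gMod π R) // fslot π q s = b} =
      (if b then π - kth π q else kth π q) * (π * R) := by
    rw [← card_slice o.primePi.pos hk b]
    exact Fintype.card_congr ((finCongr (by unfold gMod; ring)).subtypeEquiv fun s => Iff.rfl)
  have he : Fintype.card {s : Fin (eMod π Q) // fslot π q s = !b} =
      (if !b then π - kth π q else kth π q) * Q := card_slice o.primePi.pos hk (!b)
  refine exists_split C (fun y => by simpa using hrow y) (fun x => by simpa using hcol x) ?_ ?_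
  · rw [hC, hg, ZMod.card, o.eqQ]; ring
  · rw [hC, he, ZMod.card, ZMod.card, ZMod.card]
    obtain ⟨k, hkd⟩ : ∃ k, π = kth π q + k := ⟨π - kth π q, by omega⟩
    rw [show π - kth π q = k by omega]
    cases b <;> simp only [Bool.not_false, Bool.not_true, if_true, Bool.false_eq_true, if_false] <;>
      (generalize kth π q = m at hkd ⊢; subst hkd; ring)

end Vale.Agent.P043.Three.Parity
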