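import Vale.Agent.P043.Three.ParityLabels
import Vale.Agent.P043.Three.Columns

/-!
P043, dimension three, parity block: the two equations and their soundness.
-/

namespace Vale.Agent.P043.Three.Parity

variable (π q R Q D : ℕ) (r : ℤ)

/-- The points of one equation, before the clock digits. -/
abbrev Pts := Bool × Fin (hNum π Q)

/-- The place of a point. -/
def place (x : Pts π Q) : ℤ × ℤ :=
  (((2 * uMap π R Q x.2 + x.1.toNat) * D : ℕ) : ℤ) • ((1 : ℤ), r)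

/-- The block part of a point; the second equation exchanges among the even ones. -/
def lab (k : Bool) (x : Pts π Q) : Blk (π * π) Q :=
  pt (π * π) Q (iLab π Q (k && !x.1) x.2) (jLab π R Q x.2)

/-- A clock digit of parity `σ`. -/
def rd (σ : Bool) (d : Fin 8 × Fin 5) : Blk 16 5 :=
  (((σ.toNat + 2 * (d.1 : ℕ) : ℕ) : ZMod (16 * 16)), ((d.2 : ℕ) : ZMod (5 * 5)))

/-- The point of the clock block is reached by a digit of parity `σ`. -/
def Sel (A : Set (Blk 16 5)) (σ : Bool) (z : Blk 16 5) : Prop := ∃ d, z - rd σ d ∈ A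

/-- The tile of one equation. -/
def tile (k : Bool) : Finset ((ℤ × ℤ) × (Blk 16 5 × Blk (π * π) Q)) :=
  Finset.univ.image fun y : Pts π Q × (Fin 8 × Fin 5) =>
    (place π R Q D r y.1, (rd y.1.1 y.2, lab π R Q k y.1))

variable {π q R Q D r}

theorem rd_mem_box (σ : Bool) (d : Fin 8 × Fin 5) : rd σ d ∈ box 16 5 := by
  refine mem_box.2 ⟨σ.toNat + 2 * d.1, d.2, ?_, d.2.2, rfl⟩
  have := d.1.2
  cases σ <;> simp <;> omega

theorem rd_inj {σ τ : Bool} {d e : Fin 8 × Fin 5} (h : rd σ d = rd τ e) : σ = τ ∧ d = e := by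
  simp only [rd, Prod.mk.injEq] at h
  have h1 := congrArg ZMod.val h.1
  have h2 := congrArg ZMod.val h.2
  have := d.1.2
  have := e.1.2
  have := d.2.2
  have := e.2.2
  rw [ZMod.val_natCast_of_lt (by cases σ <;> simp <;> omega),
    ZMod.val_natCast_of_lt (by cases τ <;> simp <;> omega)] at h1
  rw [ZMod.val_natCast_of_lt (by omega), ZMod.val_natCast_of_lt (by omega)] at h2
  have hσ : σ = τ := by cases σ <;> cases τ <;> simp at h1 ⊢ <;> omega
  subst hσ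
  exact ⟨rfl, Prod.ext (Fin.ext (by omega)) (Fin.ext h2)⟩

theorem rd_unique {A : Set (Blk 16 5)} (hA : IsTiling (box 16 5) A) {σ : Bool} {d e : Fin 8 × Fin 5}
    {z : Blk 16 5} (hd : z - rd σ d ∈ A) (he : z - rd σ e ∈ A) : d = e := by
  obtain ⟨f, -, hu⟩ := hA z
  exact (rd_inj ((hu _ ⟨rd_mem_box σ d, hd⟩).trans (hu _ ⟨rd_mem_box σ e, he⟩).symm)).2

theorem exists_sel {A : Set (Blk 16 5)} (hA : IsTiling (box 16 5) A) (σ : Bool) : ∃ z, Sel A σ z := by
  obtain ⟨z, hz⟩ := nonempty_of_isTiling hA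
  exact ⟨z + rd σ (0, 0), (0, 0), by simpa using hz⟩

theorem place_fst (x : Pts π Q) :
    (place π R Q D r x).1 = (((2 * uMap π R Q x.2 + x.1.toNat) * D : ℕ) : ℤ) := by
  simp [place]

theorem place_lab_inj (o : Ok π q R Q D) (k : Bool) :
    Function.Injective fun x : Pts π Q => (place π R Q D r x, lab π R Q k x) := by
  intro x y h
  simp only [Prod.mk.injEq] at h
  have h1 := congrArg Prod.fst h.1
  rw [place_fst, place_fst, Int.ofNat_inj] at h1
  have hu := Nat.eq_of_mul_eq_mul_right o.oddD.pos h1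
  have hσ : x.1 = y.1 := by
    rcases x with ⟨a, μ⟩; rcases y with ⟨b, ν⟩
    cases a <;> cases b <;> simp at hu ⊢ <;> omega
  have hu' : uMap π R Q x.2 = uMap π R Q y.2 := by rw [hσ] at hu; omega
  have hi := congrArg (fun z : Blk (π * π) Q => z.1.val) h.2
  simp only [lab, pt] at hi
  rw [← Nat.cast_mul, ← Nat.cast_mul, Int.cast_natCast, Int.cast_natCast] at hi
  have hlt : ∀ {μ} (c : Bool), μ < hNum π Q → π * π * iLab π Q c μ < π * π * (π * π) := fun c hμ =>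
    Nat.mul_lt_mul_of_pos_left ((o.iLab_lt c hμ).trans_le (Nat.le_mul_self π))
      (Nat.mul_pos o.primePi.pos o.primePi.pos)
  rw [hσ, ZMod.val_natCast_of_lt (hlt _ x.2.2), ZMod.val_natCast_of_lt (hlt _ y.2.2)] at hi
  have hi' := Nat.eq_of_mul_eq_mul_left (Nat.mul_pos o.primePi.pos o.primePi.pos) hi
  exact Prod.ext hσ (Fin.ext (o.e_inj (k && !y.1) (congrArg (· % eMod π Q) hu') hi'))

theorem tile_map_inj (o : Ok π q R Q D) (k : Bool) :
    Function.Injective fun y : Pts π Q × (Fin 8 × Fin 5) =>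
      (place π R Q D r y.1, (rd y.1.1 y.2, lab π R Q k y.1)) := by
  intro y y' h
  simp only [Prod.mk.injEq] at h
  exact Prod.ext (place_lab_inj o k (Prod.ext h.1 h.2.2)) (rd_inj h.2.1).2

theorem card_tile (o : Ok π q R Q D) (k : Bool) :
    (tile π R Q D r k).card = 80 * (π * π * Q) := by
  rw [tile, Finset.card_image_of_injective _ (tile_map_inj o k)]
  simp only [Finset.card_univ, Fintype.card_prod, Fintype.card_bool, Fintype.card_fin (hNum π Q),
    Fintype.card_fin 8, Fintype.card_fin 5]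
  unfold hNum
  ring

/-- An equation, read on points. -/
theorem tiles_iff (o : Ok π q R Q D) (k : Bool) {a₀ : ℤ × ℤ → Set (Blk 16 5)}
    (ha : Cols (box 16 5) a₀) {a : ℤ × ℤ → Set (Blk (π * π) Q)} :
    Tiles₂ (tile π R Q D r k) a₀ a ↔ ∀ g z₀ z, ∃! x : Pts π Q,
      Sel (a₀ (g - place π R Q D r x)) x.1 z₀ ∧
        z - lab π R Q k x ∈ a (g - place π R Q D r x) := by
  constructor
  · intro h g z₀ z
    obtain ⟨f, ⟨hf, h0, h1⟩, hu⟩ := h g z₀ z
    obtain ⟨⟨x, d⟩, -, rfl⟩ := Finset.mem_image.1 hf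
    refine ⟨x, ⟨⟨d, h0⟩, h1⟩, ?_⟩
    rintro y ⟨⟨e, he⟩, h2⟩
    exact congrArg Prod.fst (tile_map_inj o k
      (hu _ ⟨Finset.mem_image_of_mem _ (Finset.mem_univ (y, e)), he, h2⟩))
  · intro h g z₀ z
    obtain ⟨x, ⟨⟨d, h0⟩, h1⟩, hu⟩ := h g z₀ z
    refine ⟨_, ⟨Finset.mem_image_of_mem _ (Finset.mem_univ (x, d)), h0, h1⟩, ?_⟩
    rintro f ⟨hf, he, h2⟩
    obtain ⟨⟨y, e⟩, -, rfl⟩ := Finset.mem_image.1 hf
    obtain rfl := hu y ⟨⟨e, he⟩, h2⟩
    obtain rfl := rd_unique (ha _) he h0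
    rfl

/-- The double: never both periods. -/
theorem not_both (o : Ok π q R Q D) [NeZero (π * π)] [NeZero Q]
    {a₀ : ℤ × ℤ → Set (Blk 16 5)} (ha₀ : Cols (box 16 5) a₀) {a : ℤ × ℤ → Set (Blk (π * π) Q)}
    (ha : Cols (box (π * π) Q) a) (hT : Tiles₂ (tile π R Q D r false) a₀ a) (X : ℤ × ℤ) :
    ¬ (Inv (a X) (hgen (π * π) Q) ∧ Inv (a X) (egen (π * π) Q)) := by
  rintro ⟨hh, he⟩
  rw [hgen_eq_pt] at hh
  rw [egen_eq_pt] at he
  have hd : Inv (a X) (pt (π * π) Q 1 1) := by simpa [pt_add] using hh.add he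
  obtain ⟨z₀, hz₀⟩ := exists_sel (ha₀ X) false
  obtain ⟨z, hz⟩ := nonempty_of_isTiling (ha X)
  have hH : eMod π Q < hNum π Q := o.eMod_lt.trans o.gMod_lt
  have h0 : 0 < hNum π Q := Nat.zero_lt_of_lt hH
  have hG := o.gMod_pos
  have hne := o.eMod_lt.ne
  obtain ⟨w, -, hu⟩ := (tiles_iff o false ha₀).1 hT X z₀ z
  have e0 : place π R Q D r ((false, ⟨0, h0⟩) : Pts π Q) = 0 := by
    simp [place, uMap, o.eMod_pos.ne, hG.ne]
  have eE : place π R Q D r ((false, ⟨eMod π Q, hH⟩) : Pts π Q) = 0 := by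
    simp [place, uMap]
  have l0 : lab π R Q false ((false, ⟨0, h0⟩) : Pts π Q) = pt (π * π) Q 0 0 := by
    simp [lab, iLab, jLab, swapMap, tauMap, o.eMod_pos.ne, hG.ne]
  have lE : lab π R Q false ((false, ⟨eMod π Q, hH⟩) : Pts π Q) = pt (π * π) Q 1 1 := by
    simp [lab, iLab, jLab, swapMap, tauMap, Nat.div_self o.eMod_pos, Nat.div_self hG]
  have h1 := hu (false, ⟨0, h0⟩) ⟨by rw [e0, sub_zero]; exact hz₀, by
    rw [e0, l0, sub_zero]; simpa [pt, Prod.mk_zero_zero] using hz⟩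
  have h2 := hu (false, ⟨eMod π Q, hH⟩) ⟨by rw [eE, sub_zero]; exact hz₀, by
    rw [eE, lE, sub_zero]
    exact (hd _).1 (by simpa using hz)⟩
  have := congrArg (fun x : Pts π Q => (x.2 : ℕ)) (h1.trans h2.symm)
  simp only at this
  exact o.eMod_pos.ne this

theorem pt_zero_eq {p Q : ℕ} (c : ℤ) : pt p Q c 0 = c • hgen p Q := by
  simp [pt, hgen, zsmul_eq_mul, mul_comm]

/-- A member with the first period forces its exchange partner to have it. -/
theorem exchange_step (o : Ok π q R Q D) {a₀ : ℤ × ℤ → Set (Blk 16 5)} (ha₀ : Cols (box 16 5) a₀)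
    {a : ℤ × ℤ → Set (Blk (π * π) Q)} (hT : ∀ k, Tiles₂ (tile π R Q D r k) a₀ a)
    {μ₁ μ₂ : Fin (hNum π Q)}
    (hμ : (μ₁ : ℕ) = 1 ∧ (μ₂ : ℕ) = 1 + eMod π Q ∨ (μ₁ : ℕ) = 1 + eMod π Q ∧ (μ₂ : ℕ) = 1)
    (g : ℤ × ℤ)
    (h : Inv (a (g - place π R Q D r (false, μ₁))) (hgen (π * π) Q)) :
    Inv (a (g - place π R Q D r (false, μ₂))) (hgen (π * π) Q) := by
  classical
  have hE := o.one_lt_eMod
  have hne : ((false, μ₁) : Pts π Q) ≠ (false, μ₂) := by
    simp only [ne_eq, Prod.mk.injEq, true_and, Fin.ext_iff]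
    omega
  obtain ⟨z₀, hz₀⟩ := exists_sel (ha₀ (g - place π R Q D r (false, μ₂))) false
  let φ : Bool → Pts π Q → (Bool × (ℤ × ℤ)) × Blk (π * π) Q :=
    fun k x => ((x.1, place π R Q D r x), lab π R Q k x)
  have hφ : ∀ k, Function.Injective (φ k) := fun k x y e => by
    simp only [φ, Prod.mk.injEq] at e
    exact place_lab_inj o k (Prod.ext e.1.2 e.2)
  have hag : ∀ x : Pts π Q, x ≠ (false, μ₁) → x ≠ (false, μ₂) → φ true x = φ false x := by
    rintro ⟨σ, μ⟩ h1 h2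
    cases σ
    · have a1 : (μ : ℕ) ≠ μ₁ := fun e => h1 (Prod.ext rfl (Fin.ext e))
      have a2 : (μ : ℕ) ≠ μ₂ := fun e => h2 (Prod.ext rfl (Fin.ext e))
      have e : swapMap π Q true (μ : ℕ) = swapMap π Q false μ := by
        simp only [swapMap, if_true, Bool.false_eq_true, if_false]
        split_ifs <;> omega
      simp [φ, lab, iLab, e]
    · simp [φ, lab]
  let P : Blk (π * π) Q → (Bool × (ℤ × ℤ)) × Blk (π * π) Q → Prop :=
    fun z f => Sel (a₀ (g - f.1.2)) f.1.1 z₀ ∧ z - f.2 ∈ a (g - f.1.2)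
  have key : ∀ k z, ∃! f, f ∈ Finset.univ.image (φ k) ∧ P z f := by
    intro k z
    obtain ⟨x, hx, hxu⟩ := (tiles_iff o k ha₀).1 (hT k) g z₀ z
    refine ⟨φ k x, ⟨Finset.mem_image_of_mem _ (Finset.mem_univ x), hx⟩, ?_⟩
    rintro f ⟨hf, hP⟩
    obtain ⟨y, -, rfl⟩ := Finset.mem_image.1 hf
    rw [hxu y hP]
  have hex := fun z => exchange (φ false) (φ true) (hφ _) (hφ _) hne hag (P z) (key false z) (key true z)
  have hdiff : ∀ μ : Fin (hNum π Q),
      lab π R Q true ((false, μ) : Pts π Q) - lab π R Q false ((false, μ) : Pts π Q) =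
        ((iLab π Q true μ : ℤ) - iLab π Q false μ) • hgen (π * π) Q := by
    intro μ
    rw [lab, lab, pt_sub, sub_self, pt_zero_eq]
    simp
  have h₂ := inv_of_exchange (t₁ := lab π R Q false ((false, μ₁) : Pts π Q))
    (t₁' := lab π R Q true ((false, μ₁) : Pts π Q)) (t₂ := lab π R Q false ((false, μ₂) : Pts π Q))
    (t₂' := lab π R Q true ((false, μ₂) : Pts π Q)) (A₁ := a (g - place π R Q D r (false, μ₁)))
    (A₂ := a (g - place π R Q D r (false, μ₂)))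
    (s₁ := Sel (a₀ (g - place π R Q D r (false, μ₁))) false z₀) hz₀
    (fun z => (hex z).1) (fun z => (hex z).2.1) (fun z => (hex z).2.2)
    (hdiff μ₁ ▸ h.zsmul _)
  rw [hdiff] at h₂
  have hd1 : (1 + eMod π Q) / eMod π Q = 1 := by
    rw [Nat.add_div_right 1 (by omega), Nat.div_eq_of_lt hE]
  rcases hμ with ⟨-, e⟩ | ⟨-, e⟩
  · have hc : ((iLab π Q true μ₂ : ℤ) - iLab π Q false μ₂) = -1 := by
      simp [iLab, swapMap, e, hd1, Nat.div_eq_of_lt hE, (Nat.lt_of_succ_lt hE).ne']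
    rw [hc, neg_one_smul] at h₂
    simpa using h₂.neg
  · have hc : ((iLab π Q true μ₂ : ℤ) - iLab π Q false μ₂) = 1 := by
      simp [iLab, swapMap, e, hd1, Nat.div_eq_of_lt hE]
    rwa [hc, one_smul] at h₂

/-- Exactly one of the two periods. -/
theorem inv_iff (hBox : BoxPin) (o : Ok π q R Q D) [NeZero (π * π)] [NeZero Q]
    {a₀ : ℤ × ℤ → Set (Blk 16 5)} (ha₀ : Cols (box 16 5) a₀) {a : ℤ × ℤ → Set (Blk (π * π) Q)}
    (ha : Cols (box (π * π) Q) a) (hT : ∀ k, Tiles₂ (tile π R Q D r k) a₀ a) (X : ℤ × ℤ) :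
    Inv (a X) (egen (π * π) Q) ↔ ¬ Inv (a X) (hgen (π * π) Q) := by
  have h1 := (hBox (π * π) Q (Nat.mul_pos o.primePi.pos o.primePi.pos) o.Q_pos (a X) (ha X)).2.1
  have h2 := not_both o ha₀ ha (hT false) X
  exact ⟨fun he hh => h2 ⟨hh, he⟩, fun hn => h1.resolve_left hn⟩

/-- The type has period `2 D E` along the stride. -/
theorem inv_period (o : Ok π q R Q D) {a₀ : ℤ × ℤ → Set (Blk 16 5)} (ha₀ : Cols (box 16 5) a₀)
    {a : ℤ × ℤ → Set (Blk (π * π) Q)} (hT : ∀ k, Tiles₂ (tile π R Q D r k) a₀ a) (X : ℤ × ℤ) :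
    Inv (a (X + (2 * ((D * (π * Q) : ℕ) : ℤ)) • ((1 : ℤ), r))) (hgen (π * π) Q) ↔
      Inv (a X) (hgen (π * π) Q) := by
  have hE := o.one_lt_eMod
  have hl := o.one_add_lt
  have hEG := o.eMod_lt
  have hne := o.one_add_ne
  let m₁ : Fin (hNum π Q) := ⟨1, by omega⟩
  let m₂ : Fin (hNum π Q) := ⟨1 + eMod π Q, hl⟩
  have u₁ : uMap π R Q 1 = 1 := by simp [uMap, hE.ne, (hE.trans hEG).ne]
  have u₂ : uMap π R Q (1 + eMod π Q) = 1 + eMod π Q := by simp [uMap, hne]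
  have e₂ : X + place π R Q D r (false, m₂) - place π R Q D r (false, m₁) =
      X + (2 * ((D * (π * Q) : ℕ) : ℤ)) • ((1 : ℤ), r) := by
    simp only [place, m₁, m₂, u₁, u₂, add_sub_assoc, ← sub_smul]
    congr 2
    simp [eMod]
    ring
  have e₁ : X + place π R Q D r (false, m₂) - place π R Q D r (false, m₂) = X := add_sub_cancel_right _ _
  constructor
  · intro h
    have := exchange_step o ha₀ hT (μ₁ := m₁) (μ₂ := m₂) (Or.inl ⟨rfl, rfl⟩)
      (X + place π R Q D r (false, m₂)) (by rwa [e₂])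
    rwa [e₁] at this
  · intro h
    have := exchange_step o ha₀ hT (μ₁ := m₂) (μ₂ := m₁) (Or.inr ⟨rfl, rfl⟩)
      (X + place π R Q D r (false, m₂)) (by rwa [e₁])
    rwa [e₂] at this

end Vale.Agent.P043.Three.Parity
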