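import Vale.Agent.P043.Pins

/-!
P043, dimension three: pins (helper8 architect). Paper design: notes/P043/helper8-d3-design.md.

* `BoxPin`    : complements of a box in a product of two cyclic groups.
* `FillPin`   : zero-one matrices with given column sums and equal row sums.
* `EvenPin`   : the even block: a forced clock bit, flipping along the first axis.
* `ParityPin` : a line variable read against the parity, two slices in the even block.
* `GuardPin`  : the guard block which repairs the invariance by an odd step.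
* `LayerPin`  : local equations and clauses become a system with a cyclic finite factor.
-/

namespace Vale.Agent.P043.Three

/-- A block: the product of two cyclic groups of square orders. -/
abbrev Blk (p Q : ℕ) := ZMod (p * p) × ZMod (Q * Q)

/-- The digit box `[p] × [Q]` of a block. -/
def box (p Q : ℕ) : Finset (Blk p Q) :=
  (Finset.range p ×ˢ Finset.range Q).image fun u => ((u.1 : ZMod (p * p)), (u.2 : ZMod (Q * Q)))

/-- The first period. -/
def hgen (p Q : ℕ) : Blk p Q := ((p : ZMod (p * p)), 0)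

/-- The second period. -/
def egen (p Q : ℕ) : Blk p Q := (0, (Q : ZMod (Q * Q)))

/-- Invariance of a set under a translation. -/
def Inv {Γ : Type*} [AddCommGroup Γ] (A : Set Γ) (t : Γ) : Prop :=
  ∀ z, z + t ∈ A ↔ z ∈ A

/-- Every column is a complement of the digit set. -/
def Cols {Γ : Type*} [AddCommGroup Γ] (U : Finset Γ) (a : ℤ × ℤ → Set Γ) : Prop :=
  ∀ X, IsTiling U (a X)

/-- A local equation in one block. -/
def Tiles₁ {Γ : Type*} [AddCommGroup Γ] (L : Finset ((ℤ × ℤ) × Γ)) (a : ℤ × ℤ → Set Γ) : Prop :=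
  ∀ g z, ∃! f : (ℤ × ℤ) × Γ, f ∈ L ∧ z - f.2 ∈ a (g - f.1)

/-- A local equation in two blocks. -/
def Tiles₂ {Γ₀ Γ : Type*} [AddCommGroup Γ₀] [AddCommGroup Γ] (L : Finset ((ℤ × ℤ) × (Γ₀ × Γ)))
    (a₀ : ℤ × ℤ → Set Γ₀) (a : ℤ × ℤ → Set Γ) : Prop :=
  ∀ g z₀ z, ∃! f : (ℤ × ℤ) × (Γ₀ × Γ),
    f ∈ L ∧ z₀ - f.2.1 ∈ a₀ (g - f.1) ∧ z - f.2.2 ∈ a (g - f.1)

/-- The column of the even block at `X` lies in the parity half `ψ (first coordinate)`. -/
def HalfClock (a : ℤ × ℤ → Set (Blk 16 5)) (ψ : ℤ → Bool) : Prop :=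
  ∀ X z, z ∈ a X → (z.1.val % 2 = 1 ↔ ψ X.1 = true)

/-- The slice pattern of a parity block: `false` on `k = q * ((π - 1) / q)` residues modulo `π`. -/
def slicePat (π q : ℕ) (n : ℤ) : Bool :=
  decide (((q * ((π - 1) / q) : ℕ) : ℤ) ≤ n % (π : ℤ))

/-- Complements of a box: one of the two periods, and the other projection is one coset. -/
def BoxPin : Prop :=
  ∀ p Q : ℕ, 0 < p → 0 < Q → ∀ A : Set (Blk p Q), IsTiling (box p Q) A →
    Nat.card A = p * Q ∧ (Inv A (hgen p Q) ∨ Inv A (egen p Q)) ∧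
    (Inv A (hgen p Q) → ∃ β : ℕ, ∀ z ∈ A, z.2.val % Q = β) ∧
    (Inv A (egen p Q) → ∃ α : ℕ, ∀ z ∈ A, z.1.val % p = α)

/-- Prescribed column sums and equal row sums. -/
def FillPin : Prop :=
  ∀ (n K L : ℕ) (c : Fin n → ℕ), (∀ x, c x ≤ K) → (∑ x, c x) = K * L →
    ∃ C : Finset (Fin n × Fin K), (∀ x, (C.filter fun u => u.1 = x).card = c x) ∧
      ∀ y, (C.filter fun u => u.2 = y).card = L

/-- The even block with an odd stride `N`: exactly one period, type of period `4 N` along the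
first axis and constant along the second; never of period `N` when of period `2 N`. -/
def EvenPin : Prop :=
  ∀ N : ℕ, Odd N → ∃ (ι : Type) (_ : Fintype ι) (L : ι → Finset ((ℤ × ℤ) × Blk 16 5)),
    (∀ i, (L i).card = 80) ∧
    (∀ a, Cols (box 16 5) a → (∀ i, Tiles₁ (L i) a) →
      (∀ X, Inv (a X) (egen 16 5) ↔ ¬ Inv (a X) (hgen 16 5)) ∧
      (∀ X, Inv (a (X + (4 * (N : ℤ), 0))) (hgen 16 5) ↔ Inv (a X) (hgen 16 5)) ∧
      (∀ X, Inv (a (X + (0, 1))) (hgen 16 5) ↔ Inv (a X) (hgen 16 5)) ∧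
      ((∀ X, Inv (a (X + (2 * (N : ℤ), 0))) (hgen 16 5) ↔ Inv (a X) (hgen 16 5)) →
        ∀ X, Inv (a (X + ((N : ℤ), 0))) (hgen 16 5) ↔ ¬ Inv (a X) (hgen 16 5))) ∧
    (∀ ψ : ℤ → Bool, (∀ n, ψ (n + N) = ψ n) → ∃ a, Cols (box 16 5) a ∧ (∀ i, Tiles₁ (L i) a) ∧
      HalfClock a ψ ∧ ∀ X, Inv (a X) (hgen 16 5) ↔ 2 ∣ X.1)

/-- A parity block along `per = (1, r)`: exactly one period, type invariant by `2 D π q^B per`;
every line function is readable against the parity of the first coordinate. -/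
def ParityPin : Prop :=
  ∀ (π q B D : ℕ) (r : ℤ), π.Prime → q.Prime → 2 < q → q < π → π * π ≤ q ^ (B - 1) → Odd D →
    D.Coprime π → D.Coprime q →
    ∃ (ι : Type) (_ : Fintype ι)
      (L : ι → Finset ((ℤ × ℤ) × (Blk 16 5 × Blk (π * π) (q ^ B)))),
      (∀ i, (L i).card = 80 * (π * π * q ^ B)) ∧
      (∀ a₀ a, Cols (box 16 5) a₀ → Cols (box (π * π) (q ^ B)) a → (∀ i, Tiles₂ (L i) a₀ a) →
        (∀ X, Inv (a X) (egen (π * π) (q ^ B)) ↔ ¬ Inv (a X) (hgen (π * π) (q ^ B))) ∧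
        ∀ X, Inv (a (X + (2 * ((D * (π * q ^ B) : ℕ) : ℤ)) • ((1 : ℤ), r))) (hgen (π * π) (q ^ B))
          ↔ Inv (a X) (hgen (π * π) (q ^ B))) ∧
      (∀ (rest : ℤ → Bool) (a₀ : ℤ × ℤ → Set (Blk 16 5)) (c : ℤ × ℤ → Bool),
        (∀ n, rest (n + D) = rest n) → Cols (box 16 5) a₀ →
        HalfClock a₀ (fun n => xor (rest n) (slicePat π q n)) →
        (∀ X, c (X + ((1 : ℤ), r)) = c X) →
        ∃ a, Cols (box (π * π) (q ^ B)) a ∧ (∀ i, Tiles₂ (L i) a₀ a) ∧
          ∀ X, Inv (a X) (hgen (π * π) (q ^ B)) ↔ xor (c X) (decide (X.1 % 2 = 1)) = true)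

/-- The element whose period means the value `true` in a guard block. -/
def oneElt (π ρ Q : ℕ) : Blk (π * ρ) Q := (((ρ * (π * ρ) : ℕ) : ZMod (π * ρ * (π * ρ))), 0)

/-- The element whose period means the value `false` in a guard block. -/
def zeroElt (π ρ Q : ℕ) : Blk (π * ρ) Q := (((π * (π * ρ) : ℕ) : ZMod (π * ρ * (π * ρ))), 0)

/-- A guard block with stride `v`: odd period, and on every line some column lacks one value. -/
def GuardPin : Prop :=
  ∀ (q π ρ B : ℕ) (v : ℤ × ℤ), q.Prime → π.Prime → ρ.Prime → 2 < q → q * q < π → q * q < ρ →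
    π ≠ ρ → π < q ^ B → ρ < q ^ B → 0 < v.1 →
    ∃ (ι : Type) (_ : Fintype ι) (L : ι → Finset ((ℤ × ℤ) × Blk (π * ρ) (q ^ B))) (P : ℕ),
      Odd P ∧ (∀ i, (L i).card = π * ρ * q ^ B) ∧
      (∀ a, Cols (box (π * ρ) (q ^ B)) a → (∀ i, Tiles₁ (L i) a) →
        (∀ X, a (X + (P : ℤ) • v) = a X) ∧
        ∀ X, ∃ k : ℤ, ¬ (Inv (a (X + k • v)) (oneElt π ρ (q ^ B)) ∧
          Inv (a (X + k • v)) (zeroElt π ρ (q ^ B)))) ∧
      (∀ c : ℤ × ℤ → Bool, (∀ X, c (X + v) = c X) →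
        ∃ a, Cols (box (π * ρ) (q ^ B)) a ∧ (∀ i, Tiles₁ (L i) a) ∧
          ∀ X, (c X = true → Inv (a X) (oneElt π ρ (q ^ B))) ∧
            (c X = false → Inv (a X) (zeroElt π ρ (q ^ B))))

/-- The tile `{0} × U` at the origin of the plane. -/
noncomputable def vert {Γ : Type*} [AddCommGroup Γ] (U : Finset Γ) : Finset ((ℤ × ℤ) × Γ) := by
  classical exact U.image fun γ => ((0 : ℤ × ℤ), γ)

/-- A finite system in `(ℤ × ℤ) × Γ` with cyclic `Γ`, all tiles of the size of a vertical tile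
of the system, with a tiling but without periodic tilings. -/
def HasSystemThree : Prop :=
  ∃ (Γ : Type) (_ : AddCommGroup Γ) (_ : Fintype Γ) (U : Finset Γ) (ι : Type) (_ : Fintype ι)
    (F : ι → Finset ((ℤ × ℤ) × Γ)),
    (0 : Γ) ∈ U ∧ (∀ i, (F i).card = U.card) ∧ (∃ i, F i = vert U) ∧
    (∃ π : ℤ →+ Γ, Function.Surjective π) ∧
    (∃ A, SystemTiles F A) ∧ (∀ A, SystemTiles F A → ¬ IsPeriodic A)

/-- Blocks, local equations and clauses of positive literals give a system. -/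
def LayerPin : Prop :=
  ∀ (β : Type) [Fintype β] (Γ : β → Type) [∀ b, AddCommGroup (Γ b)] [∀ b, Fintype (Γ b)]
    (U : ∀ b, Finset (Γ b)), (∀ b, (0 : Γ b) ∈ U b) →
    (∃ π : ℤ →+ (∀ b, Γ b), Function.Surjective π) →
    ∀ (ι₁ : Type) [Fintype ι₁] (b₁ : ι₁ → β) (L₁ : ∀ i, Finset ((ℤ × ℤ) × Γ (b₁ i))),
    (∀ i, (L₁ i).card = (U (b₁ i)).card) →
    ∀ (ι₂ : Type) [Fintype ι₂] (b₂ c₂ : ι₂ → β)
      (L₂ : ∀ i, Finset ((ℤ × ℤ) × (Γ (b₂ i) × Γ (c₂ i)))),
    (∀ i, b₂ i ≠ c₂ i) → (∀ i, (L₂ i).card = (U (b₂ i)).card * (U (c₂ i)).card) →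
    ∀ (ι₃ : Type) [Fintype ι₃] (C : ι₃ → ∀ b, Option (Γ b)),
    (∀ i, ∃ b t, C i b = some t) →
    (∀ i b t, C i b = some t → ∀ u ∈ U b, ∀ u' ∈ U b, u - u' ≠ t) →
    let Good : (∀ b, ℤ × ℤ → Set (Γ b)) → Prop := fun a =>
      (∀ b, Cols (U b) (a b)) ∧ (∀ i, Tiles₁ (L₁ i) (a (b₁ i))) ∧
      (∀ i, Tiles₂ (L₂ i) (a (b₂ i)) (a (c₂ i))) ∧
      ∀ i X, ∃ b t, C i b = some t ∧ Inv (a b X) t
    (∃ a, Good a) →
    (∀ a, Good a → ¬ ∃ P : ℕ, 0 < P ∧
      ∀ b X, a b (X + ((P : ℤ), 0)) = a b X ∧ a b (X + (0, (P : ℤ))) = a b X) →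
    HasSystemThree

/-- The periodic tiling conjecture fails in every dimension at least three, with one tile. -/
def FailsFromThree : Prop :=
  ∀ d : ℕ, 3 ≤ d → ∃ F : Finset (Fin d → ℤ), F.Nonempty ∧ IsAperiodicTile F

/-- A system with cyclic finite factor gives tiles in all dimensions at least three. -/
def CombineThreePin : Prop :=
  HasSystemThree → FailsFromThree

/-- The gadgets give the system (primes, core, reading on a sublattice). -/
def MainPin : Prop :=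
  BoxPin → EvenPin → ParityPin → GuardPin → LayerPin → HasSystemThree

end Vale.Agent.P043.Three
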