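import Vale.Agent.P043.Three.Pins
import Vale.Agent.P043.Core.Descent
import Vale.Agent.P043.Core.Encode.Family

/-!
P043, dimension three: the line variables, their intended values, and what a reading of the
system on a sublattice gives: a two-adic family, hence no periodicity.
-/

namespace Vale.Agent.P043.Three

open Core

/-- The line variables: five bits for each of the eight slopes, and two auxiliary parities. -/
abbrev Var := (Fin 8 × Fin 5) ⊕ Bool

/-- The slope of a variable: it is constant along `(1, slope v)`. -/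
def slope : Var → ℤ
  | .inl v => -((v.1 : ℕ) : ℤ)
  | .inr false => 0
  | .inr true => -1

/-- The period vector of a variable. -/
def per (v : Var) : ℤ × ℤ := ((1 : ℤ), slope v)

/-- Five bits as a number. -/
def bitsVal (b : Fin 5 → Bool) : ℤ := ∑ i : Fin 5, if b i then 2 ^ (i : ℕ) else 0

/-- The values carried by an assignment. -/
def uVal (c : Var → Bool) (j : Fin 8) : ℤ := bitsVal fun i => c (.inl (j, i))

/-- The relation at a point: `px`, `c (inr false)` are the parities of the point, `c (inr true)`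
the parity of their sum. -/
def Rel (c : Var → Bool) (px : Bool) : Prop :=
  c (.inr true) = xor px (c (.inr false)) ∧
    ∃ a b : ℤ, Compat a b (uVal c) ∧
      (px = true ∨ c (.inr false) = true →
        a % 2 = (if c (.inr false) then 1 else 0) ∧ b % 2 = if px then 1 else 0)

/-- The intended values. -/
def intended (v : Var) (X : ℤ × ℤ) : Bool :=
  match v with
  | .inl (j, i) => Nat.testBit (Encode.oddPart (X.2 + (j : ℕ) * X.1) % 32).toNat i
  | .inr false => decide (X.2 % 2 = 1)
  | .inr true => decide ((X.1 + X.2) % 2 = 1)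

theorem intended_add (v : Var) (X : ℤ × ℤ) : intended v (X + per v) = intended v X := by
  rcases v with ⟨j, i⟩ | (_ | _)
  · have e : X.2 + -((j : ℕ) : ℤ) + (j : ℕ) * (X.1 + 1) = X.2 + (j : ℕ) * X.1 := by ring
    simp only [intended, per, slope, Prod.fst_add, Prod.snd_add, e]
  · simp [intended, per, slope]
  · have e : X.1 + 1 + (X.2 + -1) = X.1 + X.2 := by ring
    simp only [intended, per, slope, Prod.fst_add, Prod.snd_add, e]

theorem bitsVal_testBit (k : ℕ) (hk : k < 32) :
    bitsVal (fun i => Nat.testBit k i) = (k : ℤ) := by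
  revert k
  decide

theorem rel_intended (X : ℤ × ℤ) :
    Rel (fun v => intended v X) (decide (X.1 % 2 = 1)) := by
  obtain ⟨n, m⟩ := X
  refine ⟨?_, ?_⟩
  · simp only [intended]
    rcases Int.emod_two_eq_zero_or_one n with h | h <;>
      rcases Int.emod_two_eq_zero_or_one m with h' | h' <;> simp [h, h', Int.add_emod]
  · obtain ⟨a, b, ⟨hab, hj⟩, hpar⟩ := Encode.isFamily_oddPart m n
    refine ⟨a, b, ⟨hab, fun j => ?_⟩, fun h => ?_⟩
    · have hu : uVal (fun v => intended v (n, m)) j
          = Encode.oddPart (m + (j : ℕ) * n) % 32 := by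
        have h0 := Int.emod_nonneg (Encode.oddPart (m + (j : ℕ) * n)) (by omega : (32 : ℤ) ≠ 0)
        have h1 := Int.emod_lt_of_pos (Encode.oddPart (m + (j : ℕ) * n)) (by omega : (0 : ℤ) < 32)
        simp only [uVal, intended]
        rw [bitsVal_testBit _ (by omega)]
        omega
      obtain ⟨h2, h3⟩ := hj j
      refine ⟨fun hodd => ?_, fun he h4 => ?_⟩
      · have := h2 hodd
        beta_reduce at this ⊢
        rw [hu]
        omega
      · have := h3 he h4
        beta_reduce at this ⊢
        rw [hu]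
        omega
    · simp only [intended, decide_eq_true_eq] at h ⊢
      obtain ⟨ha, hb⟩ := hpar (by omega)
      constructor <;> split_ifs <;> omega

/-- A reading on the whole plane cannot have a period. -/
theorem no_periodic_reading (c : Var → ℤ × ℤ → Bool) (px : ℤ × ℤ → Bool)
    (hc : ∀ v X, c v (X + per v) = c v X)
    (hx₁ : ∀ X, px (X + (1, 0)) = !(px X)) (hx₂ : ∀ X, px (X + (0, 1)) = px X)
    (hR : ∀ X, Rel (fun v => c v X) (px X)) (P : ℕ) (hP : 0 < P)
    (hper : ∀ v X, c v (X + (0, (P : ℤ))) = c v X) : False := by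
  -- the two parities
  have hy₁ : ∀ X, c (.inr false) (X + (1, 0)) = c (.inr false) X := fun X => hc (.inr false) X
  have hy₂ : ∀ X, c (.inr false) (X + (0, 1)) = !(c (.inr false) X) := by
    intro X
    have e : X + (0, 1) + per (.inr true) = X + (1, 0) := by
      ext <;> simp [per, slope]
    have h1 := hc (.inr true) (X + (0, 1))
    have ha : c (.inr true) (X + (1, 0)) = xor (px (X + (1, 0))) (c (.inr false) (X + (1, 0))) :=
      (hR _).1
    have hb : c (.inr true) (X + (0, 1)) = xor (px (X + (0, 1))) (c (.inr false) (X + (0, 1))) :=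
      (hR _).1
    rw [e, ha, hb, hx₁, hx₂, hy₁] at h1
    revert h1
    cases px X <;> cases c (.inr false) X <;> cases c (.inr false) (X + (0, 1)) <;> simp
  -- a corner where both parities vanish
  obtain ⟨X₀, hX₀, hY₀⟩ : ∃ X₀, px X₀ = false ∧ c (.inr false) X₀ = false := by
    obtain ⟨X₁, h1⟩ : ∃ X₁, px X₁ = false := by
      cases h : px 0
      · exact ⟨0, h⟩
      · exact ⟨_, (hx₁ 0).trans (by rw [h]; rfl)⟩
    cases h : c (.inr false) X₁
    · exact ⟨X₁, h1, h⟩
    · exact ⟨X₁ + (0, 1), (hx₂ X₁).trans h1, (hy₂ X₁).trans (by rw [h]; rfl)⟩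
  have flip : ∀ (f : ℤ → Bool), (∀ k, f (k + 1) = !(f k)) → f 0 = false →
      ∀ k : ℤ, f k = decide (k % 2 = 1) := by
    intro f hf h0 k
    induction k using Int.induction_on with
    | zero => simp [h0]
    | succ i ih =>
      rw [hf, ih]
      rcases Int.emod_two_eq_zero_or_one (i : ℤ) with h | h <;> simp [h, Int.add_emod]
    | pred i ih =>
      have := hf (-(i : ℤ) - 1)
      rw [sub_add_cancel, ih] at this
      rw [show f (-(i : ℤ) - 1) = !decide (-(i : ℤ) % 2 = 1) by rw [this, Bool.not_not]]
      rcases Int.emod_two_eq_zero_or_one (-(i : ℤ)) with h | h <;> simp [h, Int.sub_emod]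
  have hpx : ∀ n m : ℤ, px (X₀ + (n, m)) = decide (n % 2 = 1) := by
    intro n m
    have h2 : Function.Periodic px ((0 : ℤ), (1 : ℤ)) := hx₂
    have e : X₀ + (n, m) = X₀ + (n, 0) + m • ((0 : ℤ), (1 : ℤ)) := by ext <;> simp
    rw [e, h2.zsmul m]
    refine flip (fun k => px (X₀ + (k, 0))) (fun k => ?_)
      (by rw [show ((0 : ℤ), (0 : ℤ)) = 0 from rfl, add_zero]; exact hX₀) n
    rw [show X₀ + (k + 1, 0) = X₀ + (k, 0) + (1, 0) by ext <;> simp [add_assoc]]
    exact hx₁ _
  have hpy : ∀ n m : ℤ, c (.inr false) (X₀ + (n, m)) = decide (m % 2 = 1) := by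
    intro n m
    have h2 : Function.Periodic (c (.inr false)) ((1 : ℤ), (0 : ℤ)) := hy₁
    have e : X₀ + (n, m) = X₀ + (0, m) + n • ((1 : ℤ), (0 : ℤ)) := by ext <;> simp
    rw [e, h2.zsmul n]
    refine flip (fun k => c (.inr false) (X₀ + (0, k))) (fun k => ?_)
      (by rw [show ((0 : ℤ), (0 : ℤ)) = 0 from rfl, add_zero]; exact hY₀) m
    rw [show X₀ + (0, k + 1) = X₀ + (0, k) + (0, 1) by ext <;> simp [add_assoc]]
    exact hy₂ _
  -- the family
  let V : Fin 8 → ℤ → ℤ := fun j k => uVal (fun v => c v (X₀ + (0, k))) j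
  have hline : ∀ (j : Fin 8) (n m : ℤ),
      uVal (fun v => c v (X₀ + (n, m))) j = V j (m + (j : ℕ) * n) := by
    intro j n m
    simp only [V, uVal]
    congr 1
    funext i
    have h2 : Function.Periodic (c (.inl (j, i))) (per (.inl (j, i))) := hc _
    have e : X₀ + (n, m) = X₀ + (0, m + (j : ℕ) * n) + n • per (.inl (j, i)) := by
      ext <;> simp [per, slope] <;> ring
    rw [e, h2.zsmul n]
  have hfam : IsFamily V := by
    intro m n
    obtain ⟨-, a, b, hab, hpar⟩ := hR (X₀ + (n, m))
    beta_reduce at hpar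
    rw [hpx, hpy] at hpar
    refine ⟨a, b, ?_, fun hne => ?_⟩
    · obtain ⟨h0, hj⟩ := hab
      refine ⟨h0, fun j => ?_⟩
      have := hj j
      rw [hline] at this
      exact this
    · simp only [decide_eq_true_eq] at hpar
      obtain ⟨ha, hb⟩ := hpar (by omega)
      split_ifs at ha <;> split_ifs at hb <;> constructor <;> omega
  refine Core.descentPin V hfam P hP fun j k => ?_
  simp only [V, uVal]
  congr 1
  funext i
  rw [show X₀ + (0, k + (P : ℤ)) = X₀ + (0, k) + (0, (P : ℤ)) by ext <;> simp [add_assoc]]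
  exact hper _ _

/-- A guard on every line turns an even period into an odd one. -/
theorem half_period {G : Type*} [AddCommGroup G] (c : G → Bool) (v : G) (P : ℕ) (hP : Odd P)
    (h2 : ∀ X, c (X + (2 : ℤ) • v) = c X)
    (hg : ∀ X, ∃ k : ℤ, c (X + k • v + (P : ℤ) • v) = c (X + k • v)) (X : G) :
    c (X + v) = c X := by
  have hper : Function.Periodic c ((2 : ℤ) • v) := h2
  obtain ⟨k, hk⟩ := hg X
  obtain ⟨t, ht⟩ := hP
  have hk' : c (X + k • v + v) = c (X + k • v) := by
    rw [← hk, show X + k • v + (P : ℤ) • v = X + k • v + v + (t : ℤ) • ((2 : ℤ) • v) by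
      subst ht; push_cast; module, hper.zsmul]
  rcases Int.even_or_odd' k with ⟨s, rfl | rfl⟩
  · rw [show X + (2 * s) • v + v = X + v + s • ((2 : ℤ) • v) by module,
      show X + (2 * s) • v = X + s • ((2 : ℤ) • v) by module, hper.zsmul, hper.zsmul] at hk'
    exact hk'
  · rw [show X + (2 * s + 1) • v + v = X + (s + 1) • ((2 : ℤ) • v) by module,
      show X + (2 * s + 1) • v = X + v + s • ((2 : ℤ) • v) by module, hper.zsmul,
      hper.zsmul] at hk'
    exact hk'.symm

end Vale.Agent.P043.Three
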